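import Vale.Agent.P196.Tile.Rigid.Virtual
import Vale.Agent.P196.Tile.Instance

/-!
P196, module D (rigidity): the ground level of the tile hierarchy as a virtual level.
-/

noncomputable section

namespace Vale.Agent.P196.Tile.Rigid

open SFT Finset

/-- The cells of the allowed window at `v`. -/
def winArea (v : V) : Finset V := Finset.Icc v (v + (1, 1))

lemma mem_winArea {u v : V} :
    u ∈ winArea v ↔ v.1 ≤ u.1 ∧ u.1 ≤ v.1 + 1 ∧ v.2 ≤ u.2 ∧ u.2 ≤ v.2 + 1 := by
  simp only [winArea, Finset.mem_Icc, Prod.le_def, Prod.fst_add, Prod.snd_add]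
  tauto

lemma self_mem_winArea (v : V) : v ∈ winArea v :=
  mem_winArea.2 ⟨le_rfl, by omega, le_rfl, by omega⟩

lemma context_winArea (v : V) : hier.sft.Context (winArea v) :=
  context_window _ fun a ha b hb => by
    rw [mem_winArea] at ha hb
    constructor <;> show _ ≤ 1 <;> omega

/-- An admissible pattern on the cells of a window shows an allowed window. -/
lemma ok_of_admissible {v : V} {a : V → hier.sft.A}
    (ha : hier.sft.Admissible (winArea v) a) :
    ∃ c : V → St, ∀ i : Fin 2 × Fin 2,
      Valid L₀ (a (v.1 + (i.1 : ℕ), v.2 + (i.2 : ℕ))).1 ∧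
      (a (v.1 + (i.1 : ℕ), v.2 + (i.2 : ℕ))).1 =
        quadAt c (((i.1 : ℕ) : ℤ) + 1, ((i.2 : ℕ) : ℤ) + 1) := by
  refine ha v fun q => mem_winArea.2 ?_
  have h1 : (q.1 : ℕ) < 2 := q.1.2
  have h2 : (q.2 : ℕ) < 2 := q.2.2
  refine ⟨?_, ?_, ?_, ?_⟩ <;> simp only <;> omega

/-- The ground level. -/
def base : Virtual hier.sft L₀ where
  Q := 1
  Q_pos := Nat.one_pos
  area := winArea
  area_ctx := context_winArea
  area_le v u hu := by
    rw [mem_winArea] at hu
    rw [mem_boxAt]
    omega
  rd v a := some (a v).1
  rd_dep v a b h := by rw [h v (self_mem_winArea v)]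
  valid v a q ha hq := by
    obtain ⟨c, hc⟩ := ok_of_admissible ha
    have := (hc (0, 0)).1
    simp only [Option.some.injEq] at hq
    simpa [← hq] using this
  near u := {u}
  near_le u v hv := by
    rw [mem_singleton.1 hv, mem_boxAt]
    simp
  cover u o' ho' h c := com_of_determined (ι := Unit) _ o'
    (fun _ => readObs winArea (fun v a => some (a v).1)
      (fun v a b h => by rw [h v (self_mem_winArea v)]) u (fun r => decide (r = some c.1)))
    (winArea u) (by simpa using self_mem_winArea u) (fun _ => subset_rfl) (context_winArea u) ho'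
    (fun a b _ _ hab => by
      have e := hab ()
      simp only [readObs, Option.some.injEq] at e
      simp only [cellObs_val, decide_eq_decide] at e ⊢
      exact ⟨fun h => Subtype.ext (e.1 (congrArg Subtype.val h)),
        fun h => Subtype.ext (e.2 (congrArg Subtype.val h))⟩)
    (fun _ => h u (mem_singleton_self u) _)
  excl v v' h := absurd ⟨one_dvd _, one_dvd _⟩ h

/-- Two cells of one window show the same tile. -/
lemma link_shared (P : St → Bool) (v p q : V) (i j : Fin 4)
    (hp : p ∈ winArea v) (hq : q ∈ winArea v)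
    (heq : ∀ c : V → St, quadAt c (p - v + (1, 1)) i = quadAt c (q - v + (1, 1)) j) :
    hier.sft.Link (base.ev p i P) (base.ev q j P) := by
  have key : ∀ a : V → hier.sft.A, hier.sft.Admissible (winArea v) a →
      (a p).1 i = (a q).1 j := by
    intro a ha
    obtain ⟨c, hc⟩ := ok_of_admissible ha
    have at' : ∀ r : V, r ∈ winArea v → (a r).1 = quadAt c (r - v + (1, 1)) := by
      intro r hr
      rw [mem_winArea] at hr
      obtain ⟨n, hn⟩ : ∃ n : Fin 2, ((n : ℕ) : ℤ) = r.1 - v.1 :=
        ⟨⟨(r.1 - v.1).toNat, by omega⟩, by simp only; omega⟩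
      obtain ⟨m, hm⟩ : ∃ m : Fin 2, ((m : ℕ) : ℤ) = r.2 - v.2 :=
        ⟨⟨(r.2 - v.2).toNat, by omega⟩, by simp only; omega⟩
      have h := (hc (n, m)).2
      rw [show ((v.1 + ((n : ℕ) : ℤ), v.2 + ((m : ℕ) : ℤ)) : V) = r by
        ext <;> simp only <;> omega] at h
      rw [h]
      congr 1
      ext <;> simp [hn, hm]
    rw [at' p hp, at' q hq, heq c]
  let op : hier.sft.Obs := hier.sft.compObs p (fun s : hier.sft.A => P (s.1 i)) true
  let oq : hier.sft.Obs := hier.sft.compObs q (fun s : hier.sft.A => P (s.1 j)) true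
  have e1 : hier.sft.Link (base.ev p i P) op :=
    link_same (context_winArea p) subset_rfl (by simpa [op] using self_mem_winArea p)
      fun a _ => by simp [op, base]
  have e2 : hier.sft.Link (base.ev q j P) oq :=
    link_same (context_winArea q) subset_rfl (by simpa [oq] using self_mem_winArea q)
      fun a _ => by simp [oq, base]
  have e3 : hier.sft.Link op oq :=
    link_same (context_winArea v) (by simpa [op] using hp) (by simpa [oq] using hq)
      fun a ha => by simp [op, oq, key a ha]
  exact e1.trans (e3.trans e2.symm)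

/-- Neighbouring letters show their common tiles. -/
theorem base_transfers : base.Transfers where
  right₀ v P := by
    refine link_shared P v _ _ _ _ ?_ (self_mem_winArea v) fun c => ?_
    · rw [mem_winArea]; simp [base]
    · simp only [quadAt]; congr 1; ext <;> simp [dir, base]
  right₂ v P := by
    refine link_shared P v _ _ _ _ ?_ (self_mem_winArea v) fun c => ?_
    · rw [mem_winArea]; simp [base]
    · simp only [quadAt]; congr 1; ext <;> simp [dir, base]
  up₀ v P := by
    refine link_shared P v _ _ _ _ ?_ (self_mem_winArea v) fun c => ?_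
    · rw [mem_winArea]; simp [base]
    · simp only [quadAt]; congr 1; ext <;> simp [dir, base]
  up₁ v P := by
    refine link_shared P v _ _ _ _ ?_ (self_mem_winArea v) fun c => ?_
    · rw [mem_winArea]; simp [base]
    · simp only [quadAt]; congr 1; ext <;> simp [dir, base]

end Vale.Agent.P196.Tile.Rigid
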