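import Vale.Agent.P196.Tile.Rigid.Parent

/-!
P196, module D (rigidity): a head together with a bit is one event in neighbouring quarters.

On the corner of a quarter the head turns the bit of a crossing into a property of the cell where
the line of that bit leaves the corner. From there the line reaches the next quarter, and on the
corner of that one the head turns it back into the bit of a crossing.
-/

noncomputable section

namespace Vale.Agent.P196.Tile.Rigid

open SFT Finset ChildRules
open scoped Classical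

variable {S : SFT} {L : ℕ}

/-- Sizes of a corner. -/
lemma corner_sizes (hL : L₀ ≤ L) : cornerH L + 12 ≤ meetD L ∧ 7 * M L + 12 ≤ meetD L := by
  have hM := eight_lt_M hL
  have hb := lastK_bound hL
  have hHM : H L = M L * M L ^ 2 := by rw [H, ← pow_succ']
  have h1 : 8 * M L ≤ M L ^ 2 := by rw [sq]; exact Nat.mul_le_mul_right _ (by omega)
  have h2 : (lastK L + 4) * M L ^ 2 * 2 ≤ M L * M L ^ 2 := by
    rw [Nat.mul_right_comm]
    exact Nat.mul_le_mul_right _ (by omega)
  rw [Nat.add_mul] at h2
  have e : meetD L = H L / 2 - M L ^ 2 := rfl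
  have e' : cornerH L = M L + (lastK L + 1) * M L ^ 2 := rfl
  rw [Nat.add_mul, one_mul] at e'
  omega

lemma box_mem (h : V) {i j : ℕ} (hi : i ≤ 7 * M L) (hj : j ≤ cornerH L) :
    loc h i j ∈ box L h := by
  simp only [box, loc, Finset.mem_Icc, Prod.le_def, Prod.fst_add, Prod.snd_add]
  omega

lemma head_mem (h : V) : h ∈ box L h := by
  simp only [box, Finset.mem_Icc, Prod.le_def, Prod.fst_add, Prod.snd_add]
  omega

/-- A corner in a patch. -/
lemma corner_of_patch {c : V → St} {h : V} (hc : Patch L (Inv L) (box L h) c)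
    (hx : (c h).x = 0) (hy : (c h).y = 0) : Corner L c h := by
  refine ⟨fun i j h1 hi h2 hj => hc.quad _ fun k => ?_, hy, hx⟩
  fin_cases k <;>
    simp only [box, dir, Finset.mem_Icc, Prod.le_def, Prod.fst_add, Prod.snd_add, Prod.fst_sub,
      Prod.snd_sub, Fin.isValue, Fin.reduceFinMk, Fin.zero_eta, Fin.mk_one] <;>
    simp <;> omega

/-- The bit `j` where its row leaves the corner, unless it stops there. -/
def RightEnd (j : Fin 4) (t : St) : Prop :=
  t.fin.h j = true ∧ (j = 0 ∨ j = 2 ∨ t.fin.qx ≠ some true)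

/-- The bit `j` of the quarter on the left, read at the column `0`. -/
def RightStart (j : Fin 4) (t : St) : Prop :=
  if t.fin.qx = some false then (j = 0 ∧ t.fin.h 1 = true) ∨ (j = 2 ∧ t.fin.h 3 = true)
  else t.fin.h j = true

/-- The bit `j` where its column meets the middle row, unless it stops there. -/
def UpEnd (j : Fin 4) (t : St) : Prop :=
  t.fin.vb j = true ∧ (j = 0 ∨ j = 1 ∨ t.fin.qy ≠ some true)

/-- The bit `j` of the quarter below, read at the row `0`. -/
def UpStart (j : Fin 4) (t : St) : Prop :=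
  if t.fin.qy = some false then (j = 0 ∧ t.fin.vb 2 = true) ∨ (j = 1 ∧ t.fin.vb 3 = true)
  else t.fin.vb j = true

/-- The step over the cut. -/
lemma cut_step (hL : L₀ ≤ L) {t l : St} (hr : HRules L t l) {Y : ℕ} (hY : IsWire L Y)
    (hty : t.y = Y) (htx : t.x = cutX L + 1) (hlk : l.xk = true) (hlx : l.x = cutX L) (j : Fin 4) :
    t.fin.h j = true ↔ RightEnd j l := by
  have hcut : cutX L = 7 * M L := rfl
  have hM := M_pos L
  have hw : (claims L t).isWire = true := claim_wire.2 (hty.symm ▸ hY)
  have hh : HRule (Tile.cell L t) (Tile.cell L l) := hr.f.h hw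
  unfold HRule at hh
  rw [if_neg (fun h' => by have := ((claim_x0 hL).1 h'.1).2; omega)] at hh
  unfold RightEnd
  by_cases hq : l.fin.qx = some true
  · rw [if_pos ⟨(claim_cut hL).2 ⟨hlk, hlx⟩, hq⟩] at hh
    have e : t.fin.h = ![l.fin.h 0, false, l.fin.h 2, false] := hh
    rw [e]
    fin_cases j <;> simp [hq]
  · rw [if_neg (fun h' => hq h'.2),
      if_neg (fun h' => by have := ((claim_x0 hL).1 h'.1).2; omega)] at hh
    have e : t.fin.h = l.fin.h := hh
    rw [e]
    simp [hq]

/-- The step over the boundary on the right. -/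
lemma right_boundary (hL : L₀ ≤ L) {t l : St} (hr : HRules L t l) {Y : ℕ} (hY : IsWire L Y)
    (hty : t.y = Y) (htk : t.xk = true) (htx : t.x = 0) (hlx : l.x = H L - 1) (j : Fin 4) :
    RightStart j t ↔ l.fin.h j = true := by
  obtain ⟨-, -, s3, s4, -⟩ := sizes hL
  have hM := M_pos L
  have hw : (claims L t).isWire = true := claim_wire.2 (hty.symm ▸ hY)
  have hh : HRule (Tile.cell L t) (Tile.cell L l) := hr.f.h hw
  have hx0 : (claims L t).x0 = true := (claim_x0 hL).2 ⟨htk, htx⟩
  unfold HRule at hh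
  unfold RightStart
  by_cases hq : t.fin.qx = some false
  · rw [if_pos ⟨hx0, hq⟩] at hh
    have e : t.fin.h = ![false, l.fin.h 0, false, l.fin.h 2] := hh
    obtain ⟨r1, r3⟩ := hr.r.right hx0 hq
    have r1' : l.fin.h 1 = false := r1
    have r3' : l.fin.h 3 = false := r3
    rw [if_pos hq, e]
    fin_cases j <;> simp [r1', r3']
  · rw [if_neg (fun h' => hq h'.2),
      if_neg (fun h' => by have := ((claim_cut hL).1 h'.1).2; omega),
      if_neg (fun h' => by have := ((claim_x0 hL).1 h'.1).2; omega)] at hh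
    have e : t.fin.h = l.fin.h := hh
    rw [if_neg hq, e]

/-- The step over the middle row. -/
lemma half_step (hL : L₀ ≤ L) {t d : St} (hr : VRules L t d) (htk : t.xk = true)
    (hb : IsBundle L t.x) (hty : t.y = halfY L + 1) (hdy : d.y = halfY L) (j : Fin 4) :
    t.fin.vb j = true ↔ UpEnd j d := by
  have hh : VbRule (Tile.cell L t) (Tile.cell L d) := hr.f.vb (claim_bundle.2 ⟨htk, hb⟩)
  have hH : 0 < halfY L := by have := M_pos L; unfold halfY; omega
  unfold VbRule at hh
  rw [if_neg (fun h' => by have := (claim_y0 (L := L)).1 h'.1; omega)] at hh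
  unfold UpEnd
  by_cases hq : d.fin.qy = some true
  · rw [if_pos ⟨(claim_halfY hL).2 hdy, hq⟩] at hh
    have e : t.fin.vb = ![d.fin.vb 0, d.fin.vb 1, false, false] := hh
    rw [e]
    fin_cases j <;> simp [hq]
  · rw [if_neg (fun h' => hq h'.2),
      if_neg (fun h' => by have := (claim_y0 (L := L)).1 h'.1; omega)] at hh
    have e : t.fin.vb = d.fin.vb := hh
    rw [e]
    simp [hq]

/-- The step over the boundary above. -/
lemma up_boundary (hL : L₀ ≤ L) {t d : St} (hr : VRules L t d) (htk : t.xk = true)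
    (hb : IsBundle L t.x) (hty : t.y = 0) (hdy : d.y = H L - 1) (j : Fin 4) :
    UpStart j t ↔ d.fin.vb j = true := by
  have hh : VbRule (Tile.cell L t) (Tile.cell L d) := hr.f.vb (claim_bundle.2 ⟨htk, hb⟩)
  obtain ⟨-, -, -, -, s5, -, s6, s7, -⟩ := sizes hL
  have hM := M_pos L
  obtain ⟨-, -, s3, -⟩ := sizes hL
  obtain ⟨s1, -⟩ := sizes hL
  unfold VbRule at hh
  unfold UpStart
  by_cases hq : t.fin.qy = some false
  · rw [if_pos ⟨claim_y0.2 hty, hq⟩] at hh
    have e : t.fin.vb = ![false, false, d.fin.vb 0, d.fin.vb 1] := hh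
    obtain ⟨r2, r3⟩ := hr.r.top (claim_y0.2 hty) hq
    have r2' : d.fin.vb 2 = false := r2
    have r3' : d.fin.vb 3 = false := r3
    rw [if_pos hq, e]
    fin_cases j <;> simp [r2', r3']
  · rw [if_neg (fun h' => hq h'.2),
      if_neg (fun h' => by have := (claim_halfY hL).1 h'.1; omega),
      if_neg (fun h' => by have := (claim_y0 (L := L)).1 h'.1; omega)] at hh
    have e : t.fin.vb = d.fin.vb := hh
    rw [if_neg hq, e]

namespace Virtual

variable {Λ : Virtual S L} {o : V} (hL : L₀ ≤ L) (hl : Λ.Linked) (hM : Meets Λ)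

include hL hl hM in
/-- The areas of a corner form a context. -/
lemma box_ctx (h : V) : S.Context (Λ.areaU o (box L h)) := by
  obtain ⟨c1, c2⟩ := corner_sizes hL
  refine context_areaU hL hl hM o fun i hi i' hi' => ?_
  simp only [box, Finset.mem_Icc, Prod.le_def, Prod.fst_add, Prod.snd_add] at hi hi'
  omega

include hl in
/-- Two cells of a context as one event of patches. -/
lemma link_pair_box {C : Finset V} (hI : Λ.Invariant o (Inv L)) (hU : S.Context (Λ.areaU o C))
    {i i' : V} (hi : i ∈ C) (hi' : i' ∈ C) (P P' : St → Prop) :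
    S.Link ((Λ.T o i P).and (Λ.T o i' P')) (Λ.obsP o C fun c => P (c i) ∧ P' (c i')) := by
  refine link_of_fun (ι := Bool) (fun b => if b then Λ.T o i P else Λ.T o i' P')
    (fun b => if b then Λ.obsP o C (fun c => P (c i)) else Λ.obsP o C fun c => P' (c i'))
    (fun g => g true && g false) hU hU (union_subset (Λ.area_sub hi) (Λ.area_sub hi')) subset_rfl
    (fun b => by cases b; exacts [Λ.area_sub hi', Λ.area_sub hi])
    (fun b => by cases b <;> exact subset_rfl) (fun a _ => by simp) (fun a _ => ?_)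
    (fun b => by cases b; exacts [link_cell hl hI hU hi' P', link_cell hl hI hU hi P])
  simp only [if_true, Bool.false_eq_true, if_false]
  rw [Bool.eq_iff_iff, Bool.and_eq_true, obsP_val_iff, obsP_val_iff, obsP_val_iff]
  tauto

include hL hl hM in
/-- On a corner a head exchanges equivalent properties of its cells. -/
lemma link_corner (h : V) (bx by' : Bool) {i i' : V} (hi : i ∈ box L h) (hi' : i' ∈ box L h)
    (P P' : St → Prop)
    (heq : ∀ c, Corner L c h → (c h).fin.qx = some bx → (c h).fin.qy = some by' →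
      (P (c i) ↔ P' (c i'))) :
    S.Link ((Λ.headObs o h bx by').and (Λ.T o i P))
      ((Λ.headObs o h bx by').and (Λ.T o i' P')) := by
  have hU := box_ctx (o := o) hL hl hM h
  have hI := invariant (o := o) hL hl
  refine (link_pair_box hl hI hU (head_mem h) hi _ _).trans (Link.trans ?_
    (link_pair_box hl hI hU (head_mem h) hi' _ _).symm)
  refine link_patch hl hI hU fun c hc => and_congr_right fun hd => ?_
  obtain ⟨⟨-, hx, hy, hqx⟩, -, -, -, hqy⟩ := hd
  exact heq c (corner_of_patch hc hx hy) hqx hqy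

include hL hl hM in
/-- Linked pairs of events inside two corners. -/
lemma link_two (h h' : V) {i i' : V} (hi : i ∈ box L h) (hi' : i' ∈ box L h')
    {P P' Q Q' : St → Prop} (e1 : S.Link (Λ.T o h P) (Λ.T o h' P'))
    (e2 : S.Link (Λ.T o i Q) (Λ.T o i' Q')) :
    S.Link ((Λ.T o h P).and (Λ.T o i Q)) ((Λ.T o h' P').and (Λ.T o i' Q')) :=
  link_of_fun (ι := Bool) (fun b => if b then Λ.T o h P else Λ.T o i Q)
    (fun b => if b then Λ.T o h' P' else Λ.T o i' Q') (fun g => g true && g false)
    (box_ctx (o := o) hL hl hM h) (box_ctx (o := o) hL hl hM h')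
    (union_subset (Λ.area_sub (head_mem h)) (Λ.area_sub hi))
    (union_subset (Λ.area_sub (head_mem h')) (Λ.area_sub hi'))
    (fun b => by cases b; exacts [Λ.area_sub hi, Λ.area_sub (head_mem h)])
    (fun b => by cases b; exacts [Λ.area_sub hi', Λ.area_sub (head_mem h')])
    (fun a _ => by simp) (fun a _ => by simp) (fun b => by cases b; exacts [e2, e1])

include hL hl in
/-- The position in the next quarter is the same event. -/
lemma link_next (h h' : V) (hd : (H L : ℤ) ∣ h'.1 - h.1 ∧ (H L : ℤ) ∣ h'.2 - h.2) {X Y X' Y' : ℕ}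
    (hX : X < H L) (hY : Y < H L) (hk : knownX L X Y = true) (hX' : X' < H L) (hY' : Y' < H L)
    (hk' : knownX L X' Y' = true) :
    S.Link (Λ.T o (loc h' X' Y') (Exp L (-h') (loc h' X' Y')))
      (Λ.T o (loc h X Y) (Exp L (-h) (loc h X Y))) := by
  refine (link_pos hL hl h' hX' hY' hk').trans (Link.trans ?_ (link_pos hL hl h hX hY hk).symm)
  have e : ∀ i : V, Exp L (-h') i = Exp L (-h) i := fun i => by
    refine exp_congr ?_ ?_ i
    · rw [show (-h').1 - (-h).1 = -(h'.1 - h.1) by simp; ring]
      exact dvd_neg.2 hd.1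
    · rw [show (-h').2 - (-h).2 = -(h'.2 - h.2) by simp; ring]
      exact dvd_neg.2 hd.2
  show S.Link (Λ.T o (-(-h').1, -(-h').2) (Exp L (-h') (-(-h').1, -(-h').2))) _
  rw [e]
  refine link_zero hL hl _ _ ?_
  simp only [Prod.snd_neg, neg_neg, neg_add_eq_sub]
  exact Int.emod_eq_zero_of_dvd hd.2

include hL hl in
/-- From the cut of a quarter to the column `0` of the next one. -/
lemma right_chain (h : V) {k : ℕ} (hk : k ≤ lastK L) (j : Fin 4) :
    S.Link (Λ.T o (loc h (cutX L) (wireY L k)) (At (cutX L) (wireY L k) (RightEnd j)))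
      (Λ.T o (loc (h + ((H L : ℤ), 0)) 0 (wireY L k)) (At 0 (wireY L k) (RightStart j))) := by
  obtain ⟨-, -, s3, s4, -, -, s6, -, sk⟩ := sizes hL
  obtain ⟨k1, -, -⟩ := sk k hk
  have hM := M_pos L
  have hlive := live_wireY hL hk
  have hkn : ∀ X, knownX L X (wireY L k) = true := fun X => by simp [knownX, hlive]
  have hY : wireY L k < H L := by omega
  -- over the cut
  refine Link.trans (link_right (o := o) hL hl h (X := cutX L) (by omega) hY (hkn _) (hkn _)
    (fun t => t.fin.h j = true) (RightEnd j) fun t l hr _ _ _ htx hty hlk hlx _ =>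
      cut_step hL hr hlive.1 hty htx hlk hlx j).symm ?_
  -- along the row
  refine Link.trans (link_range (fun X => Λ.T o (loc h X (wireY L k))
    (At X (wireY L k) fun t => t.fin.h j = true)) (fun _ => Λ.T_ctx _ _ _) (a := cutX L + 1)
    (b := H L - 1) (fun n hn hn' => ?_) le_rfl (by omega) (show cutX L + 1 ≤ H L - 1 by omega)
    le_rfl) ?_
  · refine link_right hL hl h (by omega) hY (hkn _) (hkn _) _ _
      fun t l hr _ _ _ htx hty _ hlx _ => ?_
    have hw : (claims L t).isWire = true := claim_wire.2 (hty ▸ hlive.1)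
    have hh : HRule (Tile.cell L t) (Tile.cell L l) := hr.f.h hw
    unfold HRule at hh
    rw [if_neg (fun h' => by have := ((claim_x0 hL).1 h'.1).2; omega),
      if_neg (fun h' => by have := ((claim_cut hL).1 h'.1).2; omega),
      if_neg (fun h' => by have := ((claim_x0 hL).1 h'.1).2; omega)] at hh
    have e : t.fin.h = l.fin.h := hh
    rw [e]
  -- over the boundary
  set h' := h + ((H L : ℤ), 0) with hh'
  have e1 : loc h' 0 (wireY L k) - dir 0 = loc h' 0 (wireY L k) := by simp [dir]
  have e2 : loc h' 0 (wireY L k) - dir 1 = loc h (H L - 1) (wireY L k) := by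
    have := H_pos L
    ext <;> simp [loc, dir, hh'] <;> omega
  have := link_step' (o := o) hL hl (loc h' 0 (wireY L k)) 0 1
    (A := Exp L (-h') (loc h' 0 (wireY L k))) (A' := Exp L (-h) (loc h (H L - 1) (wireY L k)))
    (by
      rw [e1, e2]
      exact link_next hL hl h h' ⟨by simp [hh'], by simp [hh']⟩ (by omega) hY (hkn _) (H_pos L) hY
        (hkn _))
    (At 0 (wireY L k) (RightStart j)) (At (H L - 1) (wireY L k) fun t => t.fin.h j = true)
    fun q hq _ hiff => ?_
  · rw [e1, e2] at this
    exact this.symm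
  · rw [exp_loc (H_pos L) hY, exp_loc (by omega) hY] at hiff
    have hr := (hRules hq).1
    unfold At
    constructor
    · rintro ⟨a, b, c, d⟩
      obtain ⟨a', b', c'⟩ := hiff.1 ⟨a, b, c⟩
      exact ⟨a', b', c', (right_boundary hL hr hlive.1 c a b b' j).1 d⟩
    · rintro ⟨a', b', c', d⟩
      obtain ⟨a, b, c⟩ := hiff.2 ⟨a', b', c'⟩
      exact ⟨a, b, c, (right_boundary hL hr hlive.1 c a b b' j).2 d⟩

include hL hl in
/-- From the middle row of a quarter to the row `0` of the one above. -/
lemma up_chain (h : V) {k : ℕ} (hk : k ≤ lastK L) (j : Fin 4) :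
    S.Link (Λ.T o (loc h (bitX L k) (halfY L)) (At (bitX L k) (halfY L) (UpEnd j)))
      (Λ.T o (loc (h + (0, (H L : ℤ))) (bitX L k) 0) (At (bitX L k) 0 (UpStart j))) := by
  obtain ⟨-, -, s3, s4, -, -, s6, s7, sk⟩ := sizes hL
  obtain ⟨-, -, k3⟩ := sk k hk
  obtain ⟨s1, -, -, -, s5, -⟩ := sizes hL
  have hM := M_pos L
  have hbu := (Corner.bundle_bitX hL hk).1
  have hkn : ∀ Y, knownX L (bitX L k) Y = true := fun Y => knownX_band hL (by omega) Y
  have hX : bitX L k < H L := by omega
  -- over the middle row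
  refine Link.trans (link_up (o := o) hL hl h (Y := halfY L) hX (by omega) (hkn _) (hkn _)
    (fun t => t.fin.vb j = true) (UpEnd j) fun t d hr _ _ htk htx hty _ _ hdy =>
      half_step hL hr htk (htx.symm ▸ hbu) hty hdy j).symm ?_
  -- along the column
  refine Link.trans (link_range (fun Y => Λ.T o (loc h (bitX L k) Y)
    (At (bitX L k) Y fun t => t.fin.vb j = true)) (fun _ => Λ.T_ctx _ _ _) (a := halfY L + 1)
    (b := H L - 1) (fun n hn hn' => ?_) le_rfl (by omega) (show halfY L + 1 ≤ H L - 1 by omega)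
    le_rfl) ?_
  · refine link_up hL hl h hX (by omega) (hkn _) (hkn _) _ _
      fun t d hr _ _ htk htx hty _ _ hdy => ?_
    have hh : VbRule (Tile.cell L t) (Tile.cell L d) :=
      hr.f.vb (claim_bundle.2 ⟨htk, htx.symm ▸ hbu⟩)
    unfold VbRule at hh
    rw [if_neg (fun h' => by have := (claim_y0 (L := L) (t := t)).1 h'.1; omega),
      if_neg (fun h' => by have := (claim_halfY hL (t := d)).1 h'.1; omega),
      if_neg (fun h' => by have := (claim_y0 (L := L) (t := d)).1 h'.1; omega)] at hh
    have e : t.fin.vb = d.fin.vb := hh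
    rw [e]
  -- over the boundary
  set h' := h + (0, (H L : ℤ)) with hh'
  have e1 : loc h' (bitX L k) 0 - dir 0 = loc h' (bitX L k) 0 := by simp [dir]
  have e2 : loc h' (bitX L k) 0 - dir 2 = loc h (bitX L k) (H L - 1) := by
    have := H_pos L
    ext <;> simp [loc, dir, hh'] <;> omega
  have := link_step' (o := o) hL hl (loc h' (bitX L k) 0) 0 2
    (A := Exp L (-h') (loc h' (bitX L k) 0)) (A' := Exp L (-h) (loc h (bitX L k) (H L - 1)))
    (by
      rw [e1, e2]
      exact link_next hL hl h h' ⟨by simp [hh'], by simp [hh']⟩ hX (by omega) (hkn _) hX (H_pos L)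
        (hkn _))
    (At (bitX L k) 0 (UpStart j)) (At (bitX L k) (H L - 1) fun t => t.fin.vb j = true)
    fun q hq _ hiff => ?_
  · rw [e1, e2] at this
    exact this.symm
  · rw [exp_loc hX (H_pos L), exp_loc hX (by omega)] at hiff
    have hr := (vRules hq).1
    unfold At
    constructor
    · rintro ⟨a, b, c, d⟩
      obtain ⟨a', b', c'⟩ := hiff.1 ⟨a, b, c⟩
      exact ⟨a', b', c', (up_boundary hL hr a (b.symm ▸ hbu) c c' j).1 d⟩
    · rintro ⟨a', b', c', d⟩
      obtain ⟨a, b, c⟩ := hiff.2 ⟨a', b', c'⟩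
      exact ⟨a, b, c, (up_boundary hL hr a (b.symm ▸ hbu) c c' j).2 d⟩

include hL in
lemma crossing_mem (h : V) {k : ℕ} (hk : k ≤ lastK L) :
    loc h (bitX L k) (wireY L k) ∈ box L h := by
  refine box_mem h ?_ (Corner.wireY_le (k := k) (by omega))
  have := (Corner.bundle_bitX hL hk).2.2
  omega

/-- The bit read at a crossing of a corner. -/
lemma bits_at {c : V → St} {h : V} {k : ℕ} (hk : k ≤ lastK L) :
    Corner.bits L c h k = (c (loc h (bitX L k) (wireY L k))).fin.h := by
  unfold Corner.bits
  rw [if_pos hk]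
  rfl

include hL in
lemma at_crossing {c : V → St} {h : V} (hc : Corner L c h) {k : ℕ} (hk : k ≤ lastK L) (j : Fin 4) :
    At (bitX L k) (wireY L k) (fun t => t.fin.h j = true) (c (loc h (bitX L k) (wireY L k))) ↔
      Corner.bits L c h k j = true := by
  have hx : bitX L k ≤ 7 * M L := by have := (Corner.bundle_bitX hL hk).2.2; omega
  obtain ⟨p1, p2, p3⟩ := hc.pos hL hx (Corner.wireY_le (k := k) (by omega))
  rw [bits_at hk]
  exact ⟨fun h => h.2.2.2, fun h => ⟨p1, p2, p3, h⟩⟩

include hL in
/-- At the cut. -/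
lemma at_cut {c : V → St} {h : V} (hc : Corner L c h) {k : ℕ} (hk : k ≤ lastK L) {bx : Bool}
    (hqx : (c h).fin.qx = some bx) {j σ : Fin 4} (hm : RightMap bx j σ) :
    At (cutX L) (wireY L k) (RightEnd j) (c (loc h (cutX L) (wireY L k))) ↔
      Corner.bits L c h k j = true := by
  have hY : wireY L k ≤ cornerH L := Corner.wireY_le (k := k) (by omega)
  obtain ⟨p1, p2, p3⟩ := hc.pos hL (i := cutX L) le_rfl hY
  have hM := M_pos L
  have e : (c (loc h (cutX L) (wireY L k))).fin.h = Corner.bits L c h k :=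
    hc.h_wire hL hk (show 1 ≤ cutX L by unfold cutX; omega) le_rfl
  have q : (c (loc h (cutX L) (wireY L k))).fin.qx = some bx := (hc.qx_cut hL hY).trans hqx
  unfold At RightEnd
  rw [e, q]
  refine ⟨fun h => h.2.2.2.1, fun h => ⟨p1, p2, p3, h, ?_⟩⟩
  unfold RightMap at hm
  cases bx
  · exact Or.inr (Or.inr (by simp))
  · simp only [if_true] at hm
    rcases hm with ⟨e', -⟩ | ⟨e', -⟩
    · exact Or.inl e'
    · exact Or.inr (Or.inl e')

include hL in
/-- At the column `0`. -/
lemma at_start {c : V → St} {h : V} (hc : Corner L c h) {k : ℕ} (hk : k ≤ lastK L) {bx : Bool}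
    (hqx : (c h).fin.qx = some (!bx)) {j σ : Fin 4} (hm : RightMap bx j σ) :
    At 0 (wireY L k) (RightStart j) (c (loc h 0 (wireY L k))) ↔
      Corner.bits L c h k σ = true := by
  have hY : wireY L k ≤ cornerH L := Corner.wireY_le (k := k) (by omega)
  obtain ⟨p1, p2, p3⟩ := hc.pos hL (i := 0) (Nat.zero_le _) hY
  have q : (c (loc h 0 (wireY L k))).fin.qx = some (!bx) := (hc.qx_x0 hL hY).trans hqx
  obtain ⟨z1, z2⟩ := hc.h_zero_step hL hk
  have key : RightStart j (c (loc h 0 (wireY L k))) ↔ Corner.bits L c h k σ = true := by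
    unfold RightStart
    unfold RightMap at hm
    cases bx
    · simp only [Bool.false_eq_true, if_false] at hm
      subst hm
      have e : (c (loc h 0 (wireY L k))).fin.h = Corner.bits L c h k :=
        z2 (by rw [hqx]; simp)
      rw [if_neg (by rw [q]; simp), e]
    · obtain ⟨e1, e3⟩ := z1 hqx
      have e1' : (c (loc h 0 (wireY L k))).fin.h 1 = Corner.bits L c h k 1 := e1
      have e3' : (c (loc h 0 (wireY L k))).fin.h 3 = Corner.bits L c h k 3 := e3
      simp only [if_true] at hm
      rw [if_pos (by rw [q]; rfl), e1', e3']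
      rcases hm with ⟨rfl, rfl⟩ | ⟨rfl, rfl⟩ <;> simp
  exact ⟨fun h => key.1 h.2.2.2, fun h => ⟨p1, p2, p3, key.2 h⟩⟩

include hL in
/-- At the row `0`. -/
lemma at_foot {c : V → St} {h : V} (hc : Corner L c h) {k : ℕ} (hk : k ≤ lastK L) {by' : Bool}
    (hqy : (c h).fin.qy = some (!by')) {j σ : Fin 4} (hm : UpMap by' j σ) :
    At (bitX L k) 0 (UpStart j) (c (loc h (bitX L k) 0)) ↔
      Corner.bits L c h k σ = true := by
  have hX : bitX L k ≤ 7 * M L := by have := (Corner.bundle_bitX hL hk).2.2; omega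
  obtain ⟨p1, p2, p3⟩ := hc.pos hL (j := 0) hX (Nat.zero_le _)
  have q : (c (loc h (bitX L k) 0)).fin.qy = some (!by') := (hc.qy_y0 hL hX).trans hqy
  obtain ⟨z1, z2⟩ := hc.vb_zero_step hL hk
  have key : UpStart j (c (loc h (bitX L k) 0)) ↔ Corner.bits L c h k σ = true := by
    unfold UpStart
    unfold UpMap at hm
    cases by'
    · simp only [Bool.false_eq_true, if_false] at hm
      subst hm
      have e : (c (loc h (bitX L k) 0)).fin.vb = Corner.bits L c h k :=
        z2 (by rw [hqy]; simp)
      rw [if_neg (by rw [q]; simp), e]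
    · obtain ⟨e2, e3⟩ := z1 hqy
      have e2' : (c (loc h (bitX L k) 0)).fin.vb 2 = Corner.bits L c h k 2 := e2
      have e3' : (c (loc h (bitX L k) 0)).fin.vb 3 = Corner.bits L c h k 3 := e3
      simp only [if_true] at hm
      rw [if_pos (by rw [q]; rfl), e2', e3']
      rcases hm with ⟨rfl, rfl⟩ | ⟨rfl, rfl⟩ <;> simp
  exact ⟨fun h => key.1 h.2.2.2, fun h => ⟨p1, p2, p3, key.2 h⟩⟩

include hL hl hM

/-- A head with a bit and the quarter on the right. -/
lemma bit_right (h : V) (bx by' : Bool) {k : ℕ} (hk : k ≤ lastK L) {j σ : Fin 4}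
    (hm : RightMap bx j σ) :
    S.Link (Λ.headBit o h bx by' k j)
      (Λ.headBit o (h + ((H L : ℤ), 0)) (!bx) by' k σ) := by
  set h' := h + ((H L : ℤ), 0)
  have hY : wireY L k ≤ cornerH L := Corner.wireY_le (k := k) (by omega)
  have hcut : loc h (cutX L) (wireY L k) ∈ box L h := box_mem h le_rfl hY
  have hstart : loc h' 0 (wireY L k) ∈ box L h' := box_mem h' (Nat.zero_le _) hY
  refine (link_corner hL hl hM h bx by' (crossing_mem hL h hk) hcut
    (At (bitX L k) (wireY L k) fun t => t.fin.h j = true) (At (cutX L) (wireY L k) (RightEnd j))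
    fun c hc hqx _ => (at_crossing hL hc hk j).trans (at_cut hL hc hk hqx hm).symm).trans ?_
  refine (link_two hL hl hM h h' hcut hstart (head_right hL hl hM h bx by').symm
    (right_chain hL hl h hk j)).trans ?_
  exact link_corner hL hl hM h' (!bx) by' hstart (crossing_mem hL h' hk)
    (At 0 (wireY L k) (RightStart j)) (At (bitX L k) (wireY L k) fun t => t.fin.h σ = true)
    fun c hc hqx _ => (at_start hL hc hk hqx hm).trans (at_crossing hL hc hk σ).symm

/-- The bit where its column meets the middle row is seen in the corner. -/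
lemma up_end (h : V) {k : ℕ} (hk : k ≤ lastK L) (j : Fin 4) :
    S.Link
      ((Λ.bitObs o h k j).diff (Λ.T o (loc h (2 * M L) 0)
        (At (2 * M L) 0 fun t => (j = 2 ∨ j = 3) ∧ t.fin.qy = some true)))
      (Λ.T o (loc h (bitX L k) (halfY L)) (At (bitX L k) (halfY L) (UpEnd j))) := by
  obtain ⟨-, -, s3, -, -, s5, s6, -, sk⟩ := sizes hL
  obtain ⟨k1, k2, k3⟩ := sk k hk
  have hM' := M_pos L
  have h2M : loc h (2 * M L) 0 ∈ box L h := box_mem h (by omega) (Nat.zero_le _)
  have hkn : ∀ Y, knownX L (bitX L k) Y = true := fun Y => knownX_band hL (by omega) Y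
  -- the half at the foot of the middle row
  have qy_mid : S.Link (Λ.T o (loc h (2 * M L) 0)
        (At (2 * M L) 0 fun t => (j = 2 ∨ j = 3) ∧ t.fin.qy = some true))
      (Λ.T o (loc h (bitX L k) (halfY L))
        (At (bitX L k) (halfY L) fun t => (j = 2 ∨ j = 3) ∧ t.fin.qy = some true)) := by
    by_cases hj : j = 2 ∨ j = 3
    · simp only [hj, true_and]
      refine (line_qy hL hl h (Y := 0) (Y' := halfY L) (Nat.zero_le _) le_rfl).trans ?_
      refine link_range (fun X => Λ.T o (loc h X (halfY L))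
        (At X (halfY L) fun t => t.fin.qy = some true)) (fun _ => Λ.T_ctx _ _ _) (a := 0)
        (b := 7 * M L) (fun n _ hn => ?_) (Nat.zero_le _) (by omega) (Nat.zero_le _) (by omega)
      refine link_right hL hl h (by omega) s6 (knownX_band hL (by omega) _)
        (knownX_band hL (by omega) _) _ _ fun t l hr _ _ _ _ hty _ _ _ => ?_
      have hc : (claims L t).halfRow = true := (claim_halfY hL).2 hty
      have e : t.fin.qy = l.fin.qy := hr.f.qy (by simp [hc])
      rw [e]
    · have hn : ∀ p : V, ∀ X Y : ℕ,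
          Null (Λ.T o p (At X Y fun t => (j = 2 ∨ j = 3) ∧ t.fin.qy = some true)) := fun p X Y =>
        null_of_false (Λ.area_ctx _) subset_rfl fun a _ => by simp [T, win, At, hj]
      exact (hn _ _ _).trans (hn _ _ _).symm
  refine link_of_fun (ι := Bool)
    (fun b => if b then Λ.bitObs o h k j else Λ.T o (loc h (2 * M L) 0)
      (At (2 * M L) 0 fun t => (j = 2 ∨ j = 3) ∧ t.fin.qy = some true))
    (fun b => if b then Λ.T o (loc h (bitX L k) (halfY L))
        (At (bitX L k) (halfY L) fun t => t.fin.vb j = true)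
      else Λ.T o (loc h (bitX L k) (halfY L))
        (At (bitX L k) (halfY L) fun t => (j = 2 ∨ j = 3) ∧ t.fin.qy = some true))
    (fun g => g true && !g false) (box_ctx (o := o) hL hl hM h) (Λ.area_ctx _)
    (union_subset (Λ.area_sub (crossing_mem hL h hk)) (Λ.area_sub h2M)) subset_rfl
    (fun b => by cases b; exacts [Λ.area_sub h2M, Λ.area_sub (crossing_mem hL h hk)])
    (fun b => by cases b <;> exact subset_rfl) (fun a _ => by simp) (fun a _ => ?_)
    (fun b => by
      cases b
      · exact qy_mid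
      · exact (crossing hL hl h hk j).trans
          (line_vb hL hl h hk j (by omega) (by omega) (by omega) le_rfl))
  simp only [if_true, Bool.false_eq_true, if_false]
  cases hr : Λ.rd (Λ.cell o (loc h (bitX L k) (halfY L))) a with
  | none => simp [T, win, hr]
  | some q =>
    have key : UpEnd j (q 0) ↔ (q 0).fin.vb j = true ∧
        ¬ ((j = 2 ∨ j = 3) ∧ (q 0).fin.qy = some true) := by
      unfold UpEnd
      fin_cases j <;> simp
    rw [Bool.eq_iff_iff, Bool.and_eq_true, Bool.not_eq_true', ← Bool.not_eq_true]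
    simp only [T, win_val_some Λ hr, At, key]
    exact ⟨fun ⟨a1, a2, a3, a4, a5⟩ => ⟨⟨a1, a2, a3, a4⟩, fun h => a5 h.2.2.2⟩,
      fun ⟨⟨a1, a2, a3, a4⟩, a5⟩ => ⟨a1, a2, a3, a4, fun h => a5 ⟨a1, a2, a3, h⟩⟩⟩

/-- A head with a bit and the quarter above. -/
lemma bit_up (h : V) (bx by' : Bool) {k : ℕ} (hk : k ≤ lastK L) {j σ : Fin 4}
    (hm : UpMap by' j σ) :
    S.Link (Λ.headBit o h bx by' k j)
      (Λ.headBit o (h + (0, (H L : ℤ))) bx (!by') k σ) := by
  set h' := h + (0, (H L : ℤ))
  have hX : bitX L k ≤ 7 * M L := by have := (Corner.bundle_bitX hL hk).2.2; omega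
  have h2M : loc h (2 * M L) 0 ∈ box L h := box_mem h (by omega) (Nat.zero_le _)
  have hfoot : loc h' (bitX L k) 0 ∈ box L h' := box_mem h' hX (Nat.zero_le _)
  have hU := box_ctx (o := o) hL hl hM h
  have hI := invariant (o := o) hL hl
  -- with the head, the bit does not stop
  have hnull : Null ((Λ.headObs o h bx by').and (Λ.T o (loc h (2 * M L) 0)
      (At (2 * M L) 0 fun t => (j = 2 ∨ j = 3) ∧ t.fin.qy = some true))) := by
    refine Null.of_link (link_pair_box hl hI hU (head_mem h) h2M _ _) (null_patch hl hI hU ?_)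
    rintro c hc ⟨⟨⟨-, hx, hy, -⟩, -, -, -, hqy⟩, -, -, -, hj, hq⟩
    have e : (c (loc h (2 * M L) 0)).fin.qy = some by' :=
      ((corner_of_patch hc hx hy).qy_y0 hL (i := 2 * M L) (by omega)).trans hqy
    rw [e] at hq
    unfold UpMap at hm
    cases by'
    · simp at hq
    · simp only [if_true] at hm
      rcases hm with ⟨rfl, -⟩ | ⟨rfl, -⟩ <;> simp at hj
  set K := (Λ.bitObs o h k j).diff (Λ.T o (loc h (2 * M L) 0)
      (At (2 * M L) 0 fun t => (j = 2 ∨ j = 3) ∧ t.fin.qy = some true))
  have sH : (Λ.headObs o h bx by').supp ⊆ Λ.areaU o (box L h) := Λ.area_sub (head_mem h)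
  have sB : (Λ.bitObs o h k j).supp ⊆ Λ.areaU o (box L h) := Λ.area_sub (crossing_mem hL h hk)
  have sN : (Λ.T o (loc h (2 * M L) 0)
      (At (2 * M L) 0 fun t => (j = 2 ∨ j = 3) ∧ t.fin.qy = some true)).supp ⊆
      Λ.areaU o (box L h) := Λ.area_sub h2M
  refine (hnull.link_of_eq hU (union_subset sH sB) (o' := (Λ.headObs o h bx by').and K)
    (union_subset sH (union_subset sB sN)) (union_subset sH sN) fun a _ ha => ?_).trans ?_
  · simp only [Obs.and_val, Obs.diff_val, headBit, K] at ha ⊢
    revert ha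
    generalize (Λ.headObs o h bx by').val a = x
    generalize (Λ.bitObs o h k j).val a = y
    generalize Obs.val (Λ.T o _ _) a = z
    revert x y z
    decide
  have step : S.Link ((Λ.headObs o h bx by').and K)
      ((Λ.headObs o h' bx (!by')).and (Λ.T o (loc h' (bitX L k) 0)
        (At (bitX L k) 0 (UpStart j)))) :=
    link_of_fun (ι := Bool) (fun b => if b then Λ.headObs o h bx by' else K)
      (fun b => if b then Λ.headObs o h' bx (!by') else Λ.T o (loc h' (bitX L k) 0)
        (At (bitX L k) 0 (UpStart j))) (fun g => g true && g false) hU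
      (box_ctx (o := o) hL hl hM h') (union_subset sH (union_subset sB sN))
      (union_subset (Λ.area_sub (head_mem h')) (Λ.area_sub hfoot))
      (fun b => by cases b; exacts [union_subset sB sN, sH])
      (fun b => by cases b; exacts [Λ.area_sub hfoot, Λ.area_sub (head_mem h')])
      (fun a _ => by simp) (fun a _ => by simp)
      (fun b => by
        cases b
        · exact (up_end hL hl hM h hk j).trans (up_chain hL hl h hk j)
        · exact (head_up hL hl h bx by').symm)
  refine step.trans ?_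
  exact link_corner hL hl hM h' bx (!by') hfoot (crossing_mem hL h' hk)
    (At (bitX L k) 0 (UpStart j)) (At (bitX L k) (wireY L k) fun t => t.fin.h σ = true)
    fun c hc _ hqy => (at_foot hL hc hk hqy hm).trans (at_crossing hL hc hk σ).symm

end Virtual

/-- Heads together with bits are one event in neighbouring quarters. -/
theorem bitStatement : BitStatement := by
  intro S L Λ hL hl hM o h bx by' k hk j σ
  exact ⟨Virtual.bit_right hL hl hM h bx by' hk, Virtual.bit_up hL hl hM h bx by' hk⟩

end Vale.Agent.P196.Tile.Rigid
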