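import Vale.Agent.P196.Defs

/-!
P196, module D (rigidity): a calculus for commuting observables.

Observables of one cell are given by functions of its letter. A component that is a function, on
admissible pairs, of a component of a neighbouring cell commutes with everything the latter
commutes with; a cell commutes with another one as soon as each of finitely many components that
determine its letter does.
-/

namespace Vale.Agent.P196.SFT

open Finset

variable {S : SFT}

lemma Com.base (o o' : S.Obs) (v : V)
    (h : ∀ u ∈ o.supp ∪ o'.supp,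
      v.1 ≤ u.1 ∧ u.1 ≤ v.1 + S.w ∧ v.2 ≤ u.2 ∧ u.2 ≤ v.2 + S.w) : S.Com o o' :=
  Rel.base o o' v h

lemma Com.symm (o o' : S.Obs) (h : S.Com o o') : S.Com o' o := Rel.symm false o o' h

lemma Com.derived (o o' : S.Obs) (ms : List S.Obs) (U : Finset V) (ho : o.supp ⊆ U)
    (hms : ∀ m ∈ ms, m.supp ⊆ U) (hU : S.Context U) (ho' : S.Context o'.supp)
    (hdet : ∀ a b : V → S.A, S.Admissible U a → S.Admissible U b →
      (∀ m ∈ ms, m.val a = m.val b) → o.val a = o.val b)
    (hcom : ∀ m ∈ ms, S.Com m o') : S.Com o o' :=
  Rel.derived o o' ms U ho hms hU ho' hdet hcom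

/-- The observable that a component of the letter at `u` has the value `b`. -/
def compObs (S : SFT) {β : Type} [DecidableEq β] (u : V) (f : S.A → β) (b : β) : S.Obs where
  supp := {u}
  val x := decide (f (x u) = b)
  dep x y h := by rw [h u (mem_singleton_self u)]

@[simp] lemma compObs_supp {β : Type} [DecidableEq β] (u : V) (f : S.A → β) (b : β) :
    (S.compObs u f b).supp = {u} := rfl

@[simp] lemma cellObs_supp (u : V) (c : S.A) : (S.cellObs u c).supp = {u} := rfl

@[simp] lemma compObs_val {β : Type} [DecidableEq β] (u : V) (f : S.A → β) (b : β)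
    (x : V → S.A) : (S.compObs u f b).val x = decide (f (x u) = b) := rfl

@[simp] lemma cellObs_val (u : V) (c : S.A) (x : V → S.A) :
    (S.cellObs u c).val x = decide (x u = c) := rfl

/-- Two cells in a common window. -/
def Near (S : SFT) (u v : V) : Prop :=
  (u.1 - v.1).natAbs ≤ S.w ∧ (u.2 - v.2).natAbs ≤ S.w

lemma near_refl (u : V) : S.Near u u := by simp [Near]

lemma Near.symm {u v : V} (h : S.Near u v) : S.Near v u := by
  obtain ⟨h1, h2⟩ := h
  constructor <;> omega

/-- Observables in one window commute. -/
lemma Near.com {o o' : S.Obs} {u v : V} (h : S.Near u v) (ho : o.supp ⊆ {u})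
    (ho' : o'.supp ⊆ {v}) : S.Com o o' := by
  obtain ⟨h1, h2⟩ := h
  refine Com.base o o' (min u.1 v.1, min u.2 v.2) fun a ha => ?_
  rcases mem_union.1 ha with ha | ha
  · rw [mem_singleton.1 (ho ha)]
    refine ⟨?_, ?_, ?_, ?_⟩ <;> simp only <;> omega
  · rw [mem_singleton.1 (ho' ha)]
    refine ⟨?_, ?_, ?_, ?_⟩ <;> simp only <;> omega

lemma Near.com_cells {u v : V} (h : S.Near u v) (c d : S.A) :
    S.Com (S.cellObs u c) (S.cellObs v d) := h.com subset_rfl subset_rfl

/-! ### Contexts -/

lemma context_empty : S.Context ∅ := fun a ha => absurd ha (notMem_empty a)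

lemma Context.mono {U W : Finset V} (h : S.Context W) (hUW : U ⊆ W) : S.Context U :=
  fun a ha b hb => h a (hUW ha) b (hUW hb)

lemma context_singleton (u : V) : S.Context {u} := by
  intro a ha b hb c d
  rw [mem_singleton.1 ha, mem_singleton.1 hb]
  exact (near_refl u).com_cells c d

lemma context_pair {u v : V} (h : ∀ c d : S.A, S.Com (S.cellObs u c) (S.cellObs v d)) :
    S.Context {u, v} := by
  intro a ha b hb c d
  simp only [mem_insert, mem_singleton] at ha hb
  rcases ha with rfl | rfl <;> rcases hb with rfl | rfl
  · exact (near_refl _).com_cells c d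
  · exact h c d
  · exact Com.symm _ _ (h d c)
  · exact (near_refl _).com_cells c d

lemma context_window (U : Finset V) (h : ∀ a ∈ U, ∀ b ∈ U, S.Near a b) : S.Context U :=
  fun a ha b hb c d => (h a ha b hb).com_cells c d

/-! ### One derivation step -/

/-- `Com.derived` with the observables given by an indexed family. -/
lemma com_of_determined {ι : Type} [Fintype ι] (o o' : S.Obs) (ms : ι → S.Obs) (U : Finset V)
    (ho : o.supp ⊆ U) (hms : ∀ i, (ms i).supp ⊆ U) (hU : S.Context U) (ho' : S.Context o'.supp)
    (hdet : ∀ a b : V → S.A, S.Admissible U a → S.Admissible U b →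
      (∀ i, (ms i).val a = (ms i).val b) → o.val a = o.val b)
    (hcom : ∀ i, S.Com (ms i) o') : S.Com o o' := by
  refine Com.derived o o' ((univ : Finset ι).toList.map ms) U ho ?_ hU ho' ?_ ?_
  · intro m hm
    obtain ⟨i, _, rfl⟩ := List.mem_map.1 hm
    exact hms i
  · intro a b ha hb hab
    exact hdet a b ha hb fun i => hab _ (List.mem_map.2 ⟨i, mem_toList.2 (mem_univ i), rfl⟩)
  · intro m hm
    obtain ⟨i, _, rfl⟩ := List.mem_map.1 hm
    exact hcom i

/-- A component commutes with an observable. -/
def CompCom (S : SFT) {β : Type} [DecidableEq β] (u : V) (f : S.A → β) (o' : S.Obs) : Prop :=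
  ∀ b : β, S.Com (S.compObs u f b) o'

/-- All letters of a cell commute with an observable. -/
def CellCom (S : SFT) (u : V) (o' : S.Obs) : Prop := ∀ c : S.A, S.Com (S.cellObs u c) o'

/-- An observable whose value is a function of finitely many components inside a context. -/
lemma com_of_components {ι : Type} [Fintype ι] {β : ι → Type} [∀ i, DecidableEq (β i)]
    (pos : ι → V) (f : ∀ i, S.A → β i) (o o' : S.Obs) (U : Finset V)
    (ho : o.supp ⊆ U) (hpos : ∀ i, pos i ∈ U) (hU : S.Context U) (ho' : S.Context o'.supp)
    (hdet : ∀ a b : V → S.A, S.Admissible U a → S.Admissible U b →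
      (∀ i, f i (a (pos i)) = f i (b (pos i))) → o.val a = o.val b)
    (hcom : ∀ i, S.CompCom (pos i) (f i) o') : S.Com o o' := by
  classical
  refine com_of_determined o o'
    (fun p : ι × S.A => S.compObs (pos p.1) (f p.1) (f p.1 p.2)) U ho
    (fun p => by simpa using hpos p.1) hU ho' (fun a b ha hb hab => hdet a b ha hb fun i => ?_)
    (fun p => hcom p.1 _)
  have h := hab (i, a (pos i))
  simp only [compObs_val, decide_true] at h
  exact (of_decide_eq_true h.symm).symm

/-- A component is determined by finitely many components around it. -/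
lemma CompCom.of_components {ι : Type} [Fintype ι] {β : ι → Type} [∀ i, DecidableEq (β i)]
    {γ : Type} [DecidableEq γ] (pos : ι → V) (f : ∀ i, S.A → β i) {u : V} {g : S.A → γ}
    {o' : S.Obs} (U : Finset V) (hu : u ∈ U) (hpos : ∀ i, pos i ∈ U) (hU : S.Context U)
    (ho' : S.Context o'.supp)
    (hdet : ∀ a b : V → S.A, S.Admissible U a → S.Admissible U b →
      (∀ i, f i (a (pos i)) = f i (b (pos i))) → g (a u) = g (b u))
    (hcom : ∀ i, S.CompCom (pos i) (f i) o') : S.CompCom u g o' := fun c =>
  com_of_components pos f (S.compObs u g c) o' U (by simpa using hu) hpos hU ho'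
    (fun a b ha hb hab => by simp [hdet a b ha hb hab]) hcom

/-- A coarser component of the same cell. -/
lemma CompCom.comp {β γ : Type} [DecidableEq β] [DecidableEq γ] {u : V} {f : S.A → β}
    {o' : S.Obs} (h : S.CompCom u f o') (ho' : S.Context o'.supp) (F : β → γ) :
    S.CompCom u (F ∘ f) o' :=
  CompCom.of_components (ι := Unit) (fun _ => u) (fun _ => f) {u} (mem_singleton_self u)
    (fun _ => mem_singleton_self u) (context_singleton u) ho'
    (fun _ _ _ _ hab => congrArg F (hab ())) (fun _ => h)

/-- Two components of the same cell form a component. -/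
lemma CompCom.pair {β γ : Type} [DecidableEq β] [DecidableEq γ] {u : V} {f : S.A → β}
    {g : S.A → γ} {o' : S.Obs} (hf : S.CompCom u f o') (hg : S.CompCom u g o')
    (ho' : S.Context o'.supp) : S.CompCom u (fun a => (f a, g a)) o' := by
  intro c
  refine com_of_determined (ι := Fin 2) _ o'
    ![S.compObs u f c.1, S.compObs u g c.2] {u} (by simp) (fun i => by fin_cases i <;> simp)
    (context_singleton u) ho' (fun a b _ _ hab => ?_)
    (fun i => by fin_cases i; exacts [hf c.1, hg c.2])
  have h0 := hab 0
  have h1 := hab 1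
  simp only [Matrix.cons_val_zero, Matrix.cons_val_one, compObs_val, decide_eq_decide] at h0 h1
  simp only [compObs_val, Prod.ext_iff, decide_eq_decide]
  exact and_congr h0 h1

/-- A constant component commutes with everything. -/
lemma CompCom.const {β : Type} [DecidableEq β] (u : V) (b₀ : β) {o' : S.Obs}
    (ho' : S.Context o'.supp) : S.CompCom u (fun _ => b₀) o' := fun b =>
  com_of_determined (ι := Empty) _ o' Empty.elim {u} (by simp) (fun i => i.elim)
    (context_singleton u) ho' (fun _ _ _ _ _ => rfl) (fun i => i.elim)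

lemma CellCom.compCom {β : Type} [DecidableEq β] {u : V} {o' : S.Obs} (h : S.CellCom u o')
    (ho' : S.Context o'.supp) (f : S.A → β) : S.CompCom u f o' := fun b =>
  com_of_determined (S.compObs u f b) o' (fun c : S.A => S.cellObs u c) {u} (by simp)
    (fun c => by simp) (context_singleton u) ho'
    (fun x y _ _ hxy => by
      have := hxy (x u)
      simp only [cellObs_val, decide_true] at this
      simp [compObs_val, (of_decide_eq_true this.symm)])
    h

lemma CompCom.cellCom {u : V} {o' : S.Obs} (h : S.CompCom u id o') (ho' : S.Context o'.supp) :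
    S.CellCom u o' := fun c =>
  com_of_components (ι := Unit) (fun _ => u) (fun _ => id) (S.cellObs u c) o' {u} subset_rfl
    (fun _ => mem_singleton_self u) (context_singleton u) ho'
    (fun _ _ _ _ hab => by
      have := hab ()
      simp only [id_eq] at this
      simp [this]) (fun _ => h)

/-- A cell commutes once components determining its letter do. -/
lemma CellCom.of_components {ι : Type} [Fintype ι] {β : ι → Type} [∀ i, DecidableEq (β i)]
    (f : ∀ i, S.A → β i) {u : V} {o' : S.Obs} (ho' : S.Context o'.supp)
    (hinj : ∀ a b : S.A, (∀ i, f i a = f i b) → a = b) (hcom : ∀ i, S.CompCom u (f i) o') :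
    S.CellCom u o' := fun c =>
  com_of_components (fun _ => u) f (S.cellObs u c) o' {u} subset_rfl
    (fun _ => mem_singleton_self u) (context_singleton u) ho'
    (fun a b _ _ hab => by simp [hinj _ _ hab]) hcom

lemma Near.cellCom {u v : V} (h : S.Near u v) {o' : S.Obs} (ho' : o'.supp ⊆ {v}) :
    S.CellCom u o' := fun _ => h.com subset_rfl ho'

lemma Near.compCom {β : Type} [DecidableEq β] {u v : V} (h : S.Near u v) (f : S.A → β)
    {o' : S.Obs} (ho' : o'.supp ⊆ {v}) : S.CompCom u f o' :=
  fun _ => h.com (by simp) ho'

/-- Commutation with the letters of every cell of the support gives commutation. -/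
lemma com_of_forall_cells {o o' : S.Obs} (ho : S.Context o.supp) (ho' : S.Context o'.supp)
    (h : ∀ v ∈ o'.supp, ∀ d, S.Com o (S.cellObs v d)) : S.Com o o' := by
  refine Com.symm _ _ (com_of_determined o' o
    (fun p : o'.supp × S.A => S.cellObs p.1.1 p.2) o'.supp subset_rfl
    (fun p => by simp) ho' ho (fun a b _ _ hab => o'.dep a b fun v hv => ?_)
    (fun p => Com.symm _ _ (h p.1.1 p.1.2 p.2)))
  have := hab (⟨v, hv⟩, a v)
  simp only [cellObs_val, decide_true] at this
  exact (of_decide_eq_true this.symm).symm

/-! ### Steps and chains -/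

/-- On admissible pairs the component `g` of the cell at `u + e` is a function of the component
`f` of the cell at `u`. -/
def Step (S : SFT) {β γ : Type} (e : V) (f : S.A → β) (g : S.A → γ) : Prop :=
  ∀ u : V, ∀ a b : V → S.A, S.Admissible {u, u + e} a → S.Admissible {u, u + e} b →
    f (a u) = f (b u) → g (a (u + e)) = g (b (u + e))

/-- A neighbouring direction. -/
def Unit' (S : SFT) (e : V) : Prop := e.1.natAbs ≤ S.w ∧ e.2.natAbs ≤ S.w

lemma Unit'.near {e : V} (he : S.Unit' e) (u : V) : S.Near u (u + e) := by
  obtain ⟨h1, h2⟩ := he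
  constructor <;> simp <;> omega

lemma Step.compCom {β γ : Type} [DecidableEq β] [DecidableEq γ] {e : V} {f : S.A → β}
    {g : S.A → γ} (h : S.Step e f g) (he : S.Unit' e) {u : V} {o' : S.Obs}
    (ho' : S.Context o'.supp) (hu : S.CompCom u f o') : S.CompCom (u + e) g o' :=
  CompCom.of_components (ι := Unit) (fun _ => u) (fun _ => f) {u, u + e} (by simp)
    (fun _ => by simp) (context_pair (he.near u).com_cells) ho'
    (fun a b ha hb hab => h u a b ha hb (hab ())) (fun _ => hu)

/-- A self-propagating component is transported along a line. -/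
lemma Step.compCom_iter {β : Type} [DecidableEq β] {e : V} {f : S.A → β} (h : S.Step e f f)
    (he : S.Unit' e) {u : V} {o' : S.Obs} (ho' : S.Context o'.supp) (hu : S.CompCom u f o') :
    ∀ n : ℕ, S.CompCom (u + (n : ℤ) • e) f o'
  | 0 => by simpa using hu
  | n + 1 => by
    have := h.compCom he ho' (Step.compCom_iter h he ho' hu n)
    rwa [show u + ((n + 1 : ℕ) : ℤ) • e = u + (n : ℤ) • e + e by
      push_cast; rw [add_smul, one_smul, add_assoc]]

/-- A component commuting with everything. -/
def UnivComp (S : SFT) {β : Type} [DecidableEq β] (f : S.A → β) : Prop :=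
  ∀ u, ∀ o' : S.Obs, S.Context o'.supp → S.CompCom u f o'

/-- A component propagating in the four directions commutes with everything. -/
lemma univComp_of_steps {β : Type} [DecidableEq β] {f : S.A → β} (hw : 1 ≤ S.w)
    (he₁ : S.Step (1, 0) f f) (he₂ : S.Step (0, 1) f f)
    (he₁' : S.Step (-1, 0) f f) (he₂' : S.Step (0, -1) f f) : S.UnivComp f := by
  intro u o' ho' b
  refine com_of_forall_cells (by simpa using context_singleton u) ho' fun v _ d => ?_
  have h0 : S.CompCom v f (S.cellObs v d) := (near_refl v).compCom f subset_rfl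
  have hc : S.Context (S.cellObs v d).supp := context_singleton v
  have u1 : S.Unit' (1, 0) := ⟨by simpa using hw, by simp⟩
  have u1' : S.Unit' (-1, 0) := ⟨by simpa using hw, by simp⟩
  have u2 : S.Unit' (0, 1) := ⟨by simp, by simpa using hw⟩
  have u2' : S.Unit' (0, -1) := ⟨by simp, by simpa using hw⟩
  have hx : S.CompCom (u.1, v.2) f (S.cellObs v d) := by
    rcases le_total v.1 u.1 with h | h
    · obtain ⟨n, hn⟩ := Int.eq_ofNat_of_zero_le (sub_nonneg.2 h)
      have := he₁.compCom_iter u1 hc h0 n
      rwa [show v + (n : ℤ) • ((1, 0) : V) = (u.1, v.2) by ext <;> simp <;> omega] at this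
    · obtain ⟨n, hn⟩ := Int.eq_ofNat_of_zero_le (sub_nonneg.2 h)
      have := he₁'.compCom_iter u1' hc h0 n
      rwa [show v + (n : ℤ) • ((-1, 0) : V) = (u.1, v.2) by ext <;> simp <;> omega] at this
  have huf : S.CompCom u f (S.cellObs v d) := by
    rcases le_total v.2 u.2 with h | h
    · obtain ⟨n, hn⟩ := Int.eq_ofNat_of_zero_le (sub_nonneg.2 h)
      have := he₂.compCom_iter u2 hc hx n
      rwa [show ((u.1, v.2) : V) + (n : ℤ) • ((0, 1) : V) = u by ext <;> simp; omega] at this
    · obtain ⟨n, hn⟩ := Int.eq_ofNat_of_zero_le (sub_nonneg.2 h)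
      have := he₂'.compCom_iter u2' hc hx n
      rwa [show ((u.1, v.2) : V) + (n : ℤ) • ((0, -1) : V) = u by ext <;> simp; omega] at this
  exact huf b

/-- The component `f` recorded where the guard `g` holds. -/
def guarded {β : Type} (g : S.A → Bool) (f : S.A → β) : S.A → Option β :=
  fun a => if g a then some (f a) else none

/-- Exclusion through a shared cell. -/
lemma com_exclusive_cell {o o' : S.Obs} {u m v : V} (c : S.A → Bool)
    (ho : o.supp ⊆ {u}) (ho' : o'.supp ⊆ {v})
    (hum : ∀ l l', S.Com (S.cellObs u l) (S.cellObs m l'))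
    (hmv : ∀ l l', S.Com (S.cellObs m l) (S.cellObs v l'))
    (h1 : ∀ a : V → S.A, S.Admissible {u, m} a → o.val a = true → c (a m) = true)
    (h2 : ∀ a : V → S.A, S.Admissible {m, v} a → o'.val a = true → c (a m) = false) :
    S.Com o o' := by
  refine Rel.exclusive o o' (S.compObs m c true) (S.compObs m c true) {u, m} {m, v}
    (ho.trans (by simp)) (by simp) (ho'.trans (by simp)) (by simp) (context_pair hum)
    (context_pair hmv) ?_ ?_
    (Rel.same _ _ {m} (by simp) (by simp) (context_singleton m) fun _ _ => rfl)
  · intro a ha hv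
    simp [h1 a ha hv]
  · intro a ha hv
    simp [h2 a ha hv]

/-- All cells commute once every letter is determined by universal components. -/
lemma rigid_of_cellCom (h : ∀ u v d, S.CellCom u (S.cellObs v d)) : S.Rigid :=
  fun u v c d => h u v d c

end Vale.Agent.P196.SFT
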