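import Vale.Agent.P196.Tile.Rigid.Grid

/-!
P196, module D (rigidity): patches.

On a finite set of lattice cells whose areas form a context, everything read is, outside a null
event, either empty or one coherent patch of tiles obeying the rules of valid windows. So semantic
statements about patches give links and commutation.
-/

noncomputable section

namespace Vale.Agent.P196.SFT

open Finset

variable {S : SFT}

/-- What is left of an event outside a linked copy of it is null. -/
lemma Link.null_diff {A B : S.Obs} {U : Finset V} (h : S.Link A B) (hU : S.Context U)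
    (hA : A.supp ⊆ U) (hB : B.supp ⊆ U) : Null (A.diff B) :=
  link_of_fun (ι := Bool) (fun i => if i then A else B) (fun _ => B)
    (fun g => g true && !g false) hU hU (by simpa [union_subset_iff] using ⟨hA, hB⟩) (by simp)
    (fun i => by cases i <;> simpa) (fun _ => hB) (fun a _ => by simp) (fun a _ => by simp)
    (fun i => by cases i; exacts [Link.refl (hU.mono hB), h])

end Vale.Agent.P196.SFT

namespace Vale.Agent.P196.Tile.Rigid

open SFT Finset
open scoped Classical

/-- A patch of tiles on a set of cells obeying the rules of valid windows. -/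
structure Patch (L : ℕ) (I : St → Prop) (C : Finset V) (c : V → St) : Prop where
  tile : ∀ i ∈ C, TileRules L (c i)
  inv : ∀ i ∈ C, I (c i)
  vert : ∀ i ∈ C, i - (0, 1) ∈ C → VRules L (c i) (c (i - (0, 1)))
  horiz : ∀ i ∈ C, i - (1, 0) ∈ C → HRules L (c i) (c (i - (1, 0)))
  quad : ∀ i, (∀ j, i - dir j ∈ C) → Valid L (quadAt c i)

variable {S : SFT} {L : ℕ}

namespace Virtual

variable (Λ : Virtual S L)

/-- The ground cells read by a set of lattice cells. -/
def areaU (o : V) (C : Finset V) : Finset V := C.biUnion fun i => Λ.area (Λ.cell o i)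

lemma area_sub {o i : V} {C : Finset V} (hi : i ∈ C) : Λ.area (Λ.cell o i) ⊆ Λ.areaU o C :=
  subset_biUnion_of_mem (fun i => Λ.area (Λ.cell o i)) hi

lemma areaU_mono (o : V) {C C' : Finset V} (h : C' ⊆ C) : Λ.areaU o C' ⊆ Λ.areaU o C :=
  biUnion_subset_biUnion_of_subset_left _ h

/-- The tile read at a cell, with a junk value where there is none. -/
def pat (o : V) (a : V → S.A) (i : V) : St :=
  (Λ.rd (Λ.cell o i) a).elim (child L (fun _ => false) (fun _ _ => false) 0 0) fun q => q 0

/-- All cells are origins. -/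
def AllSome (o : V) (C : Finset V) (a : V → S.A) : Prop :=
  ∀ i ∈ C, (Λ.rd (Λ.cell o i) a).isSome = true

lemma pat_eq (o : V) {a b : V → S.A} {i : V} (h : ∀ u ∈ Λ.area (Λ.cell o i), a u = b u) :
    Λ.pat o a i = Λ.pat o b i := by
  rw [pat, pat, Λ.rd_dep _ a b h]

/-- The event that all cells of `C` are origins whose tiles have the property `P`. -/
def obsP (o : V) (C : Finset V) (P : (V → St) → Prop) : S.Obs where
  supp := Λ.areaU o C
  val a := decide (Λ.AllSome o C a ∧ P fun i => if i ∈ C then Λ.pat o a i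
    else child L (fun _ => false) (fun _ _ => false) 0 0)
  dep a b h := by
    have e : ∀ i ∈ C, Λ.rd (Λ.cell o i) a = Λ.rd (Λ.cell o i) b := fun i hi =>
      Λ.rd_dep _ _ _ fun u hu => h u (Λ.area_sub hi hu)
    refine decide_eq_decide.2 (and_congr ?_ (iff_of_eq (congrArg P (funext fun i => ?_))))
    · exact forall₂_congr fun i hi => by rw [e i hi]
    · by_cases hi : i ∈ C
      · rw [if_pos hi, if_pos hi, pat, pat, e i hi]
      · rw [if_neg hi, if_neg hi]

@[simp] lemma obsP_supp (o : V) (C : Finset V) (P : (V → St) → Prop) :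
    (Λ.obsP o C P).supp = Λ.areaU o C := rfl

lemma obsP_val_iff (o : V) (C : Finset V) (P : (V → St) → Prop) (a : V → S.A) :
    (Λ.obsP o C P).val a = true ↔ Λ.AllSome o C a ∧
      P fun i => if i ∈ C then Λ.pat o a i else child L (fun _ => false) (fun _ _ => false) 0 0 :=
  decide_eq_true_iff

/-- A property of patches that looks only at the cells of `C`. -/
def LocalOn (C : Finset V) (P : (V → St) → Prop) : Prop :=
  ∀ c c' : V → St, (∀ i ∈ C, c i = c' i) → (P c ↔ P c')

/-- The failures of coherence on `C`. -/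
def bad (o : V) (I : St → Prop) (C : Finset V) : S.Obs where
  supp := Λ.areaU o C
  val a := decide ((∃ i ∈ C, ∃ q, Λ.rd (Λ.cell o i) a = some q ∧
    ((∃ i' ∈ C, Λ.rd (Λ.cell o i') a = none) ∨ ¬ I (q 0) ∨
      ∃ j, i - dir j ∈ C ∧ q j ≠ Λ.pat o a (i - dir j))))
  dep a b h := by
    have e : ∀ i ∈ C, Λ.rd (Λ.cell o i) a = Λ.rd (Λ.cell o i) b := fun i hi =>
      Λ.rd_dep _ _ _ fun u hu => h u (Λ.area_sub hi hu)
    refine decide_eq_decide.2 (exists_congr fun i => and_congr_right fun hi => ?_)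
    rw [e i hi]
    refine exists_congr fun q => and_congr_right fun _ => or_congr ?_ (or_congr Iff.rfl ?_)
    · exact exists_congr fun i' => and_congr_right fun hi' => by rw [e i' hi']
    · exact exists_congr fun j => and_congr_right fun hj => by rw [pat, pat, e _ hj]

@[simp] lemma bad_supp (o : V) (I : St → Prop) (C : Finset V) :
    (Λ.bad o I C).supp = Λ.areaU o C := rfl

variable {Λ}

lemma bad_null {o : V} {I : St → Prop} {C : Finset V} (hl : Λ.Linked) (hI : Λ.Invariant o I)
    (hU : S.Context (Λ.areaU o C)) : Null (Λ.bad o I C) := by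
  -- origins of one lattice come together
  have hex : ∀ p : C × C, Null ((Λ.T o p.1.1 fun _ => True).diff (Λ.T o p.2.1 fun _ => True)) :=
    fun p => (Virtual.origin_link hl p.1.1 p.2.1).null_diff hU (Λ.area_sub p.1.2) (Λ.area_sub p.2.2)
  -- neighbouring cells show the same tiles
  let idx := {p : C × Fin 4 // p.1.1 - dir p.2 ∈ C}
  let vals : ∀ _ : idx, Finset St := fun p =>
    ((Λ.finite_range (Λ.cell o p.1.1.1)).toFinset).image fun r =>
      r.elim (child L (fun _ => false) (fun _ _ => false) 0 0) fun q => q p.1.2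
  have hsh : ∀ p : Σ p : idx, {t // t ∈ vals p},
      Null ((Λ.win (Λ.cell o p.1.1.1.1) fun q => q p.1.1.2 = p.2.1).diff
        (Λ.T o (p.1.1.1.1 - dir p.1.1.2) fun t => t = p.2.1)) :=
    fun p => (hl.tile o p.1.1.1.1 p.1.1.2 fun t => t = p.2.1).null_diff hU
      (Λ.area_sub p.1.1.1.2) (Λ.area_sub p.1.2)
  refine null_of_le (ι := C ⊕ (C × C) ⊕ (Σ p : idx, {t // t ∈ vals p}))
    (Sum.elim (fun i => Λ.T o i.1 fun t => ¬ I t) (Sum.elim
      (fun p => (Λ.T o p.1.1 fun _ => True).diff (Λ.T o p.2.1 fun _ => True))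
      (fun p => (Λ.win (Λ.cell o p.1.1.1.1) fun q => q p.1.1.2 = p.2.1).diff
        (Λ.T o (p.1.1.1.1 - dir p.1.1.2) fun t => t = p.2.1))))
    hU subset_rfl ?_ (fun m => by rcases m with m | m | m; exacts [hI _, hex m, hsh m]) ?_
  · rintro (m | m | m)
    · exact Λ.area_sub m.2
    · exact union_subset (Λ.area_sub m.1.2) (Λ.area_sub m.2.2)
    · exact union_subset (Λ.area_sub m.1.1.1.2) (Λ.area_sub m.1.2)
  intro a _ hv
  obtain ⟨i, hi, q, hq, hc⟩ := of_decide_eq_true hv
  rcases hc with ⟨i', hi', hn⟩ | hc | ⟨j, hj, hne⟩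
  · refine ⟨Sum.inr (Sum.inl (⟨i, hi⟩, ⟨i', hi'⟩)), ?_⟩
    simp [T, win, hq, hn]
  · exact ⟨Sum.inl ⟨i, hi⟩, (Λ.win_val_iff _ _ a).2 ⟨q, hq, hc⟩⟩
  · by_cases hn : Λ.rd (Λ.cell o (i - dir j)) a = none
    · refine ⟨Sum.inr (Sum.inl (⟨i, hi⟩, ⟨_, hj⟩)), ?_⟩
      simp [T, win, hq, hn]
    · obtain ⟨q', hq'⟩ := Option.ne_none_iff_exists'.1 hn
      refine ⟨Sum.inr (Sum.inr ⟨⟨(⟨i, hi⟩, j), hj⟩, q j, mem_image.2
        ⟨some q, (Set.Finite.mem_toFinset _).2 ⟨a, hq⟩, rfl⟩⟩), ?_⟩
      simp only [pat, hq', Option.elim] at hne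
      simp [T, win, hq, hq', Ne.symm hne]

/-- Outside the bad event, all cells show one patch. -/
lemma patch_of_good {o : V} {I : St → Prop} {C : Finset V} {a : V → S.A}
    (ha : S.Admissible (Λ.areaU o C) a) (hb : (Λ.bad o I C).val a = false)
    (hs : Λ.AllSome o C a) : Patch L I C (fun i => if i ∈ C then Λ.pat o a i
      else child L (fun _ => false) (fun _ _ => false) 0 0) := by
  have key : ∀ i ∈ C, ∃ q, Λ.rd (Λ.cell o i) a = some q ∧ Valid L q ∧ I (q 0) ∧
      ∀ j, i - dir j ∈ C → q j = Λ.pat o a (i - dir j) := by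
    intro i hi
    obtain ⟨q, hq⟩ := Option.isSome_iff_exists.1 (hs i hi)
    have hn : ¬ _ := of_decide_eq_false hb
    refine ⟨q, hq, Λ.valid _ a q (fun v hv => ha v fun p => Λ.area_sub hi (hv p)) hq, ?_,
      fun j hj => ?_⟩
    · by_contra h
      exact hn ⟨i, hi, q, hq, Or.inr (Or.inl h)⟩
    · by_contra h
      exact hn ⟨i, hi, q, hq, Or.inr (Or.inr ⟨j, hj, h⟩)⟩
  have hp : ∀ i ∈ C, ∀ q, Λ.rd (Λ.cell o i) a = some q → Λ.pat o a i = q 0 := fun i _ q hq => by
    rw [pat, hq]; rfl
  refine ⟨fun i hi => ?_, fun i hi => ?_, fun i hi hi' => ?_, fun i hi hi' => ?_, fun i hi => ?_⟩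
  · obtain ⟨q, hq, hv, -⟩ := key i hi
    rw [if_pos hi, hp i hi q hq]
    exact tileRules hv 0
  · obtain ⟨q, hq, -, hI, -⟩ := key i hi
    rw [if_pos hi, hp i hi q hq]
    exact hI
  · obtain ⟨q, hq, hv, -, hc⟩ := key i hi
    have e := hc 2 (by simpa [dir] using hi')
    simp only [if_pos hi, if_pos hi', hp i hi q hq]
    rw [show i - (0, 1) = i - dir 2 by simp [dir], ← e]
    exact (vRules hv).1
  · obtain ⟨q, hq, hv, -, hc⟩ := key i hi
    have e := hc 1 (by simpa [dir] using hi')
    simp only [if_pos hi, if_pos hi', hp i hi q hq]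
    rw [show i - (1, 0) = i - dir 1 by simp [dir], ← e]
    exact (hRules hv).1
  · have hi0 : i ∈ C := by
      have := hi 0
      simpa [dir, Prod.mk_zero_zero] using this
    obtain ⟨q, hq, hv, -, hc⟩ := key i hi0
    convert hv using 1
    funext j
    simp only [quadAt, if_pos (hi j)]
    exact (hc j (hi j)).symm

/-- Properties agreeing on all patches are linked. -/
lemma link_patch {o : V} {I : St → Prop} {C : Finset V} (hl : Λ.Linked) (hI : Λ.Invariant o I)
    (hU : S.Context (Λ.areaU o C)) {P P' : (V → St) → Prop}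
    (h : ∀ c, Patch L I C c → (P c ↔ P' c)) : S.Link (Λ.obsP o C P) (Λ.obsP o C P') := by
  refine (bad_null hl hI hU).link_of_eq hU subset_rfl subset_rfl subset_rfl fun a ha hb => ?_
  rw [Bool.eq_iff_iff, obsP_val_iff, obsP_val_iff]
  exact and_congr_right fun hs => h _ (patch_of_good ha hb hs)

/-- A property failing on all patches is null. -/
lemma null_patch {o : V} {I : St → Prop} {C : Finset V} (hl : Λ.Linked) (hI : Λ.Invariant o I)
    (hU : S.Context (Λ.areaU o C)) {P : (V → St) → Prop}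
    (h : ∀ c, Patch L I C c → ¬ P c) : Null (Λ.obsP o C P) := by
  refine (link_patch hl hI hU (P' := fun _ => False) fun c hc => iff_false_intro (h c hc)).trans ?_
  exact link_same hU subset_rfl (by simp) fun a _ => by simp [obsP]

/-- A property of a part is the same event on the whole. -/
lemma link_sub {o : V} {I : St → Prop} {C C' : Finset V} (hl : Λ.Linked) (hI : Λ.Invariant o I)
    (hU : S.Context (Λ.areaU o C)) (hC : C' ⊆ C) (hne : C'.Nonempty) {P : (V → St) → Prop}
    (hP : LocalOn C' P) : S.Link (Λ.obsP o C' P) (Λ.obsP o C P) := by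
  refine (bad_null hl hI hU).link_of_eq hU (Λ.areaU_mono o hC) subset_rfl subset_rfl
    fun a _ hb => ?_
  have hn : ¬ _ := of_decide_eq_false hb
  rw [Bool.eq_iff_iff, obsP_val_iff, obsP_val_iff]
  refine and_congr ⟨fun hs i hi => ?_, fun hs i hi => hs i (hC hi)⟩
    (hP _ _ fun i hi => by rw [if_pos hi, if_pos (hC hi)])
  obtain ⟨i₀, h₀⟩ := hne
  obtain ⟨q, hq⟩ := Option.isSome_iff_exists.1 (hs i₀ h₀)
  by_contra hnone
  exact hn ⟨i₀, hC h₀, q, hq, Or.inl ⟨i, hi, by simpa using hnone⟩⟩

/-- One cell. -/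
lemma link_single (o i : V) (P : St → Prop) :
    S.Link (Λ.T o i P) (Λ.obsP o {i} fun c => P (c i)) := by
  refine link_same (Λ.area_ctx (Λ.cell o i)) subset_rfl (by simp [areaU]) fun a _ => ?_
  rw [Bool.eq_iff_iff, obsP_val_iff]
  simp only [T, win_val_iff, mem_singleton, if_true, AllSome, forall_eq, pat]
  cases Λ.rd (Λ.cell o i) a <;> simp

/-- A single cell inside a context. -/
lemma link_cell {o : V} {I : St → Prop} {C : Finset V} (hl : Λ.Linked) (hI : Λ.Invariant o I)
    (hU : S.Context (Λ.areaU o C)) {i : V} (hi : i ∈ C) (P : St → Prop) :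
    S.Link (Λ.T o i P) (Λ.obsP o C fun c => P (c i)) :=
  (link_single o i P).trans (link_sub hl hI hU (by simpa using hi) (singleton_nonempty i)
    fun c c' h => by rw [h i (mem_singleton_self i)])

/-- Properties equivalent on the patches of a common context are linked. -/
lemma link_common {o : V} {I : St → Prop} {C C₁ C₂ : Finset V} (hl : Λ.Linked)
    (hI : Λ.Invariant o I) (hU : S.Context (Λ.areaU o C)) (h₁ : C₁ ⊆ C) (h₂ : C₂ ⊆ C)
    (n₁ : C₁.Nonempty) (n₂ : C₂.Nonempty) {P P' : (V → St) → Prop} (hP : LocalOn C₁ P)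
    (hP' : LocalOn C₂ P') (h : ∀ c, Patch L I C c → (P c ↔ P' c)) :
    S.Link (Λ.obsP o C₁ P) (Λ.obsP o C₂ P') :=
  (link_sub hl hI hU h₁ n₁ hP).trans
    ((link_patch hl hI hU h).trans (link_sub hl hI hU h₂ n₂ hP').symm)

/-- A property determined on patches by commuting events commutes. -/
lemma com_patch {o : V} {I : St → Prop} {C : Finset V} (hl : Λ.Linked) (hI : Λ.Invariant o I)
    (hU : S.Context (Λ.areaU o C)) {o' : S.Obs} (ho' : S.Context o'.supp) {ι : Type} [Finite ι]
    (Ps : ι → (V → St) → Prop) {P : (V → St) → Prop}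
    (hdet : ∀ c, Patch L I C c → P c → ∃ m, Ps m c)
    (hsub : ∀ c, Patch L I C c → ∀ m, Ps m c → P c)
    (hcom : ∀ m, S.Com (Λ.obsP o C (Ps m)) o') : S.Com (Λ.obsP o C P) o' := by
  have := Fintype.ofFinite ι
  refine (bad_null hl hI hU).com_of_determined (fun m => Λ.obsP o C (Ps m)) hU subset_rfl
    subset_rfl (fun _ => subset_rfl) ho' (fun a b ha hb na nb hab => ?_) hcom
  have key : ∀ x : V → S.A, S.Admissible (Λ.areaU o C) x → (Λ.bad o I C).val x = false →
      ((Λ.obsP o C P).val x = true ↔ ∃ m, (Λ.obsP o C (Ps m)).val x = true) := by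
    intro x hx nx
    simp only [obsP_val_iff]
    constructor
    · rintro ⟨hs, hv⟩
      exact (hdet _ (patch_of_good hx nx hs) hv).imp fun m hm => ⟨hs, hm⟩
    · rintro ⟨m, hs, hm⟩
      exact ⟨hs, hsub _ (patch_of_good hx nx hs) m hm⟩
  rw [Bool.eq_iff_iff, key a ha na, key b hb nb]
  simp only [hab]

end Virtual

end Vale.Agent.P196.Tile.Rigid
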