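import Vale.Agent.P196.Tile.Rigid.Frame
import Vale.Agent.P196.Tile.Rigid.Patch

/-!
P196, module D (rigidity): contexts from meeting tiles.

If tiles of one lattice commute within `meetD`, so do the windows read there, hence the ground cells
they determine; so the areas of a set of cells of small span form a context.
-/

noncomputable section

namespace Vale.Agent.P196.Tile.Rigid

open SFT Finset
open scoped Classical

variable {S : SFT} {L : ℕ}

/-- Tiles of one lattice commute within `meetD`. -/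
def Meets (Λ : Virtual S L) : Prop :=
  ∀ o i i' : V, (i'.1 - i.1).natAbs ≤ meetD L → (i'.2 - i.2).natAbs ≤ meetD L →
    ∀ P P' : St → Prop, S.Com (Λ.T o i P) (Λ.T o i' P')

lemma meetD_big (hL : L₀ ≤ L) : 100 ≤ meetD L := by
  have hM := eight_lt_M hL
  have h4 : M L * 4 ≤ M L * M L := Nat.mul_le_mul_left _ (by omega)
  have h5 : M L * M L * 8 ≤ M L * M L * M L := Nat.mul_le_mul_left _ (by omega)
  have hH : H L = M L * M L * M L := by unfold H; ring
  have hs : M L ^ 2 = M L * M L := sq _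
  unfold meetD
  omega

namespace Virtual

variable {Λ : Virtual S L}

@[simp] lemma cell_zero (o : V) : Λ.cell o 0 = o := by simp [cell]

lemma cell_cell (o h i : V) : Λ.cell (Λ.cell o h) i = Λ.cell o (h + i) := by
  simp only [cell, smul_add]; abel

lemma T_shift (o h i : V) (P : St → Prop) :
    Λ.T (Λ.cell o h) i P = Λ.T o (h + i) P := by
  rw [T, T, cell_cell]

/-- An event at a virtual cell commutes once the events of the tiles of its window do. -/
lemma com_qev_of_tiles (hl : Λ.Linked) (o i : V) (P : Option (Quad4 St) → Bool) {o' : S.Obs}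
    (ho' : S.Context o'.supp) (h : ∀ (j : Fin 4) (R : St → Prop), S.Com (Λ.T o (i - dir j) R) o') :
    S.Com (Λ.qev (Λ.cell o i) P) o' := by
  let vals : Fin 4 → Finset St := fun j => (Λ.finite_range (Λ.cell o i)).toFinset.image fun r =>
    r.elim (child L (fun _ => false) (fun _ _ => false) 0 0) fun q => q j
  let Ps : Option (Σ j, {t // t ∈ vals j}) → S.Obs := fun m =>
    m.elim (Λ.win (Λ.cell o i) fun _ => True) fun p => Λ.win (Λ.cell o i) fun q => q p.1 = p.2.1
  refine com_of_determined _ o' Ps (Λ.area (Λ.cell o i)) subset_rfl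
    (fun m => by cases m <;> exact subset_rfl) (Λ.area_ctx _) ho' (fun a b _ _ hab => ?_)
    fun m => ?_
  · simp only [qev_val]
    have h0 := hab none
    simp only [Ps, Option.elim] at h0
    cases ha : Λ.rd (Λ.cell o i) a with
    | none =>
      cases hb : Λ.rd (Λ.cell o i) b with
      | none => rfl
      | some q' => rw [win_val_none Λ ha, (win_val_some Λ hb).2 trivial] at h0; cases h0
    | some q =>
      cases hb : Λ.rd (Λ.cell o i) b with
      | none => rw [win_val_none Λ hb, (win_val_some Λ ha).2 trivial] at h0; cases h0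
      | some q' =>
        refine congrArg P (congrArg some (funext fun j => ?_))
        have hj := hab (some ⟨j, q j, mem_image.2
          ⟨some q, (Set.Finite.mem_toFinset _).2 ⟨a, ha⟩, rfl⟩⟩)
        simp only [Ps, Option.elim] at hj
        rw [show (Λ.win (Λ.cell o i) fun q' => q' j = q j).val a = true from
          (win_val_some Λ ha).2 rfl] at hj
        exact ((win_val_some Λ hb).1 hj.symm).symm
  · cases m with
    | none =>
      have h0 := h 0 fun _ => True
      rw [show i - dir 0 = i by simp [dir]] at h0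
      exact h0
    | some p => exact (hl.tile o i p.1 fun t => t = p.2.1).com (h _ _)

/-- Virtual cells close to each other commute. -/
lemma com_near (hl : Λ.Linked) (hM : Meets Λ) {v w : V}
    (hd : ∀ n, n = (w.1 - v.1).natAbs ∨ n = (w.2 - v.2).natAbs → n + 2 * Λ.Q ≤ meetD L * Λ.Q)
    (P P' : Option (Quad4 St) → Bool) : S.Com (Λ.qev v P) (Λ.qev w P') := by
  by_cases hQ : (Λ.Q : ℤ) ∣ w.1 - v.1 ∧ (Λ.Q : ℤ) ∣ w.2 - v.2
  swap
  · exact Λ.com_off hQ P P'
  obtain ⟨⟨x, hx⟩, y, hy⟩ := hQ
  have bound : ∀ (z : ℤ), ((Λ.Q : ℤ) * z).natAbs + 2 * Λ.Q ≤ meetD L * Λ.Q →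
      z.natAbs + 2 ≤ meetD L := fun z hz => by
    rw [Int.natAbs_mul, Int.natAbs_natCast, Nat.mul_comm Λ.Q, ← Nat.add_mul] at hz
    exact Nat.le_of_mul_le_mul_right hz Λ.Q_pos
  have hx' := bound x (hx ▸ hd _ (Or.inl rfl))
  have hy' := bound y (hy ▸ hd _ (Or.inr rfl))
  have hw : w = Λ.cell v (x, y) := by
    ext <;> simp [cell] <;> omega
  rw [← cell_zero (Λ := Λ) v, hw]
  refine com_qev_of_tiles hl v 0 P (Λ.area_ctx _) fun j R => Com.symm _ _ ?_
  refine com_qev_of_tiles hl v (x, y) P' (Λ.area_ctx _) fun j' R' => ?_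
  refine hM v _ _ ?_ ?_ R' R <;> simp only [dir, Prod.fst_sub, Prod.snd_sub, Prod.fst_zero,
    Prod.snd_zero] <;> split_ifs <;> omega

/-- Ground cells close to each other commute. -/
lemma within (hL : L₀ ≤ L) (hl : Λ.Linked) (hM : Meets Λ) :
    Within S ((meetD L - 8) * Λ.Q) := by
  intro u v huv c d
  refine (Λ.cellCom (context_singleton v) fun w hw P => Com.symm _ _ ?_) c
  refine (Λ.cellCom (Λ.area_ctx _) fun w' hw' P' => ?_) d
  refine com_near hl hM ?_ P' P
  have h1 := mem_boxAt.1 (Λ.near_le u w hw)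
  have h2 := mem_boxAt.1 (Λ.near_le v w' hw')
  rw [mem_boxAt] at huv
  rw [Nat.sub_mul] at huv
  have hpos := Λ.Q_pos
  have hbig : 100 * Λ.Q ≤ meetD L * Λ.Q := Nat.mul_le_mul_right _ (meetD_big hL)
  rintro n (rfl | rfl) <;> omega

/-- The areas of cells of small span form a context. -/
lemma context_areaU (hL : L₀ ≤ L) (hl : Λ.Linked) (hM : Meets Λ) (o : V) {C : Finset V}
    (hC : ∀ i ∈ C, ∀ i' ∈ C, (i'.1 - i.1).natAbs + 12 ≤ meetD L ∧
      (i'.2 - i.2).natAbs + 12 ≤ meetD L) : S.Context (Λ.areaU o C) := by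
  refine (within hL hl hM).context fun a ha b hb => ?_
  obtain ⟨i, hi, ha⟩ := mem_biUnion.1 ha
  obtain ⟨i', hi', hb⟩ := mem_biUnion.1 hb
  have h1 := mem_boxAt.1 (Λ.area_le _ a ha)
  have h2 := mem_boxAt.1 (Λ.area_le _ b hb)
  obtain ⟨hx, hy⟩ := hC i hi i' hi'
  have bound : ∀ z : ℤ, z.natAbs + 12 ≤ meetD L →
      ((Λ.Q : ℤ) * z).natAbs + 12 * Λ.Q ≤ meetD L * Λ.Q := fun z hz => by
    rw [Int.natAbs_mul, Int.natAbs_natCast, Nat.mul_comm Λ.Q, ← Nat.add_mul]
    exact Nat.mul_le_mul_right _ hz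
  have bx := bound _ hx
  have bY := bound _ hy
  simp only [cell, Prod.fst_add, Prod.snd_add, Prod.smul_fst, Prod.smul_snd, smul_eq_mul] at h1 h2
  rw [mul_sub] at bx bY
  rw [mem_boxAt, Nat.sub_mul]
  omega

end Virtual

end Vale.Agent.P196.Tile.Rigid
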