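import Vale.Agent.P196.Tile.Rigid.Rules
import Vale.Agent.P196.Tile.Desub.CornerOK

/-!
P196, module D (rigidity): the halves and the guest bits inside a corner.

In a corner the halves found at the origin are shown on the row `0`, the column `0`, the column of
the cut and the column `2M`; the bits of the crossing are shown on the whole row and column.
-/

noncomputable section

namespace Vale.Agent.P196.Tile.Corner

open ChildRules

variable {L : ℕ} {c : V → St} {o : V}

lemma at_origin (c : V → St) (o : V) : at' c o 0 0 = c o := by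
  simp only [at', Nat.cast_zero]
  rw [show o + ((0 : ℤ), (0 : ℤ)) = o by simp [Prod.ext_iff]]

lemma two_M_le (hL : L₀ ≤ L) : 2 * M L ≤ cornerH L := by
  have hsq : 8 * M L ≤ M L ^ 2 := by
    rw [sq]; exact Nat.mul_le_mul_right _ (by have := eight_lt_M hL; omega)
  have : 1 * M L ^ 2 ≤ (lastK L + 1) * M L ^ 2 := Nat.mul_le_mul_right _ (by omega)
  unfold cornerH
  omega

lemma qx_x0 (hL : L₀ ≤ L) (hc : Corner L c o) {j : ℕ} (hj : j ≤ cornerH L) :
    (at' c o 0 j).fin.qx = (c o).fin.qx := by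
  induction j with
  | zero => rw [at_origin]
  | succ j ih =>
    obtain ⟨hk, hx, -⟩ := hc.pos hL (Nat.zero_le _) hj
    refine ((hc.vert (Nat.zero_le _) hj).1.qx ?_).trans (ih (by omega))
    simp only [Bool.or_eq_true]
    exact Or.inl ((Rigid.claim_x0 hL).2 ⟨hk, hx⟩)

lemma qy_y0 (hL : L₀ ≤ L) (hc : Corner L c o) {i : ℕ} (hi : i ≤ 7 * M L) :
    (at' c o i 0).fin.qy = (c o).fin.qy := by
  induction i with
  | zero => rw [at_origin]
  | succ i ih =>
    obtain ⟨-, -, hy⟩ := hc.pos hL hi (Nat.zero_le _)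
    refine ((hc.horiz hi (Nat.zero_le _)).1.qy ?_).trans (ih (by omega))
    simp only [Bool.or_eq_true]
    exact Or.inl (Rigid.claim_y0.2 hy)

lemma qx_rowQ (hL : L₀ ≤ L) (hc : Corner L c o) {i : ℕ} (hi : i ≤ 7 * M L) :
    (at' c o i (2 * M L)).fin.qx = (c o).fin.qx := by
  have h2 := two_M_le hL
  induction i with
  | zero => exact qx_x0 hL hc h2
  | succ i ih =>
    obtain ⟨-, hx, hy⟩ := hc.pos hL hi h2
    refine ((hc.horiz hi h2).1.qx ((Rigid.claim_rowQ hL).2 hy)).trans ?_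
    rw [if_neg fun h => by have := ((Rigid.claim_x0 hL).1 h).2; omega]
    exact ih (by omega)

lemma qx_cut (hL : L₀ ≤ L) (hc : Corner L c o) {j : ℕ} (hj : j ≤ cornerH L) :
    (at' c o (cutX L) j).fin.qx = (c o).fin.qx := by
  have hcut : cutX L = 7 * M L := rfl
  have const : ∀ j, j ≤ cornerH L →
      (at' c o (7 * M L) j).fin.qx = (at' c o (7 * M L) 0).fin.qx := by
    intro j
    induction j with
    | zero => exact fun _ => rfl
    | succ j ih =>
      intro hj
      obtain ⟨hk, hx, -⟩ := hc.pos hL le_rfl hj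
      refine ((hc.vert le_rfl hj).1.qx ?_).trans (ih (by omega))
      simp only [Bool.or_eq_true]
      exact Or.inr ((Rigid.claim_cut hL).2 ⟨hk, hx⟩)
  rw [hcut, const j hj, ← const _ (two_M_le hL)]
  exact qx_rowQ hL hc le_rfl

lemma qy_colQ (hL : L₀ ≤ L) (hc : Corner L c o) {j : ℕ} (hj : j ≤ cornerH L) :
    (at' c o (2 * M L) j).fin.qy = (c o).fin.qy := by
  have hi : 2 * M L ≤ 7 * M L := by omega
  induction j with
  | zero => exact qy_y0 hL hc hi
  | succ j ih =>
    obtain ⟨hk, hx, hy⟩ := hc.pos hL hi hj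
    refine ((hc.vert hi hj).1.qy ((Rigid.claim_colQ hL).2 ⟨hk, hx⟩)).trans ?_
    rw [if_neg fun h => by have := (Rigid.claim_y0 (L := L)).1 h; omega]
    exact ih (by omega)

/-- A wire row shows the bits read at its crossing. -/
lemma h_wire (hL : L₀ ≤ L) (hc : Corner L c o) {k : ℕ} (hk : k ≤ lastK L) {i : ℕ} (h1 : 1 ≤ i)
    (hi' : i ≤ 7 * M L) : (at' c o i (Rigid.wireY L k)).fin.h = bits L c o k := by
  have hw : Rigid.wireY L k = wireY L k := rfl
  have hle : Rigid.wireY L k ≤ cornerH L := hw ▸ wireY_le (by omega)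
  have hpos : 1 ≤ Rigid.wireY L k := by have := M_pos L; unfold Rigid.wireY; omega
  obtain ⟨m1, m2, mx, -⟩ := mods hL hi' hle
  obtain ⟨e, hwire⟩ := Rigid.wireY_facts hL k
  rw [h_eq hL hc h1 hi' hpos hle]
  funext t
  simp only [kid, child_h, m1, m2, e]
  rw [if_pos ⟨hwire, hk, fun h => by omega, fun h => absurd h (by simp [mx])⟩]

/-- The step from the column `0` into a wire row. -/
lemma h_zero_step (hL : L₀ ≤ L) (hc : Corner L c o) {k : ℕ} (hk : k ≤ lastK L) :
    ((c o).fin.qx = some false →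
        (at' c o 0 (Rigid.wireY L k)).fin.h 1 = bits L c o k 1 ∧
          (at' c o 0 (Rigid.wireY L k)).fin.h 3 = bits L c o k 3) ∧
      ((c o).fin.qx ≠ some false → (at' c o 0 (Rigid.wireY L k)).fin.h = bits L c o k) := by
  have hle : Rigid.wireY L k ≤ cornerH L := wireY_le (by omega)
  have h17 : 1 ≤ 7 * M L := by have := M_pos L; omega
  obtain ⟨hk1, hx1, hy1⟩ := hc.pos hL h17 hle
  obtain ⟨hk0, hx0, -⟩ := hc.pos hL (Nat.zero_le _) hle
  have hq := qx_x0 hL hc hle
  have hh : HRule (cell L (at' c o 1 (Rigid.wireY L k)))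
      (cell L (at' c o 0 (Rigid.wireY L k))) :=
    (hc.horiz (i := 0) h17 hle).1.h
      (Rigid.claim_wire.2 (by rw [Nat.zero_add, hy1]; exact (Rigid.wireY_facts hL k).2))
  have hM := M_pos L
  unfold HRule at hh
  rw [if_neg (fun h' => by have := ((Rigid.claim_x0 hL).1 h'.1).2; omega),
    if_neg (fun h' => by have := ((Rigid.claim_cut hL).1 h'.1).2; unfold cutX at this; omega)] at hh
  have e := h_wire hL hc hk le_rfl h17
  refine ⟨fun hf => ?_, fun hf => ?_⟩
  · rw [if_pos ⟨(Rigid.claim_x0 hL).2 ⟨hk0, hx0⟩, hq.trans hf⟩] at hh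
    exact ⟨hh.1.symm.trans (congrFun e 1), hh.2.symm.trans (congrFun e 3)⟩
  · rw [if_neg fun h => hf (hq.symm.trans h.2)] at hh
    exact (show (at' c o 1 (Rigid.wireY L k)).fin.h = (at' c o 0 (Rigid.wireY L k)).fin.h from
      hh).symm.trans e

lemma bundle_bitX (hL : L₀ ≤ L) {k : ℕ} (hk : k ≤ lastK L) :
    IsBundle L (Rigid.bitX L k) ∧ lo L (Rigid.bitX L k) = 2 * k ∧
      Rigid.bitX L k ≤ 2 * M L := by
  have hb := lastK_bound hL
  obtain ⟨e1, e2, e3⟩ := coord_of (L := L) (a := 0) (c := 1) (e := 2 * k) (by omega) (by omega)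
  rw [show M L ^ 2 * 0 + M L * 1 + 2 * k = Rigid.bitX L k by unfold Rigid.bitX; ring] at e1 e2 e3
  exact ⟨⟨⟨e1, e2⟩, by rw [e3]; omega⟩, e3, by unfold Rigid.bitX; omega⟩

/-- A bundle column shows the bits read at its crossing. -/
lemma vb_col (hL : L₀ ≤ L) (hc : Corner L c o) {k : ℕ} (hk : k ≤ lastK L) {j : ℕ} (h1 : 1 ≤ j)
    (hj : j ≤ cornerH L) : (at' c o (Rigid.bitX L k) j).fin.vb = bits L c o k := by
  obtain ⟨hbu, hlo, hx7⟩ := bundle_bitX hL hk
  have hx : Rigid.bitX L k ≤ 7 * M L := by omega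
  have hy1 : 1 ≤ Rigid.wireY L k := by have := M_pos L; unfold Rigid.wireY; omega
  have hyH : Rigid.wireY L k ≤ cornerH L := wireY_le (by omega)
  have const : ∀ j, 1 ≤ j → j ≤ cornerH L →
      (at' c o (Rigid.bitX L k) j).fin.vb = (at' c o (Rigid.bitX L k) 1).fin.vb := by
    intro j
    induction j with
    | zero => omega
    | succ j ih =>
      intro _ hj
      rcases Nat.eq_zero_or_pos j with rfl | hp
      · rfl
      obtain ⟨hk1, hx1, hy⟩ := hc.pos hL hx hj
      obtain ⟨-, -, hyd⟩ := hc.pos hL hx (show j ≤ cornerH L by omega)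
      have hh : VbRule (cell L (at' c o (Rigid.bitX L k) (j + 1)))
          (cell L (at' c o (Rigid.bitX L k) j)) :=
        (hc.vert hx hj).1.vb (Rigid.claim_bundle.2 ⟨hk1, hx1.symm ▸ hbu⟩)
      have hh2 := (cornerH_lt hL).2
      unfold VbRule at hh
      rw [if_neg (fun h' => by have := (Rigid.claim_y0 (L := L)).1 h'.1; omega),
        if_neg (fun h' => by have := (Rigid.claim_halfY hL).1 h'.1; omega),
        if_neg (fun h' => by have := (Rigid.claim_y0 (L := L)).1 h'.1; omega)] at hh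
      exact (show (at' c o (Rigid.bitX L k) (j + 1)).fin.vb = (at' c o (Rigid.bitX L k) j).fin.vb
        from hh).trans (ih hp (by omega))
  obtain ⟨hkc, hxc, hyc⟩ := hc.pos hL hx hyH
  obtain ⟨e, hwire⟩ := Rigid.wireY_facts hL k
  have hd : (at' c o (Rigid.bitX L k) (Rigid.wireY L k)).fin.h =
      (at' c o (Rigid.bitX L k) (Rigid.wireY L k)).fin.vb :=
    (hc.pfacts hx hyH).diag (Rigid.claim_wire.2 (hyc.symm ▸ hwire))
      (Rigid.claim_bundle.2 ⟨hkc, hxc.symm ▸ hbu⟩)
      (Rigid.claim_diag.2 (by rw [hxc, hyc, hlo, e]))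
  rw [const j h1 hj, ← const _ hy1 hyH, ← hd]
  exact h_wire hL hc hk (by have := M_pos L; unfold Rigid.bitX; omega) hx

/-- The step from the row `0` into a bundle column. -/
lemma vb_zero_step (hL : L₀ ≤ L) (hc : Corner L c o) {k : ℕ} (hk : k ≤ lastK L) :
    ((c o).fin.qy = some false →
        (at' c o (Rigid.bitX L k) 0).fin.vb 2 = bits L c o k 2 ∧
          (at' c o (Rigid.bitX L k) 0).fin.vb 3 = bits L c o k 3) ∧
      ((c o).fin.qy ≠ some false → (at' c o (Rigid.bitX L k) 0).fin.vb = bits L c o k) := by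
  obtain ⟨hbu, -, hx7⟩ := bundle_bitX hL hk
  have hx : Rigid.bitX L k ≤ 7 * M L := by omega
  have h01 := one_le_cornerH L
  obtain ⟨hk1, hx1, hy1⟩ := hc.pos hL hx h01
  obtain ⟨-, -, hy0⟩ := hc.pos hL hx (Nat.zero_le _)
  have hh : VbRule (cell L (at' c o (Rigid.bitX L k) 1)) (cell L (at' c o (Rigid.bitX L k) 0)) :=
    (hc.vert (j := 0) hx h01).1.vb (Rigid.claim_bundle.2 ⟨hk1, hx1.symm ▸ hbu⟩)
  have hq := qy_y0 hL hc hx
  have hH : 0 < halfY L := by have := M_pos L; unfold halfY; omega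
  unfold VbRule at hh
  rw [if_neg (fun h' => by have := (Rigid.claim_y0 (L := L)).1 h'.1; omega),
    if_neg (fun h' => by have := (Rigid.claim_halfY hL).1 h'.1; omega)] at hh
  have e := vb_col hL hc hk le_rfl h01
  refine ⟨fun hf => ?_, fun hf => ?_⟩
  · rw [if_pos ⟨Rigid.claim_y0.2 hy0, hq.trans hf⟩] at hh
    exact ⟨hh.1.symm.trans (congrFun e 2), hh.2.symm.trans (congrFun e 3)⟩
  · rw [if_neg fun h => hf (hq.symm.trans h.2)] at hh
    exact (show (at' c o (Rigid.bitX L k) 1).fin.vb = (at' c o (Rigid.bitX L k) 0).fin.vb from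
      hh).symm.trans e

end Vale.Agent.P196.Tile.Corner
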