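import Vale.Agent.P196.Tile.Rigid.Inv

/-!
P196, module D (rigidity): a tile is determined by its positioned data, its row and the halves
carried on two rows; consequences for an arbitrary closed family of events.
-/

noncomputable section

namespace Vale.Agent.P196.Tile.Rigid

open SFT Finset ChildRules
open scoped Classical

variable {S : SFT} {L : ℕ} {Λ : Virtual S L} {o : V} {C : V → (St → Prop) → Prop}

/-- A property of one tile determined by properties of the same tile. -/
lemma Closed.tile (hC : Closed Λ o C) {ι : Type} [Fintype ι] (i : V) (P : St → Prop)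
    (Ps : ι → St → Prop)
    (h : ∀ t t', TileRules L t → TileRules L t' → Inv L t → Inv L t' →
      (∀ m, Ps m t ↔ Ps m t') → (P t ↔ P t'))
    (hm : ∀ m, C i (Ps m)) : C i P := by
  have h0 : i - dir 0 = i := by simp [dir]
  have := hC.step (ι := ι) i 0 P (fun _ => 0) Ps
    (fun q q' hq hq' hi hi' he => h _ _ (tileRules hq 0) (tileRules hq' 0) (hi 0) (hi' 0) he)
    (fun m => by rw [h0]; exact hm m)
  rwa [h0] at this

/-- A property implied by the invariant belongs to every closed family. -/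
lemma Closed.const (hC : Closed Λ o C) (i : V) (P : St → Prop)
    (h : ∀ t, TileRules L t → Inv L t → P t) : C i P :=
  hC.tile (ι := Empty) i P Empty.elim
    (fun t t' ht ht' hi hi' _ => iff_of_true (h t ht hi) (h t' ht' hi')) (fun m => m.elim)

/-- An impossible property belongs to every closed family. -/
lemma Closed.never (hC : Closed Λ o C) (i : V) (P : St → Prop)
    (h : ∀ t, TileRules L t → Inv L t → ¬ P t) : C i P :=
  hC.tile (ι := Empty) i P Empty.elim
    (fun t t' ht ht' hi hi' _ => iff_of_false (h t ht hi) (h t' ht' hi')) (fun m => m.elim)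

/-- A tile without a position is empty apart from its row and the halves on two rows. -/
lemma unknown_eq {t t' : St} (hL : L₀ ≤ L) (ht : TileRules L t) (ht' : TileRules L t')
    (hi : Inv L t) (hi' : Inv L t') (hk : t.xk = false) (hk' : t'.xk = false) (hy : t.y = t'.y)
    (hx : QX L t ↔ QX L t') (hy' : QY L t ↔ QY L t') : t = t' := by
  obtain ⟨-, u, live, carry, eq, look⟩ := hi.resolve_right fun h => by simp [hk] at h
  obtain ⟨-, u', live', carry', eq', look'⟩ := hi'.resolve_right fun h => by simp [hk'] at h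
  have none_col : ∀ {s : St}, s.xk = false → ∀ m ≤ 7, ((claims L s).xk && (claims L s).cx.xh0 &&
      (claims L s).cx.xl0 && decide ((claims L s).cx.xmC.val = m)) = false := fun {s} h m _ => by
    have e : (claims L s).xk = false := h
    simp [e]
  have fields : ∀ {s : St}, TileRules L s → s.xk = false →
      (s.fin.qx.isSome = true ↔ s.y = rowQY L) ∧ (s.fin.qy.isSome = true ↔ s.y = halfY L) ∧
        (∀ j, s.fin.vb j = false) ∧ s.fin.v = false ∧ s.y ≠ 0 := by
    intro s hs h
    have e : (claims L s).xk = false := h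
    have hy0 : ¬ (claims L s).isY0 = true := fun h0 => by
      have h1 : s.xk = true := hs.p.y0_xk h0
      rw [h] at h1
      exact Bool.noConfusion h1
    refine ⟨?_, ?_, fun j => hs.p.vb_zero (by simp [Claims.bundle, e]) j,
      hs.p.v_zone (by simp [Claims.zone, e]), fun h0 => hy0 (claim_y0.2 h0)⟩
    · rw [show s.fin.qx.isSome = _ from hs.p.qx_some]
      simp [Claims.x0, Claims.cut, e, claim_rowQ hL]
    · rw [show s.fin.qy.isSome = _ from hs.p.qy_some]
      simp [Claims.colQ, e, claim_halfY hL, Bool.eq_false_iff.2 hy0]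
  obtain ⟨q1, q2, vb, v, -⟩ := fields ht hk
  obtain ⟨q1', q2', vb', v', -⟩ := fields ht' hk'
  have key : ∀ (a b : Option Bool), (a.isSome = true ↔ b.isSome = true) →
      (a = some true ↔ b = some true) → a = b := by
    intro a b h1 h2
    rcases a with _ | _ | _ <;> rcases b with _ | _ | _ <;> simp_all
  have eqx : t.fin.qx = t'.fin.qx := by
    refine key _ _ (by rw [q1, q1', hy]) ?_
    constructor <;> intro h
    · exact (hx.1 ⟨q1.1 (by simp [h]), h⟩).2
    · exact (hx.2 ⟨q1'.1 (by simp [h]), h⟩).2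
  have eqy : t.fin.qy = t'.fin.qy := by
    refine key _ _ (by rw [q2, q2', hy]) ?_
    constructor <;> intro h
    · exact (hy'.1 ⟨q2.1 (by simp [h]), h⟩).2
    · exact (hy'.2 ⟨q2'.1 (by simp [h]), h⟩).2
  have eh : t.fin.h = t'.fin.h := funext fun j => by
    have a1 : t.fin.h j = false := ht.p.h_zero live j
    have a2 : t'.fin.h j = false := ht'.p.h_zero live' j
    rw [a1, a2]
  have evb : t.fin.vb = t'.fin.vb := funext fun j => by rw [vb j, vb' j]
  have x := ht.bd.x_zero hk
  have x' := ht'.bd.x_zero hk'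
  rcases t with ⟨_, _, _, _, ⟨_, _, _, _, _, _, _, _, _⟩⟩
  rcases t' with ⟨_, _, _, _, ⟨_, _, _, _, _, _, _, _, _⟩⟩
  simp_all

/-- The decomposition of a tile. -/
theorem decompStatement : DecompStatement := by
  intro S L Λ hL _ o C hC i hpos hrow hqx hqy P
  let g : Fin (H L) × Fin (H L) → V := fun p =>
    (((p.1 : ℕ) : ℤ) - i.1, ((p.2 : ℕ) : ℤ) - i.2)
  have hexp : ∀ (p : Fin (H L) × Fin (H L)) (t : St),
      Exp L (g p) i t ↔ t.xk = true ∧ t.x = p.1 ∧ t.y = p.2 := by
    intro p t
    have e : ∀ (a : ℕ) (n : ℤ), a < H L → res L ((a : ℤ) - n + n) = (a : ℤ) := fun a n ha => by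
      rw [sub_add_cancel]
      exact Int.emod_eq_of_lt (by omega) (by omega)
    simp only [Exp, g, e _ _ p.1.2, e _ _ p.2.2, Nat.cast_inj]
  refine hC.tile (ι := (Fin (H L) × Fin (H L) × Bool) ⊕ Fin (H L) ⊕ Bool) i P
    (fun m => match m with
      | Sum.inl (x, y, b) => fun t => Exp L (g (x, y)) i t ∧ (b = true → P t)
      | Sum.inr (Sum.inl s) => fun t => t.y = s.val
      | Sum.inr (Sum.inr b) => if b then QX L else QY L) (fun t t' ht ht' hi hi' he => ?_) ?_
  · have hxk : ∀ {s s' : St}, TileRules L s → (∀ x y, Exp L (g (x, y)) i s → Exp L (g (x, y)) i s') →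
        s.xk = true → s'.xk = true ∧ s'.x = s.x ∧ s'.y = s.y := fun {s s'} hs h hk =>
      (hexp (⟨s.x, hs.bd.x_lt⟩, ⟨s.y, hs.bd.y_lt⟩) s').1 (h _ _ ((hexp _ s).2 ⟨hk, rfl, rfl⟩))
    have e0 : ∀ x y, Exp L (g (x, y)) i t ↔ Exp L (g (x, y)) i t' := fun x y => by
      simpa using he (Sum.inl (x, y, false))
    have e1 : ∀ x y, (Exp L (g (x, y)) i t ∧ P t) ↔ (Exp L (g (x, y)) i t' ∧ P t') := fun x y => by
      simpa using he (Sum.inl (x, y, true))
    by_cases hk : t.xk = true
    · obtain ⟨hk', hx, hy⟩ := hxk ht (fun x y => (e0 x y).1) hk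
      have hT := (hexp (⟨t.x, ht.bd.x_lt⟩, ⟨t.y, ht.bd.y_lt⟩) t).2 ⟨hk, rfl, rfl⟩
      have hT' := (hexp (⟨t.x, ht.bd.x_lt⟩, ⟨t.y, ht.bd.y_lt⟩) t').2 ⟨hk', hx, hy⟩
      exact ⟨fun h => ((e1 _ _).1 ⟨hT, h⟩).2, fun h => ((e1 _ _).2 ⟨hT', h⟩).2⟩
    · have hk' : ¬ t'.xk = true := fun h => hk (hxk ht' (fun x y => (e0 x y).2) h).1
      have hy : t'.y = t.y := (he (Sum.inr (Sum.inl ⟨t.y, ht.bd.y_lt⟩))).1 rfl
      rw [unknown_eq hL ht ht' hi hi' (by simpa using hk) (by simpa using hk') hy.symm
        (by simpa using he (Sum.inr (Sum.inr true))) (by simpa using he (Sum.inr (Sum.inr false)))]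
  · rintro (⟨x, y, b⟩ | s | b)
    · exact hpos _ fun t => b = true → P t
    · exact hrow _
    · cases b
      · exact hqy
      · exact hqx

end Vale.Agent.P196.Tile.Rigid
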