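import Vale.Agent.P196.Tile.Rigid.Frame
import Vale.Agent.P196.Tile.Desub.CornerBits

/-!
P196, module D (rigidity): the invariants of a lattice.

Wrong counters and wrong extents of the columns are null by induction upwards from the row `0`; a
wrong row in use is linked to one at the scanning column.
-/

noncomputable section

namespace Vale.Agent.P196.Tile.Rigid

open SFT Finset ChildRules
open scoped Classical

variable {S : SFT} {L : ℕ}

lemma isSome_eqNext (t d : Claims) (de de' : Option Bool) (q q' : Quad)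
    (h : de.isSome = de'.isSome) :
    (eqNext t d de q).isSome = (eqNext t d de' q').isSome := by
  unfold eqNext
  split_ifs <;> simp [h]

lemma isSome_lookNext (t d : Claims) (dl dl' : Option Look) (q q' : Quad)
    (h : dl.isSome = dl'.isSome) :
    (lookNext t d dl q).isSome = (lookNext t d dl' q').isSome := by
  unfold lookNext
  split_ifs <;> simp [h]

/-- The counter or the extent of a column differs from that of the child at this position. -/
def Off (L : ℕ) (t : St) : Prop :=
  t.u ≠ (shellOf L t).u ∨ t.fin.carry.isSome ≠ (shellOf L t).fin.carry.isSome ∨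
    t.fin.eq.isSome ≠ (shellOf L t).fin.eq.isSome ∨
    t.fin.look.isSome ≠ (shellOf L t).fin.look.isSome

lemma shellOf_coord {t : St} (hb : Bd L t) (hk : knownX L t.x t.y = true) :
    (shellOf L t).xk = true ∧ (shellOf L t).x = t.x ∧ (shellOf L t).y = t.y := by
  have hx := Nat.mod_eq_of_lt hb.x_lt
  have hy := Nat.mod_eq_of_lt hb.y_lt
  refine ⟨?_, ?_, ?_⟩
  · rw [shellOf, child_xk, hx, hy, hk]
  · rw [shellOf, child_x, hx, hy, if_pos hk]
  · rw [shellOf, child_y, hy]

lemma known_of_band {x y : ℕ} (h : IsBand L x) : knownX L x y = true := by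
  simp [knownX, h.1, h.2]

/-- The shell child has no counter and no column data outside the special columns. -/
lemma shellOf_plain {t : St} (hb : Bd L t) (hx : ¬ IsBand L t.x) :
    (shellOf L t).u = 0 ∧ (shellOf L t).fin.carry = none ∧ (shellOf L t).fin.eq = none ∧
      (shellOf L t).fin.look = none := by
  have hmod := Nat.mod_eq_of_lt hb.x_lt
  have hc : ∀ m ≤ 7, ¬ IsCol L (t.x % H L) m := fun m hm h => by
    rw [hmod] at h
    exact hx ⟨h.1, h.2.trans_le hm⟩
  refine ⟨?_, ?_, ?_, ?_⟩
  · simp only [shellOf, child]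
    exact if_neg fun h => hc 3 (by norm_num) h.1
  · rw [shellOf, child_carry, if_neg fun h => hc 3 (by norm_num) h.1]
  · rw [shellOf, child_eqf, if_neg fun h => hc 4 (by norm_num) h.1.1]
  · rw [shellOf, child_look, if_neg fun h => hc 6 (by norm_num) h.1.1]

/-- Outside the special columns there is no counter and no column data. -/
lemma plain {t d : St} (h : VRules L t d) (hx : ¬ (t.xk = true ∧ IsBand L t.x)) :
    t.u = 0 ∧ t.fin.carry = none ∧ t.fin.eq = none ∧ t.fin.look = none := by
  have hband : ∀ m ≤ 7, t.xk = true → ¬ IsCol L t.x m := fun m hm hk hc =>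
    hx ⟨hk, hc.1, hc.2.trans_le hm⟩
  have hs : ¬ (claims L t).isScan = true := fun h' => by
    obtain ⟨hk, hcol, -⟩ := (claim_col (L := L) (t := t) (m := 3) (by norm_num)).1 h'
    exact hband 3 (by norm_num) hk hcol
  have hz : ∀ m ≤ 7, ¬ (claims L t).zoneAt m = true := fun m hm h' => by
    simp only [Claims.zoneAt, Bool.and_eq_true, decide_eq_true_iff] at h'
    simp only [claims, decide_eq_true_iff] at h'
    exact hx ⟨h'.1.1.1.1, h'.1.1.1.2, by
      have := h'.2
      have : min (mid L t.x) 8 = m := this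
      omega⟩
  refine ⟨?_, ?_, ?_, ?_⟩
  · have hc := h.cnt
    unfold CounterNum at hc
    simp only at hc
    rw [if_neg] at hc
    · exact hc
    · intro h'
      apply hs
      simp only [Bool.and_eq_true] at h'
      simp only [Claims.isScan, Bool.and_eq_true]
      exact h'.1.1
  · exact h.f.carry.trans (by simp [carryNext, hs])
  · exact h.f.eq.trans (by simp [eqNext, hz 4 (by norm_num)])
  · exact h.f.look.trans (by simp [lookNext, hz 6 (by norm_num)])

/-- On valid windows a band tile is exact if the tile below it is. -/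
lemma off_step {t d : St} (hL : L₀ ≤ L) (h : VRules L t d) (hk : t.xk = true)
    (hx : IsBand L t.x) (hoff : Off L t) :
    t.y ≠ 0 ∧ d.xk = true ∧ d.x = t.x ∧ d.y + 1 = t.y ∧ Off L d := by
  have hb := h.top.bd
  obtain ⟨hdk, -⟩ := h.r.band_down hk (claim_band.2 hx)
  have hdx : d.x = t.x := (h.num.2 hk hdk).symm
  obtain ⟨ek, ex, ey⟩ := shellOf_coord hb (known_of_band hx)
  have hy : t.y = 0 ∨ d.y + 1 = t.y := by
    rcases Nat.lt_or_ge (d.y + 1) (H L) with h1 | h1
    · exact Or.inr (by rw [h.num.1, Nat.mod_eq_of_lt h1])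
    · refine Or.inl ?_
      rw [h.num.1, show d.y + 1 = H L by have := h.bot.bd.y_lt; omega, Nat.mod_self]
  have hYside : t.y < side L := by have := hb.y_lt; unfold side; omega
  set T' := shellOf L t with hT'
  set D' := child L (fun _ => false) (fun _ _ => false) t.x (pred' L t.y) with hD'
  have hV : VFacts (cell L T') (cell L D') :=
    childV (τ := fun _ => false) (b := fun _ _ => false) (b' := fun _ _ => false) (X := t.x) hL
      hYside ⟨fun _ => rfl, fun _ _ => ⟨rfl, rfl⟩⟩
  have hC : CounterNum L T' D' :=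
    counter_child hL _ _ _ _ _ _ (succ_pred' L t.y hYside)
  have hd : d.y + 1 = t.y → D' = shellOf L d := fun e => by
    rw [hD', pred'_succ L t.y hYside (by omega), show t.y - 1 = d.y by omega, shellOf, hdx]
  have hkd : knownX L d.x d.y = true := known_of_band (hdx ▸ hx)
  by_contra hne
  have hgood : d.y + 1 = t.y → d.u = D'.u ∧ d.fin.carry.isSome = D'.fin.carry.isSome ∧
      d.fin.eq.isSome = D'.fin.eq.isSome ∧ d.fin.look.isSome = D'.fin.look.isSome := by
    intro e
    rw [hd e]
    have : ¬ Off L d := fun ho => hne ⟨by omega, hdk, hdx, e, ho⟩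
    simpa [Off, not_or] using this
  have hu : t.u = T'.u := by
    refine Corner.counterNum_det h.cnt hC (hk.trans ek.symm) ex.symm ey.symm fun hA => ?_
    rcases hy with e | e
    · exfalso
      have h0 : hi L t.y = 0 := by simp [e, hi]
      have : (0 : ℕ) < A := by norm_num [A]
      omega
    · exact (hgood e).1
  have hct : claims L t = claims L T' := by simp only [claims, hk, ek, ex, ey, hu]
  have e1 : t.fin.carry = carryNext (claims L T') (claims L d) d.fin.carry t.fin.h :=
    hct ▸ h.f.carry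
  have e2 : t.fin.eq = eqNext (claims L T') (claims L d) d.fin.eq d.fin.h := hct ▸ h.f.eq
  have e3 : t.fin.look = lookNext (claims L T') (claims L d) d.fin.look d.fin.h := hct ▸ h.f.look
  have e1' : T'.fin.carry = carryNext (claims L T') (claims L D') D'.fin.carry T'.fin.h := hV.carry
  have e2' : T'.fin.eq = eqNext (claims L T') (claims L D') D'.fin.eq D'.fin.h := hV.eq
  have e3' : T'.fin.look = lookNext (claims L T') (claims L D') D'.fin.look D'.fin.h := hV.look
  rcases hy with e | e
  · have hy0 : (claims L T').isY0 = true := claim_y0.2 (ey.trans e)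
    have hnw : ¬ (claims L T').isWire = true := by
      rw [claim_wire, ey, e]
      simp [IsWire, mid]
    rcases hoff with ho | ho | ho | ho
    · exact ho hu
    · exact ho (by rw [← hT', e1, e1']; simp [carryNext, hy0, hnw])
    · exact ho (by rw [← hT', e2, e2']; simp [eqNext, hy0])
    · exact ho (by rw [← hT', e3, e3']; simp [lookNext, hy0])
  · obtain ⟨g1, g2, g3, g4⟩ := hgood e
    obtain ⟨dk, dx, dy⟩ := shellOf_coord h.bot.bd hkd
    have hcd : claims L d = claims L D' := by
      rw [hd e]
      rw [hd e] at g1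
      have hdk' : d.xk = true := hdk
      simp only [claims, hdk', dk, dx, dy, g1]
    rcases hoff with ho | ho | ho | ho
    · exact ho hu
    · exact ho (by rw [← hT', e1, e1', hcd]; exact Corner.isSome_carryNext _ _ _ _ _ _ g2)
    · exact ho (by rw [← hT', e2, e2', hcd]; exact isSome_eqNext _ _ _ _ _ _ g3)
    · exact ho (by rw [← hT', e3, e3', hcd]; exact isSome_lookNext _ _ _ _ _ _ g4)

namespace Virtual

variable {Λ : Virtual S L} {o : V}

/-- Wrong counters and extents in the band are null. -/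
lemma null_off (hL : L₀ ≤ L) (hl : Λ.Linked) : ∀ (y : ℕ) (i : V),
    Null (Λ.T o i fun t => t.xk = true ∧ IsBand L t.x ∧ t.y = y ∧ Off L t) := by
  intro y
  induction y using Nat.strong_induction_on with
  | _ y ih =>
    intro i
    have h0 : i - dir 0 = i := by simp [dir]
    rw [← h0]
    refine null_step hl (invariant_true o) (ι := Fin y) i 0 _ (fun _ => 2)
      (fun m t => t.xk = true ∧ IsBand L t.x ∧ t.y = m.val ∧ Off L t) ?_ (fun m => ih m m.2 _)
    rintro q hq - ⟨hk, hx, hy, hoff⟩
    obtain ⟨-, hdk, hdx, hdy, hd⟩ := off_step hL (vRules hq).1 hk hx hoff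
    exact ⟨⟨(q 2).y, by omega⟩, hdk, hdx.symm ▸ hx, rfl, hd⟩

/-- The value of `live` is carried along rows. -/
lemma link_liveRow (hl : Λ.Linked) (s : ℕ) (β : Bool) (k a a' : ℤ) :
    S.Link (Λ.T o (a, k) fun t => t.y = s ∧ t.fin.live = β)
      (Λ.T o (a', k) fun t => t.y = s ∧ t.fin.live = β) :=
  link_line (fun a => Λ.T o (a, k) fun t => t.y = s ∧ t.fin.live = β) (fun _ => Λ.T_ctx _ _ _)
    (fun a => link_horiz hl (invariant_true o) a k _ _ fun t l h _ _ => by
      have e : t.fin.live = l.fin.live := h.f.live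
      rw [h.num.1, e]) a a'

/-- A position on a row in use is carried along that row. -/
lemma link_liveExp (hl : Λ.Linked) (g : V) (k a a' : ℤ) :
    S.Link (Λ.T o (a, k) fun t => Exp L g (a, k) t ∧ t.fin.live = true)
      (Λ.T o (a', k) fun t => Exp L g (a', k) t ∧ t.fin.live = true) := by
  refine link_line (fun a => Λ.T o (a, k) fun t => Exp L g (a, k) t ∧ t.fin.live = true)
    (fun _ => Λ.T_ctx _ _ _) (fun a => link_horiz hl (invariant_true o) a k _ _
      fun t l h _ _ => ?_) a a'
  have e : t.fin.live = l.fin.live := h.f.live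
  constructor
  · rintro ⟨⟨htk, hx, hty⟩, hlive⟩
    have hlk := h.left.live_xk (e ▸ hlive)
    have hs := res_shift (m := g.1 + (a - 1)) h.left.bd.x_lt (h.num.2 htk hlk)
    rw [show g.1 + (a - 1) + 1 = g.1 + a by ring] at hs
    exact ⟨⟨hlk, hs.1 hx, by rw [← h.num.1]; exact hty⟩, e ▸ hlive⟩
  · rintro ⟨⟨hlk, hx, hly⟩, hlive⟩
    have htk := h.right.live_xk (e.trans hlive)
    have hs := res_shift (m := g.1 + (a - 1)) h.left.bd.x_lt (h.num.2 htk hlk)
    rw [show g.1 + (a - 1) + 1 = g.1 + a by ring] at hs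
    exact ⟨⟨htk, hs.2 hx, by rw [h.num.1]; exact hly⟩, e.trans hlive⟩

lemma band_scan (hL : L₀ ≤ L) : IsBand L (3 * M L) :=
  (band_le_iff hL).2 (by have := M_pos L; omega)

/-- A wrong value of `live` at the scanning column is null. -/
lemma null_liveScan (hL : L₀ ≤ L) (hl : Λ.Linked) (y : ℕ) (i : V) :
    Null (Λ.T o i fun t =>
      t.xk = true ∧ t.x = 3 * M L ∧ t.y = y ∧ t.fin.live ≠ decide (IsLive L y)) := by
  have h0 : i - dir 0 = i := by simp [dir]
  rw [← h0]
  refine null_step hl (invariant_true o) (ι := Unit) i 0 _ (fun _ => 0)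
    (fun _ t => t.xk = true ∧ IsBand L t.x ∧ t.y = y ∧ Off L t) ?_
    (fun _ => null_off hL hl y _)
  rintro q hq - ⟨hk, hx, hy, hne⟩
  have ht := tileRules hq 0
  refine ⟨(), hk, hx ▸ band_scan hL, hy, ?_⟩
  by_contra hoff
  have hoff' : (q 0).fin.carry.isSome = (shellOf L (q 0)).fin.carry.isSome := by
    simp only [Off, not_or, not_not] at hoff
    exact hoff.2.1
  obtain ⟨ek, ex, ey⟩ := shellOf_coord ht.bd (known_of_band (hx ▸ band_scan hL))
  have hlive : (shellOf L (q 0)).fin.live = decide (IsLive L y) := by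
    rw [shellOf, child_live, Nat.mod_eq_of_lt ht.bd.y_lt, hy]
  apply hne
  rw [← hlive]
  by_cases hw : IsWire L y
  · have hw1 : (claims L (q 0)).isWire = true := claim_wire.2 (hy ▸ hw)
    have hw2 : (claims L (shellOf L (q 0))).isWire = true := claim_wire.2 (by rw [ey, hy]; exact hw)
    by_cases hA : min (hi L y) YB < AF
    · have a1 : (q 0).fin.live = true := ht.p.live_low hw1 (by rw [claim_yhC, hy]; exact hA)
      have a2 : (shellOf L (q 0)).fin.live = true :=
        (childP hL _ _ _ _).live_low hw2 (by rw [claim_yhC, ← shellOf, ey, hy]; exact hA)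
      rw [a1, a2]
    · have hs1 : (claims L (q 0)).isScan = true := (claim_scan hL).2 ⟨hk, hx⟩
      have hs2 : (claims L (shellOf L (q 0))).isScan = true :=
        (claim_scan hL).2 ⟨ek, ex.trans hx⟩
      have a1 : (q 0).fin.live = (q 0).fin.carry.isSome :=
        ht.p.live_scan hw1 hs1 (by rw [claim_yhC, hy]; omega)
      have a2 : (shellOf L (q 0)).fin.live = (shellOf L (q 0)).fin.carry.isSome :=
        (childP hL _ _ _ _).live_scan hw2 hs2 (by rw [claim_yhC, ← shellOf, ey, hy]; omega)
      rw [a1, a2, hoff']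
  · rw [hlive, decide_eq_false fun h => hw h.1, Bool.eq_false_iff]
    intro h
    exact hw (hy ▸ claim_wire.1 (ht.p.live_wire h))

/-- A wrong value of `live` at a known position is null. -/
lemma null_live (hL : L₀ ≤ L) (hl : Λ.Linked) (x y : ℕ) (i : V) :
    Null (Λ.T o i fun t => t.xk = true ∧ t.x = x ∧ t.y = y ∧ x < H L ∧ y < H L ∧
      (IsBand L x ∨ t.fin.live = true) ∧ t.fin.live ≠ decide (IsLive L y)) := by
  by_cases hlt : x < H L ∧ y < H L
  swap
  · exact null_of_false (Λ.area_ctx _) subset_rfl fun a _ => by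
      simp only [T, win, decide_eq_false_iff_not]
      rintro ⟨q, -, -, -, -, h1, h2, -⟩
      exact hlt ⟨h1, h2⟩
  obtain ⟨hxH, hyH⟩ := hlt
  let g : V := ((x : ℤ) - i.1, (y : ℤ) - i.2)
  let c : ℤ := i.1 + (3 * M L : ℕ) - x
  have r0 : res L (g.1 + i.1) = x ∧ res L (g.2 + i.2) = y := by
    constructor <;> simp only [g, sub_add_cancel, res] <;>
      exact Int.emod_eq_of_lt (by omega) (by omega)
  have h3M : 3 * M L < H L := by
    have h1 := eight_lt_M hL
    have h2 : 8 * M L ≤ M L ^ 2 := by rw [sq]; exact Nat.mul_le_mul_right _ (by omega)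
    have h3 : M L ^ 2 * 1 ≤ M L ^ 2 * M L := Nat.mul_le_mul_left _ (by omega)
    rw [show H L = M L ^ 2 * M L by rw [H, pow_succ]]
    omega
  have r1 : res L (g.1 + c) = (3 * M L : ℕ) := by
    rw [show g.1 + c = (3 * M L : ℕ) by simp only [g, c]; ring]
    exact Int.emod_eq_of_lt (by omega) (by omega)
  have hscan : ∀ β : Bool, β ≠ decide (IsLive L y) →
      Null (Λ.T o (c, i.2) fun t => Exp L g (c, i.2) t ∧ t.fin.live = β) := fun β hβ =>
    (null_liveScan hL hl y (c, i.2)).mono (Λ.area_ctx _) subset_rfl subset_rfl fun a _ ha => by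
      obtain ⟨q, hq, ⟨hk, hx, hy⟩, hlive⟩ := (Λ.win_val_iff _ _ a).1 ha
      refine (Λ.win_val_iff _ _ a).2 ⟨q, hq, hk, ?_, ?_, hlive ▸ hβ⟩
      · simp only [r1] at hx; exact_mod_cast hx
      · simp only [r0.2] at hy; exact_mod_cast hy
  have conv : ∀ β : Bool, ∀ (P : St → Prop),
      S.Link (Λ.T o i fun t => Exp L g i t ∧ t.fin.live = β)
        (Λ.T o (c, i.2) fun t => Exp L g (c, i.2) t ∧ t.fin.live = β) →
      β ≠ decide (IsLive L y) →
      (∀ t, P t → t.xk = true ∧ t.x = x ∧ t.y = y ∧ t.fin.live = β) →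
      Null (Λ.T o i P) := fun β P hlk hβ hP => by
    have hn : Null (Λ.T o i fun t => Exp L g i t ∧ t.fin.live = β) :=
      Null.of_link hlk (hscan β hβ)
    refine hn.mono (Λ.area_ctx _) subset_rfl subset_rfl fun a _ ha => ?_
    obtain ⟨q, hq, hPq⟩ := (Λ.win_val_iff _ _ a).1 ha
    obtain ⟨hk, hx, hy, hlive⟩ := hP _ hPq
    exact (Λ.win_val_iff _ _ a).2
      ⟨q, hq, ⟨hk, by rw [r0.1, hx], by rw [r0.2, hy]⟩, hlive⟩
  by_cases hy : IsLive L y
  · by_cases hband : IsBand L x
    · refine conv false _ ?_ (by simp [hy]) fun t ht =>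
        ⟨ht.1, ht.2.1, ht.2.2.1, by simpa [hy] using ht.2.2.2.2.2.2⟩
      have hb0 : BandAt L (g.1 + i.1) := by
        rw [BandAt, r0.1, Int.toNat_natCast]; exact hband
      have hb1 : BandAt L (g.1 + c) := by
        rw [BandAt, r1, Int.toNat_natCast]; exact band_scan hL
      have l1 := (link_band (o := o) hl g i hb0).trans (link_band hl g (c, i.2) hb1).symm
      have l2 := link_and l1 (link_liveRow (o := o) hl y false i.2 i.1 c)
      have key : ∀ (j : V), j.2 = i.2 → S.Link
          (Λ.T o j fun t => Exp L g j t ∧ t.fin.live = false)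
          (Λ.T o j fun t => Exp L g j t ∧ t.y = y ∧ t.fin.live = false) := fun j hj =>
        link_same (Λ.area_ctx _) subset_rfl subset_rfl fun a _ => by
          rw [Bool.eq_iff_iff]
          simp only [T, win_val_iff]
          refine exists_congr fun q => and_congr Iff.rfl ⟨fun h => ⟨h.1, ?_, h.2⟩, fun h => ⟨h.1, h.2.2⟩⟩
          have := h.1.2.2
          rw [hj, r0.2] at this
          exact_mod_cast this
      exact ((key i rfl).trans l2).trans (key (c, i.2) rfl).symm
    · refine null_of_false (Λ.area_ctx _) subset_rfl fun a _ => ?_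
      simp only [T, win, decide_eq_false_iff_not]
      rintro ⟨q, -, -, -, -, -, -, (hb | hl'), hne⟩
      · exact hband hb
      · simp [hy, hl'] at hne
  · exact conv true _ (link_liveExp hl g i.2 i.1 c) (by simp [hy])
      fun t ht => ⟨ht.1, ht.2.1, ht.2.2.1, by simpa [hy] using ht.2.2.2.2.2.2⟩

/-- Every tile of a lattice satisfies the invariant, outside null events. -/
theorem invariant (hL : L₀ ≤ L) (hl : Λ.Linked) (o : V) : Λ.Invariant o (Inv L) := by
  intro i
  have h0 : i - dir 0 = i := by simp [dir]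
  rw [← h0]
  refine null_step hl (invariant_true o) (ι := (Fin (H L) × Fin (H L)) ⊕ Fin (H L)) i 0 _
    (fun _ => 0)
    (fun m => m.elim
      (fun p t => t.xk = true ∧ t.x = p.1.val ∧ t.y = p.2.val ∧ p.1.val < H L ∧ p.2.val < H L ∧
        (IsBand L p.1.val ∨ t.fin.live = true) ∧ t.fin.live ≠ decide (IsLive L p.2.val))
      (fun y t => t.xk = true ∧ IsBand L t.x ∧ t.y = y.val ∧ Off L t)) ?_ ?_
  swap
  · rintro (p | y)
    · exact null_live hL hl _ _ _
    · exact null_off hL hl _ _
  intro q hq _ hbad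
  have hv := (vRules hq).1
  have hb := hv.top.bd
  set t := q 0 with ht
  by_contra hnone
  have hlive : t.xk = true → (IsBand L t.x ∨ t.fin.live = true) →
      t.fin.live = decide (IsLive L t.y) := fun hk hor => by
    by_contra hne
    exact hnone ⟨Sum.inl (⟨t.x, hb.x_lt⟩, ⟨t.y, hb.y_lt⟩), hk, rfl, rfl, hb.x_lt, hb.y_lt,
      hor, hne⟩
  have hoff : t.xk = true → IsBand L t.x → ¬ Off L t := fun hk hx h =>
    hnone ⟨Sum.inr ⟨t.y, hb.y_lt⟩, hk, hx, rfl, h⟩
  apply hbad
  by_cases hk : t.xk = true
  swap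
  · obtain ⟨p1, p2, p3, p4⟩ := plain hv fun h => hk h.1
    refine Or.inl ⟨by simpa using hk, p1, ?_, p2, p3, p4⟩
    rw [Bool.eq_false_iff]
    exact fun h => hk (hv.top.live_xk h)
  have hsl : (shellOf L t).fin.live = decide (IsLive L t.y) := by
    rw [shellOf, child_live, Nat.mod_eq_of_lt hb.y_lt]
  by_cases hx : IsBand L t.x
  · have h := hoff hk hx
    simp only [Off, not_or, not_not] at h
    exact Or.inr ⟨hk, known_of_band hx, h.1, by rw [hsl, hlive hk (Or.inl hx)], h.2⟩
  obtain ⟨p1, p2, p3, p4⟩ := plain hv fun h => hx h.2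
  obtain ⟨s1, s2, s3, s4⟩ := shellOf_plain hb hx
  have hlv : t.y ≠ 0 → t.fin.live = true := fun hy0 => by
    have h := hv.f.xk (Bool.eq_false_iff.2 fun hh => hy0 (claim_y0.1 hh))
    change t.xk = _ at h
    rw [hk] at h
    cases hb' : ((claims L (q 2)).xk && (claims L (q 2)).band)
    · rw [hb', Bool.false_or] at h
      exact h.symm
    · rw [Bool.and_eq_true] at hb'
      exact absurd ((hv.num.2 hk hb'.1) ▸ claim_band.1 hb'.2) hx
  refine Or.inr ⟨hk, ?_, p1.trans s1.symm, ?_, by rw [p2, s2], by rw [p3, s3], by rw [p4, s4]⟩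
  · by_cases hy0 : t.y = 0
    · simp [knownX, hy0]
    · have h1 := hlive hk (Or.inr (hlv hy0))
      rw [hlv hy0] at h1
      simp [knownX, of_decide_eq_true h1.symm]
  · rw [hsl]
    by_cases hy0 : t.y = 0
    · rw [hy0, decide_eq_false (fun h => by simpa [IsWire, mid] using h.1), Bool.eq_false_iff]
      intro h
      have hw := claim_wire.1 (hv.top.p.live_wire h)
      rw [hy0] at hw
      simp [IsWire, mid] at hw
    · exact hlive hk (Or.inr (hlv hy0))

end Virtual

/-- The invariant holds. -/
theorem invStatement : InvStatement := fun _ _ _ hL hl o => Virtual.invariant hL hl o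

end Vale.Agent.P196.Tile.Rigid
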