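import Vale.Agent.P196.Tile.Rigid.ReduceRow
import Vale.Agent.P196.Tile.Rigid.Inv

/-!
P196, module D (rigidity): the data of a frame determine the tiles in its range.
-/

noncomputable section

namespace Vale.Agent.P196.Tile.Rigid

open SFT Finset ChildRules
open scoped Classical

variable {S : SFT} {L : ℕ} {Λ : Virtual S L} {o h : V} {C : V → (St → Prop) → Prop}

lemma col_bounds {x m : ℕ} (hc : IsCol L x m) : M L * m ≤ x ∧ x < M L * m + M L := by
  have h1 := coord_eq L x
  have h2 : lo L x < M L := Nat.mod_lt _ (M_pos L)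
  rw [hc.1, hc.2, mul_zero, zero_add] at h1
  omega

lemma isBand_of_col {x m : ℕ} (hc : IsCol L x m) (hm : m ≤ 7) : IsBand L x :=
  ⟨hc.1, by rw [hc.2]; exact hm⟩

/-- Outside the band the states of the special columns are empty, and so they are outside the
heights they use. -/
lemma shell_none (hL : L₀ ≤ L) {t : St} (hx : t.x < H L) (hy : t.y < H L)
    (h : ¬ IsBand L t.x ∨ t.y < M L ∨ halfY L < t.y) :
    (shellOf L t).fin.carry = none ∧ (shellOf L t).fin.eq = none ∧
      (shellOf L t).fin.look = none := by
  have hk := lastK_bound hL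
  have h50 : 50000 ≤ L := le_L₀.trans hL
  have top : halfY L < t.y → M L / 2 ≤ rowIdx L t.y ∧ M L / 2 ≤ rowsBelow L t.y := by
    intro ht
    have h2 : M L / 2 ≤ rowIdx L t.y := by
      unfold rowIdx
      refine (Nat.le_div_iff_mul_le (pow_pos (M_pos L) 2)).2 ?_
      unfold halfY at ht
      omega
    refine ⟨h2, ?_⟩
    unfold rowsBelow
    rw [if_neg (by have := M_le_halfY (L := L); omega)]
    split_ifs <;> omega
  unfold shellOf
  rw [child_carry, child_eqf, child_look, Nat.mod_eq_of_lt hx, Nat.mod_eq_of_lt hy]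
  refine ⟨if_neg ?_, if_neg ?_, if_neg ?_⟩
  · rintro ⟨h1, -, h3, -, h5⟩
    rcases h with h | h | h
    · exact h (isBand_of_col h1 (by norm_num))
    · omega
    · have := top h
      omega
  · rintro ⟨h1, h3, h5⟩
    rcases h with h | h | h
    · exact h (isBand_of_col h1.1 (by norm_num))
    · omega
    · have := top h
      unfold lastK at hk
      omega
  · rintro ⟨h1, h3, h5⟩
    rcases h with h | h | h
    · exact h (isBand_of_col h1.1 (by norm_num))
    · omega
    · have := top h
      unfold xlRow B at h5
      unfold lastK at hk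
      have hA : A = 1024 := rfl
      omega

namespace Ctx

variable {X Y : ℤ}

/-- The bits copied between vertical neighbours away from the lines where bits end. -/
lemma vb_eq (hL : L₀ ≤ L) {t d : St} (hr : VRules L t d) (he : E L X Y t)
    (he' : E L X (Y - 1) d) (hb : IsBundle L (res L X).toNat) (n1 : res L Y ≠ 0)
    (n2 : res L (Y - 1) ≠ 0) (n3 : res L (Y - 1) ≠ halfY L) : t.fin.vb = d.fin.vb := by
  have hh := hr.f.vb (he.bundle.2 hb)
  have e1 : ¬ (claims L t).isY0 = true := by rw [he.y0]; exact n1
  have e2 : ¬ (claims L d).isY0 = true := by rw [he'.y0]; exact n2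
  have e3 : ¬ (claims L d).halfRow = true := by rw [he'.halfY hL]; exact n3
  simpa only [VbRule, cell, e1, e2, e3, Bool.false_eq_true, false_and, if_false] using hh

/-- The vertical bits of a tile in range. -/
lemma vb_all (K : Ctx Λ o C h) (hX : (cutX L : ℤ) - H L < X) (hX' : X < H L)
    (hY : (halfY L : ℤ) - H L < Y) (hY' : Y < H L) : CV L C h X Y fun t => t.fin.vb := by
  by_cases hbun : IsBundle L (res L X).toNat
  swap
  · refine K.const _ fun t t' r r' _ _ he he' => ?_
    have e : ∀ {t : St}, TileRules L t → E L X Y t → t.fin.vb = fun _ => false :=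
      fun r he => funext fun j => r.p.vb_zero (by
        show (claims L _).bundle = false
        rw [Bool.eq_false_iff]
        exact fun hh => hbun (he.bundle.1 hh)) j
    rw [e r he, e r' he']
  obtain ⟨hy8, hhY, hH, hlK, hc, -, hM⟩ := frame_sizes K.hL
  obtain ⟨k, hk, rfl⟩ : ∃ k, 2 * k < M L ∧ X = ((bitX L k : ℕ) : ℤ) := by
    have h1 := coord_eq L (res L X).toNat
    have h2 : lo L (res L X).toNat < M L := Nat.mod_lt _ (M_pos L)
    rw [hbun.1.1, hbun.1.2, mul_zero, zero_add, mul_one] at h1
    have h3 := hbun.2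
    refine ⟨lo L (res L X).toNat / 2, by omega, ?_⟩
    unfold bitX
    rcases lt_or_ge X 0 with hn | hn
    · rw [res_neg hn (by omega)] at h1 h2
      omega
    · rw [res_pos hn hX'] at h1 h2 h3 ⊢
      omega
  obtain ⟨hbk, hlo, hb1, hb2⟩ := bitX_facts K.hL hk
  obtain ⟨hw1, hw2⟩ := wire_row K.hL hk
  obtain ⟨hhi, hwire⟩ := wireY_facts K.hL k
  set X : ℤ := ((bitX L k : ℕ) : ℤ)
  have rX : res L X = X := res_pos (by omega) hX'
  have hband : BandAt L X := by
    rw [bandAt_iff K.hL, rX]
    omega
  have kn : ∀ y, Known L X y := fun _ => Or.inl hband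
  have cross : CV L C h X ((wireY L k : ℕ) : ℤ) fun t => t.fin.vb := by
    refine K.of1 (K.h_all hX hX' (by omega) (by omega)) _ fun t t' r r' _ _ he he' e => ?_
    have d : ∀ {t : St}, TileRules L t → E L X ((wireY L k : ℕ) : ℤ) t → t.fin.h = t.fin.vb := by
      intro t r he
      have hty : t.y = wireY L k := (he.eq_y _).2 (res_nat (by omega))
      have htx : t.x = bitX L k := (he.eq_x _).2 rX
      exact r.p.diag (claim_wire.2 (by rw [hty]; exact hwire))
        (claim_bundle.2 ⟨he.1, by rw [htx]; exact hbk⟩)
        (claim_diag.2 (by rw [htx, hty, hlo, hhi]))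
    rw [← d r he, ← d r' he', e]
  have mid : ∀ y : ℤ, 1 ≤ y → y ≤ halfY L → CV L C h X y fun t => t.fin.vb := by
    intro y y1 y2
    rcases le_total ((wireY L k : ℕ) : ℤ) y with hle | hle
    · refine seg_up (P := fun y => CV L C h X y fun t => t.fin.vb) cross
        (fun z z1 z2 hv => ?_) hle le_rfl
      refine K.moveU (kn _) (kn _) id hv fun t d hr _ _ he he' => vb_eq K.hL hr he he' hbun
        ?_ ?_ ?_ <;> rw [res_pos (by omega) (by omega)] <;> omega
    · refine seg_down (P := fun y => CV L C h X y fun t => t.fin.vb) cross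
        (fun z z1 z2 hv => ?_) le_rfl hle
      refine K.moveD (kn _) (kn _) id hv fun t d hr _ _ he he' => (vb_eq K.hL hr he he' hbun
        ?_ ?_ ?_).symm <;> rw [res_pos (by omega) (by omega)] <;> omega
  have zero : CV L C h X 0 fun t => t.fin.vb := by
    rw [show (0 : ℤ) = 1 - 1 by norm_num]
    refine K.stepD hband (mid 1 le_rfl (by omega)) (K.qy_all hX hX')
      fun t d t' d' hr hr' _ _ he he1 he' he1' eg eg' => ?_
    have r0 : res L (1 - 1) = 0 := by simp [res]
    have n1 : res L 1 ≠ 0 := by rw [res_pos (by omega) (by omega)]; omega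
    have F : ∀ {t d : St}, VRules L t d → E L X 1 t → E L X (1 - 1) d → d.fin.vb =
        if d.fin.qy = some false then ![false, false, t.fin.vb 2, t.fin.vb 3] else t.fin.vb := by
      intro t d hr he he'
      have hh := hr.f.vb (he.bundle.2 hbun)
      have e1 : ¬ (claims L t).isY0 = true := by rw [he.y0]; exact n1
      have e3 : ¬ (claims L d).halfRow = true := by rw [he'.halfY K.hL, r0]; omega
      have e2 : (claims L d).isY0 = true := he'.y0.2 r0
      simp only [VbRule, cell, e1, e2, e3, Bool.false_eq_true, false_and, true_and, if_false] at hh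
      by_cases hq : d.fin.qy = some false
      · rw [if_pos hq] at hh ⊢
        have hz := hr.r.bottom e2 hq
        funext j
        fin_cases j
        exacts [hz.1, hz.2, hh.1.symm, hh.2.symm]
      · rw [if_neg hq] at hh ⊢
        exact hh.symm
    rw [F hr he he', F hr' he1 he1', eg, eg']
  rcases lt_trichotomy Y 0 with hneg | rfl | hpos
  · have first : CV L C h X (-1) fun t => t.fin.vb := by
      rw [show (-1 : ℤ) = 0 - 1 by norm_num]
      refine K.moveD (kn _) (kn _)
        (fun v : Quad × Option Bool =>
          if v.2 = some false then ![v.1 2, v.1 3, false, false] else v.1)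
        (K.pair zero (K.qy_all hX hX')) fun t d hr _ _ he he' => ?_
      have r1 : res L (0 - 1) = -1 + H L := by rw [res_neg (by omega) (by omega)]; omega
      have hh := hr.f.vb (he.bundle.2 hbun)
      have e1 : (claims L t).isY0 = true := he.y0.2 (by simp [res])
      have e2 : ¬ (claims L d).isY0 = true := by rw [he'.y0, r1]; omega
      have e3 : ¬ (claims L d).halfRow = true := by rw [he'.halfY K.hL, r1]; omega
      simp only [VbRule, cell, e1, e2, e3, Bool.false_eq_true, false_and, true_and, if_false] at hh
      by_cases hq : t.fin.qy = some false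
      · rw [if_pos hq] at hh
        simp only [if_pos hq]
        have hz := hr.r.top e1 hq
        funext j
        fin_cases j
        exacts [(congrFun hh 2).symm, (congrFun hh 3).symm, hz.1, hz.2]
      · rw [if_neg hq] at hh
        simp only [if_neg hq]
        exact hh.symm
    refine seg_down (P := fun y => CV L C h X y fun t => t.fin.vb) first (fun z z1 z2 hv => ?_)
      le_rfl (show Y ≤ -1 by omega)
    refine K.moveD (kn _) (kn _) id hv fun t d hr _ _ he he' => (vb_eq K.hL hr he he' hbun
      ?_ ?_ ?_).symm <;> rw [res_neg (by omega) (by omega)] <;> omega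
  · exact zero
  · rcases le_or_gt Y (halfY L : ℤ) with hle | hgt
    · exact mid Y (by omega) hle
    have next' : CV L C h X ((halfY L : ℤ) + 1) fun t => t.fin.vb := by
      refine K.moveU (kn _) (kn _)
        (fun v : Quad × Option Bool =>
          if v.2 = some true then ![v.1 0, v.1 1, false, false] else v.1)
        (K.pair (f := fun t => t.fin.vb) (g := fun t => t.fin.qy)
          (by rw [add_sub_cancel_right]; exact mid _ (by omega) le_rfl)
          (K.qy_all hX hX'))
        fun t d hr _ _ he he' => ?_
      have r1 : res L ((halfY L : ℤ) + 1) = (halfY L : ℤ) + 1 := res_pos (by omega) (by omega)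
      have r2 : res L ((halfY L : ℤ) + 1 - 1) = halfY L := by
        rw [add_sub_cancel_right]; exact res_pos (by omega) (by omega)
      have hh := hr.f.vb (he.bundle.2 hbun)
      have e1 : ¬ (claims L t).isY0 = true := by rw [he.y0, r1]; omega
      have e2 : ¬ (claims L d).isY0 = true := by rw [he'.y0, r2]; omega
      have e3 : (claims L d).halfRow = true := (he'.halfY K.hL).2 r2
      simp only [VbRule, cell, e1, e2, e3, Bool.false_eq_true, false_and, true_and, if_false] at hh
      by_cases hq : d.fin.qy = some true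
      · rw [if_pos hq] at hh
        simp only [if_pos hq]
        exact hh
      · rw [if_neg hq] at hh
        simp only [if_neg hq]
        exact hh
    refine seg_up (P := fun y => CV L C h X y fun t => t.fin.vb) next' (fun z z1 z2 hv => ?_)
      (show (halfY L : ℤ) + 1 ≤ Y by omega) le_rfl
    refine K.moveU (kn _) (kn _) id hv fun t d hr _ _ he he' => vb_eq K.hL hr he he' hbun
      ?_ ?_ ?_ <;> rw [res_pos (by omega) (by omega)] <;> omega

/-- A state computed upwards along a band column, empty outside the band and outside the heights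
it uses. -/
lemma upward {β γ : Type} [Fintype β] [Fintype γ] (K : Ctx Λ o C h)
    (hY : (halfY L : ℤ) - H L < Y) (hY' : Y < H L) (f : St → Option β) (g g' : St → γ)
    (hg : ∀ y, (halfY L : ℤ) - H L < y → y < H L → CV L C h X y g)
    (hg' : ∀ y, (halfY L : ℤ) - H L < y → y < H L → CV L C h X y g')
    (hnone : ∀ {y : ℤ} {t : St}, E L X y t → Inv L t → TileRules L t →
      ¬ IsBand L t.x ∨ t.y < M L ∨ Tile.halfY L < t.y → f t = none)
    (hrec : ∀ t d t' d', VRules L t d → VRules L t' d' → claims L t = claims L t' →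
      claims L d = claims L d' → f d = f d' → g d = g d' → g' t = g' t' → f t = f t') :
    CV L C h X Y f := by
  obtain ⟨hy8, hhY, hH, hlK, hc, -, hM⟩ := frame_sizes K.hL
  by_cases hb : BandAt L X
  swap
  · refine K.const _ fun t t' r r' hi hi' he he' => ?_
    have e : ∀ {t : St}, E L X Y t → ¬ IsBand L t.x := fun he hh => hb (by
      unfold BandAt
      rw [← he.x_nat]
      exact hh)
    rw [hnone he hi r (Or.inl (e he)), hnone he' hi' r' (Or.inl (e he'))]
  rcases lt_or_ge Y 0 with hn | hn
  · refine K.const _ fun t t' r r' hi hi' he he' => ?_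
    have e : ∀ {t : St}, E L X Y t → Tile.halfY L < t.y := fun he => by
      have := he.2.2
      rw [res_neg hn (by omega)] at this
      omega
    rw [hnone he hi r (Or.inr (Or.inr (e he))), hnone he' hi' r' (Or.inr (Or.inr (e he')))]
  have zero : CV L C h X 0 f := by
    refine K.const _ fun t t' r r' hi hi' he he' => ?_
    have e : ∀ {t : St}, E L X 0 t → t.y < M L := fun he => by
      have := he.2.2
      rw [res_pos le_rfl (by omega)] at this
      omega
    rw [hnone he hi r (Or.inr (Or.inl (e he))), hnone he' hi' r' (Or.inr (Or.inl (e he')))]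
  refine seg_up (P := fun y => CV L C h X y f) zero (fun y y1 y2 hv => ?_) hn le_rfl
  refine K.stepU hb (K.pair hv (hg (y - 1) (by omega) (by omega))) (hg' y (by omega) (by omega))
    fun t d t' d' hr hr' hi hi' hid hid' he he' hed hed' e1 e2 => ?_
  exact hrec t d t' d' hr hr' (he.claims_same hi he' hi') (hed.claims_same hid hed' hid')
    (congrArg Prod.fst e1) (congrArg Prod.snd e1) e2

/-- The states of the scanning and table columns of a tile in range. -/
lemma cols_all (K : Ctx Λ o C h) (hX : (cutX L : ℤ) - H L < X) (hX' : X < H L)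
    (hY : (halfY L : ℤ) - H L < Y) (hY' : Y < H L) :
    (CV L C h X Y fun t => t.fin.carry) ∧ (CV L C h X Y fun t => t.fin.eq) ∧
      CV L C h X Y fun t => t.fin.look := by
  have hh : ∀ y, (halfY L : ℤ) - H L < y → y < H L → CV L C h X y fun t => t.fin.h :=
    fun y y1 y2 => K.h_all hX hX' y1 y2
  refine ⟨?_, ?_, ?_⟩
  · refine K.upward hY hY' _ (fun t => t.fin.h) (fun t => t.fin.h) hh hh
      (fun {y t} he hi r hc => ?_) fun t d t' d' hr hr' ct cd e1 _ e3 => ?_
    · apply Option.not_isSome_iff_eq_none.1
      rw [(he.exact hi).2.2.2.1, (shell_none K.hL r.bd.x_lt r.bd.y_lt hc).1]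
      simp
    · have a : t.fin.carry = carryNext (claims L t) (claims L d) d.fin.carry t.fin.h := hr.f.carry
      have b : t'.fin.carry = carryNext (claims L t') (claims L d') d'.fin.carry t'.fin.h :=
        hr'.f.carry
      rw [a, b, ct, cd, e1, e3]
  · refine K.upward hY hY' _ (fun t => t.fin.h) (fun t => t.fin.h) hh hh
      (fun {y t} he hi r hc => ?_) fun t d t' d' hr hr' ct cd e1 e2 _ => ?_
    · apply Option.not_isSome_iff_eq_none.1
      rw [(he.exact hi).2.2.2.2.1, (shell_none K.hL r.bd.x_lt r.bd.y_lt hc).2.1]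
      simp
    · have a : t.fin.eq = eqNext (claims L t) (claims L d) d.fin.eq d.fin.h := hr.f.eq
      have b : t'.fin.eq = eqNext (claims L t') (claims L d') d'.fin.eq d'.fin.h := hr'.f.eq
      rw [a, b, ct, cd, e1, e2]
  · refine K.upward hY hY' _ (fun t => t.fin.h) (fun t => t.fin.h) hh hh
      (fun {y t} he hi r hc => ?_) fun t d t' d' hr hr' ct cd e1 e2 _ => ?_
    · apply Option.not_isSome_iff_eq_none.1
      rw [(he.exact hi).2.2.2.2.2, (shell_none K.hL r.bd.x_lt r.bd.y_lt hc).2.2]
      simp
    · have a : t.fin.look = lookNext (claims L t) (claims L d) d.fin.look d.fin.h := hr.f.look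
      have b : t'.fin.look = lookNext (claims L t') (claims L d') d'.fin.look d'.fin.h :=
        hr'.f.look
      rw [a, b, ct, cd, e1, e2]

/-- Every property of a tile in range. -/
lemma reduce (K : Ctx Λ o C h) (hX : (cutX L : ℤ) - H L < X) (hX' : X < H L)
    (hY : (halfY L : ℤ) - H L < Y) (hY' : Y < H L) (P : St → Prop) :
    C (pt h X Y) fun t => E L X Y t ∧ P t := by
  obtain ⟨hc, he, hl⟩ := K.cols_all hX hX' hY hY'
  have all := K.pair (K.pair (K.pair (K.qx_all hX hX' hY hY') (K.qy_all hX hX' (Y := Y)))
    (K.pair (K.h_all hX hX' hY hY') (K.vb_all hX hX' hY hY'))) (K.pair hc (K.pair he hl))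
  refine K.determined all P fun t t' r r' hi hi' he he' e => ?_
  obtain ⟨s1, s2, s3, s4, s5⟩ := he.same hi he' hi'
  have sc := he.claims_same hi he' hi'
  have sv : t.fin.v = t'.fin.v := by
    by_cases hz : (claims L t).zone = true
    · rw [r.v_table hz, r'.v_table (sc ▸ hz), s2]
    · rw [show t.fin.v = false from r.p.v_zone (Bool.eq_false_iff.2 hz),
        show t'.fin.v = false from r'.p.v_zone (Bool.eq_false_iff.2 (show ¬ (claims L t').zone = true from sc ▸ hz))]
  simp only [Prod.ext_iff] at e
  obtain ⟨⟨⟨q1, q2⟩, q3, q4⟩, q5, q6, q7⟩ := e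
  suffices t = t' by rw [this]
  obtain ⟨k, x, y, u, qx, qy, hh, vb, ca, eq, v, lk, lv⟩ := t
  obtain ⟨k', x', y', u', qx', qy', hh', vb', ca', eq', v', lk', lv'⟩ := t'
  simp_all

end Ctx

/-- The data of a frame determine the tiles in its range. -/
theorem reduceStatement : ReduceStatement := by
  intro S L Λ hL hl o C hC h i hF hR P
  have K : Ctx Λ o C h := ⟨hL, hl, invStatement S L Λ hL hl o, hC, hF⟩
  obtain ⟨hX, hX', hY, hY'⟩ := hR
  have := K.reduce hX hX' hY hY' P
  rw [show pt h (i.1 - h.1) (i.2 - h.2) = i by ext <;> simp [pt]] at this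
  unfold Here
  rw [show Exp L (-h) i = E L (i.1 - h.1) (i.2 - h.2) by
    rw [← exp_pt h, show pt h (i.1 - h.1) (i.2 - h.2) = i by ext <;> simp [pt]]]
  exact this

end Vale.Agent.P196.Tile.Rigid
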