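import Vale.Agent.P196.Tile.Rigid.Moves

/-!
P196, module D (rigidity): the horizontal half moves along the row carrying it.
-/

noncomputable section

namespace Vale.Agent.P196.Tile.Rigid

open SFT Finset ChildRules
open scoped Classical

variable {S : SFT} {L : ℕ} {Λ : Virtual S L} {o : V} {C : V → (St → Prop) → Prop}

/-- A grid on its row `0` or in the band belongs to a family containing all grids. -/
lemma grid_mem (hC : Closed Λ o C) (hG : GridsOK L C) (g i : V)
    (h : S.Link (Λ.T o i (Exp L g i)) (Virtual.GridObs Λ o g)) : C i (Exp L g i) :=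
  hC.link i (-g.1, -g.2) _ _ h (hG g)

/-- Being at a given height belongs to a family containing all grids. -/
lemma height_mem (hL : L₀ ≤ L) (hl : Λ.Linked) (hC : Closed Λ o C) (hG : GridsOK L C) (c : ℤ)
    (i : V) : C i (ExpY L c i.2) := by
  refine hC.link i (i.1, -c) _ _ (Virtual.linkY hl c i (i.1, -c)) ?_
  refine hC.here (ι := Fin (H L)) _ _
    (fun x => Exp L (((x : ℕ) : ℤ) - i.1, c) (i.1, -c)) (fun x => grid_mem hC hG _ _
      (Virtual.link_zero hL hl _ _ (by simp [res]))) fun t t' r r' _ _ e => ?_
  have key : ∀ {t t' : St}, TileRules L t →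
      (∀ x : Fin (H L), Exp L (((x : ℕ) : ℤ) - i.1, c) (i.1, -c) t →
        Exp L (((x : ℕ) : ℤ) - i.1, c) (i.1, -c) t') →
      ExpY L c (-c) t → ExpY L c (-c) t' := by
    intro t t' r e h
    have hy : t.y = 0 := by
      have := h
      simp [ExpY, res] at this
      omega
    refine (e ⟨t.x, r.bd.x_lt⟩ ⟨r.p.y0_xk (claim_y0.2 hy), ?_, h⟩).2.2
    simp only [sub_add_cancel]
    exact (res_pos (by omega) (by have := r.bd.x_lt; omega)).symm
  exact ⟨key r fun x => (e x).1, key r' fun x => (e x).2⟩

/-- The rules of the half on its row between two neighbours. -/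
lemma qx_pair (hL : L₀ ≤ L) {t l : St} (h : HRules L t l) (hy : t.y = rowQY L) :
    t.fin.qx.isSome = true ∧ l.fin.qx.isSome = true ∧
      t.fin.qx = if (claims L t).x0 then l.fin.qx.map (fun b => !b) else l.fin.qx := by
  have hq : (claims L t).rowQ = true := (claim_rowQ hL).2 hy
  have hq' : (claims L l).rowQ = true := (claim_rowQ hL).2 (h.num.1 ▸ hy)
  refine ⟨?_, ?_, h.f.qx hq⟩
  · rw [show t.fin.qx.isSome = _ from h.right.p.qx_some, show (cell L t).2.rowQ = true from hq,
      Bool.or_true]
  · rw [show l.fin.qx.isSome = _ from h.left.p.qx_some, show (cell L l).2.rowQ = true from hq',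
      Bool.or_true]

/-- The half moves along its row. -/
theorem rowQStatement : RowQStatement := by
  intro S L Λ hL hl o C hC hG a a' r h
  have hR : res L ((rowQY L : ℕ) : ℤ) = rowQY L := by
    obtain ⟨h1, h2, -⟩ := frame_sizes hL
    exact res_pos (by omega) (by unfold rowQY; omega)
  -- the column `x = 0` at the cell `(k, r)`
  let G : ℤ → V := fun k => (-k, ((rowQY L : ℕ) : ℤ) - r)
  let c : ℤ := ((rowQY L : ℕ) : ℤ) - r
  have eY : ∀ t : St, ExpY L c r t ↔ t.y = rowQY L := fun t => by
    simp only [ExpY, c, sub_add_cancel, hR]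
    omega
  have eG : ∀ k (t : St), t.y = rowQY L →
      ((claims L t).x0 = true ↔ Exp L (G k) (k, r) t) := fun k t hy => by
    rw [claim_x0 hL]
    simp only [Exp, G, neg_add_cancel, sub_add_cancel, hR, hy]
    simp [res]
  have hX : ∀ k, C (k, r) (Exp L (G k) (k, r)) := fun k => grid_mem hC hG _ _
    (Virtual.link_band hl _ _ (by simp [G, BandAt, res, band_zero hL]))
  have hY : ∀ k, C (k, r) (ExpY L c r) := fun k => height_mem hL hl hC hG c (k, r)
  refine seg_all (P := fun k => C (k, r) (QX L)) h (fun k hk => ?_) (fun k hk => ?_) a'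
  · have e := hC.step (ι := Fin 3) (k, r) 0 (QX L) ![1, 0, 0]
      ![QX L, Exp L (G k) (k, r), ExpY L c r] (fun q q' hq hq' _ _ e => ?_) (fun m => ?_)
    · rwa [dir0, sub_zero] at e
    · have e0 := e 0
      have e1 := e 1
      have e2 := e 2
      simp only [Matrix.cons_val_zero, Matrix.cons_val_one, Matrix.cons_val] at e0 e1 e2
      rw [eY, eY] at e2
      have h1 := (hRules hq).1
      have h2 := (hRules hq').1
      unfold QX at e0 ⊢
      by_cases hy : (q 0).y = rowQY L
      · have hy' := e2.1 hy
        obtain ⟨a1, a2, a3⟩ := qx_pair hL h1 hy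
        obtain ⟨b1, b2, b3⟩ := qx_pair hL h2 hy'
        rw [← h1.num.1, ← h2.num.1] at e0
        rw [← eG k _ hy, ← eG k _ hy'] at e1
        simp only [hy, hy', true_and] at e0 ⊢
        rw [a3, b3]
        revert e0 e1 a2 b2
        rcases (q 1).fin.qx with _ | u <;> rcases (q' 1).fin.qx with _ | u' <;>
          cases (claims L (q 0)).x0 <;> cases (claims L (q' 0)).x0 <;> simp
        all_goals (cases u <;> cases u' <;> simp)
      · exact ⟨fun h => absurd h.1 hy, fun h => absurd (e2.2 h.1) hy⟩
    · fin_cases m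
      · simpa [dir] using hk
      · simpa [dir] using hX k
      · simpa [dir] using hY k
  · have e := hC.step (ι := Fin 3) (k, r) 1 (QX L) ![0, 0, 0]
      ![QX L, Exp L (G k) (k, r), ExpY L c r] (fun q q' hq hq' _ _ e => ?_) (fun m => ?_)
    · simpa [dir] using e
    · have e0 := e 0
      have e1 := e 1
      have e2 := e 2
      simp only [Matrix.cons_val_zero, Matrix.cons_val_one, Matrix.cons_val] at e0 e1 e2
      rw [eY, eY] at e2
      have h1 := (hRules hq).1
      have h2 := (hRules hq').1
      unfold QX at e0 ⊢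
      by_cases hy : (q 0).y = rowQY L
      · have hy' := e2.1 hy
        obtain ⟨a1, a2, a3⟩ := qx_pair hL h1 hy
        obtain ⟨b1, b2, b3⟩ := qx_pair hL h2 hy'
        rw [← h1.num.1, ← h2.num.1]
        rw [← eG k _ hy, ← eG k _ hy'] at e1
        simp only [hy, hy', true_and] at e0 ⊢
        rw [a3, b3] at e0
        revert e0 e1 a2 b2
        rcases (q 1).fin.qx with _ | u <;> rcases (q' 1).fin.qx with _ | u' <;>
          cases (claims L (q 0)).x0 <;> cases (claims L (q' 0)).x0 <;> simp
        all_goals (cases u <;> cases u' <;> simp)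
      · constructor
        · exact fun h => absurd (h1.num.1.trans h.1) hy
        · exact fun h => absurd (e2.2 (h2.num.1.trans h.1)) hy
    · fin_cases m
      · simpa [dir] using hk
      · simpa [dir] using hX k
      · simpa [dir] using hY k

end Vale.Agent.P196.Tile.Rigid
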