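import Vale.Agent.P196.Tile.Rigid.Lines
import Vale.Agent.P196.Tile.Rigid.Decomp
import Vale.Agent.P196.Tile.Rigid.Reduce
import Vale.Agent.P196.Tile.Rigid.RowQ

/-!
P196, module D (rigidity): tiles of one lattice which are close to each other commute.

Each tile is decomposed into positioned data, its row and the halves carried on two rows. Positioned
data are reduced to the data of a frame. The data of one frame meet each other on the lines of that
frame, and those of frames of different grids exclude each other.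
-/

noncomputable section

namespace Vale.Agent.P196.Tile.Rigid

open SFT Finset ChildRules
open scoped Classical

variable {S : SFT} {L : ℕ}

/-- The data of a frame. -/
inductive Atom (L : ℕ) where
  | grid
  | bit (k : ℕ) (hk : k ≤ lastK L) (j : Fin 4)
  | qx
  | qy

namespace Atom

/-- The column at which a datum of a frame is shown. -/
def X : Atom L → ℕ
  | .grid => 0
  | .bit k _ _ => bitX L k
  | .qx => 0
  | .qy => 2 * M L

/-- The row at which a datum of a frame is shown: the row `0` or a row in use. -/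
def Y : Atom L → ℕ
  | .grid => 0
  | .bit k _ _ => wireY L k
  | .qx => 0
  | .qy => 0

/-- The datum as a property of the tile showing it. -/
def P : Atom L → St → Prop
  | .grid => fun _ => True
  | .bit _ _ j => fun t => t.fin.h j = true
  | .qx => fun t => t.fin.qx = some true
  | .qy => fun t => t.fin.qy = some true

/-- The event of a datum of the frame `h`. -/
def obs (Λ : Virtual S L) (o h : V) (a : Atom L) : S.Obs :=
  Λ.T o (loc h a.X a.Y) (At a.X a.Y a.P)

lemma facts (hL : L₀ ≤ L) (a : Atom L) :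
    a.X < H L ∧ a.Y < H L ∧ (a.Y = 0 ∨ IsLive L a.Y) := by
  obtain ⟨-, -, s3, -, -, -, s6, -, sk⟩ := sizes hL
  have hH := H_pos L
  cases a with
  | bit k hk j =>
    obtain ⟨k1, -, k3⟩ := sk k hk
    exact ⟨by simp only [X]; omega, by simp only [Y]; omega, Or.inr (live_wireY hL hk)⟩
  | grid => exact ⟨hH, hH, Or.inl rfl⟩
  | qx => exact ⟨hH, hH, Or.inl rfl⟩
  | qy => exact ⟨by simp only [X]; omega, hH, Or.inl rfl⟩

end Atom

/-- The expected row is the row `0` or a row in use. -/
def Key (L : ℕ) (g p : V) : Prop :=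
  res L (g.2 + p.2) = 0 ∨ IsLive L (res L (g.2 + p.2)).toNat

/-- The origin of the quarter of the cell `i` in the grid `g`. -/
def org (L : ℕ) (g i : V) : V := (i.1 - res L (g.1 + i.1), i.2 - res L (g.2 + i.2))

/-- Two cells within the distance of meeting. -/
def Near (L : ℕ) (i i' : V) : Prop :=
  (i'.1 - i.1).natAbs ≤ meetD L ∧ (i'.2 - i.2).natAbs ≤ meetD L

lemma Near.symm {i i' : V} (h : Near L i i') : Near L i' i := by
  obtain ⟨h1, h2⟩ := h
  exact ⟨by omega, by omega⟩

lemma res_cast {n : ℕ} (hn : n < H L) : res L (n : ℤ) = (n : ℤ) :=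
  Int.emod_eq_of_lt (by omega) (by omega)

lemma res_range (m : ℤ) : 0 ≤ res L m ∧ res L m < (H L : ℤ) := by
  have hH : (0 : ℤ) < H L := by exact_mod_cast (H_pos L)
  exact ⟨Int.emod_nonneg _ hH.ne', Int.emod_lt_of_pos _ hH⟩

lemma dvd_sub_res (m : ℤ) : (H L : ℤ) ∣ m - res L m := Int.dvd_self_sub_emod

lemma res_eq_res {a b : ℤ} : res L a = res L b ↔ (H L : ℤ) ∣ a - b := by
  rw [dvd_sub_comm]
  exact Int.modEq_iff_dvd

lemma org_facts (g i : V) :
    ((H L : ℤ) ∣ g.1 + (org L g i).1 ∧ (H L : ℤ) ∣ g.2 + (org L g i).2) ∧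
      (0 ≤ i.1 - (org L g i).1 ∧ i.1 - (org L g i).1 < (H L : ℤ)) ∧
        0 ≤ i.2 - (org L g i).2 ∧ i.2 - (org L g i).2 < (H L : ℤ) := by
  simp only [org, sub_sub_cancel, ← add_sub_assoc]
  exact ⟨⟨dvd_sub_res _, dvd_sub_res _⟩, res_range _, res_range _⟩

/-- The positioned property in terms of a frame of its grid. -/
lemma here_eq {g h : V} (h1 : (H L : ℤ) ∣ g.1 + h.1) (h2 : (H L : ℤ) ∣ g.2 + h.2) (i : V)
    (P : St → Prop) : (fun t => Exp L g i t ∧ P t) = Here L h i P := by
  funext t
  rw [Here, exp_congr (g := g) (g' := -h) (by simpa using h1) (by simpa using h2) i]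

/-- The inequalities between the distance of meeting and the special coordinates. -/
lemma meet_sizes (hL : L₀ ≤ L) :
    (meetD L : ℤ) + halfY L < H L ∧ (meetD L : ℤ) + cutX L < H L ∧
      (meetD L : ℤ) + rowQY L < (halfY L : ℤ) ∧ rowQY L ≤ halfY L ∧ halfY L < H L ∧
        2 * M L ≤ cutX L := by
  obtain ⟨s1, s2, s3, s4, -, s5, s6, s7, -⟩ := sizes hL
  have hM := eight_lt_M hL
  have e : meetD L = H L / 2 - M L ^ 2 := rfl
  have e' : rowQY L = 2 * M L := rfl
  have h2 : M L ^ 2 ≤ H L / 2 := by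
    have : 2 * M L ^ 2 ≤ H L := by
      rw [H, pow_succ' (M L) 2]
      exact Nat.mul_le_mul_right _ (by omega)
    omega
  omega

namespace Virtual

variable {Λ : Virtual S L} {o : V}

lemma T_congr (i : V) {P P' : St → Prop} (h : ∀ t, P t ↔ P' t) : Λ.T o i P = Λ.T o i P' := by
  rw [show P = P' from funext fun t => propext (h t)]

/-- A linked event separates what is below it from what is beside it. -/
lemma sep {p p' : V} {P P' Q Q' : St → Prop} (hl : S.Link (Λ.T o p Q) (Λ.T o p' Q'))
    (h1 : ∀ t, P t → Q t) (h2 : ∀ t, P' t → ¬ Q' t) : S.Com (Λ.T o p P) (Λ.T o p' P') := by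
  refine com_exclusive (Λ.area_ctx _) (Λ.area_ctx _) subset_rfl subset_rfl subset_rfl subset_rfl
    (fun a _ ha => ?_) (fun a _ ha => ?_) hl
  · obtain ⟨q, hq, hP⟩ := (Λ.win_val_iff _ _ a).1 ha
    exact (win_val_some Λ hq).2 (h1 _ hP)
  · obtain ⟨q, hq, hP⟩ := (Λ.win_val_iff _ _ a).1 ha
    by_contra hc
    rw [Bool.not_eq_false] at hc
    exact h2 _ hP ((win_val_some Λ hq).1 hc)

lemma com_symm {a b : S.Obs} (h : S.Com a b) : S.Com b a := Rel.symm false _ _ h

/-- Commutation with one tile is closed. -/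
lemma okClosed (hL : L₀ ≤ L) (hl : Λ.Linked) (i' : V) (P' : St → Prop) :
    Closed Λ o (Λ.Ok o (Λ.T o i' P')) :=
  closed_ok hl (invariant hL hl o) (Λ.T_ctx _ _ _) fun i => ok_origin hl i i' P'

variable (hL : L₀ ≤ L) (hl : Λ.Linked)

include hL hl

/-- The grid is seen on its rows in use. -/
lemma link_key (g p : V) (h : Key L g p) : S.Link (Λ.T o p (Exp L g p)) (GridObs Λ o g) :=
  h.elim (link_zero hL hl g p) (link_live hL hl g p)

/-- A grid and data positioned on a row in use commute. -/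
lemma com_key (g g' p : V) (hk : Key L g' p) (R : St → Prop) (hR : ∀ t, R t → Exp L g' p t) :
    S.Com (GridObs Λ o g) (Λ.T o p R) := by
  by_cases he : res L (g.2 + p.2) = res L (g'.2 + p.2)
  · exact (link_key hL hl g p (by unfold Key at hk ⊢; rwa [he])).symm.com (com_tile o p _ _)
  · refine sep (linkY hl g.2 (-g.1, -g.2) p) (fun t ht => ht.2.2) fun t ht hY => he ?_
    exact Eq.trans (Eq.symm hY) (hR t ht).2.2

/-- Data positioned in different grids on rows in use commute. -/
lemma com_grids (g g' p p' : V) (hk : Key L g p) (hk' : Key L g' p')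
    (hne : ¬ ((H L : ℤ) ∣ g.1 - g'.1 ∧ (H L : ℤ) ∣ g.2 - g'.2)) (R R' : St → Prop)
    (hR : ∀ t, R t → Exp L g p t) (hR' : ∀ t, R' t → Exp L g' p' t) :
    S.Com (Λ.T o p R) (Λ.T o p' R') := by
  by_cases he : res L (g.2 + p'.2) = res L (g'.2 + p'.2)
  · refine sep ((link_key hL hl g p hk).trans
      (link_key hL hl g p' (by unfold Key at hk' ⊢; rwa [he])).symm) hR fun t ht hE => hne ?_
    obtain ⟨-, hx', -⟩ := hR' t ht
    have h1 := res_eq_res.1 (hE.2.1.symm.trans hx')
    have h2 := res_eq_res.1 he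
    rw [add_sub_add_right_eq_sub] at h1 h2
    exact ⟨h1, h2⟩
  · refine sep (linkY hl g.2 p p') (fun t ht => (hR t ht).2.2) fun t ht hY => he ?_
    exact Eq.trans (Eq.symm hY) (hR' t ht).2.2

omit hl in
/-- A datum of a frame is positioned on a row in use of the grid of the frame. -/
lemma atom_exp (h : V) (a : Atom L) :
    Key L (-h) (loc h a.X a.Y) ∧
      ∀ t, At a.X a.Y a.P t → Exp L (-h) (loc h a.X a.Y) t := by
  obtain ⟨hX, hY, hk⟩ := a.facts hL
  refine ⟨?_, fun t ht => (exp_loc hX hY t).2 ⟨ht.1, ht.2.1, ht.2.2.1⟩⟩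
  have e : res L ((-h).2 + (loc h a.X a.Y).2) = (a.Y : ℤ) := by
    simp only [loc, Prod.snd_neg, Prod.snd_add, neg_add_cancel_left]
    exact res_cast hY
  rw [Key, e, Int.toNat_natCast]
  exact hk.imp (fun h' => by simp [h']) id

/-- The line of the bit `k` meets every row up to the middle one. -/
lemma bit_col (h : V) {k : ℕ} (hk : k ≤ lastK L) (j : Fin 4) {Y : ℕ} (h1 : 1 ≤ Y)
    (h2 : Y ≤ halfY L) :
    S.Link ((Atom.bit k hk j).obs Λ o h)
      (Λ.T o (loc h (bitX L k) Y) (At (bitX L k) Y fun t => t.fin.vb j = true)) := by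
  obtain ⟨-, -, -, -, -, -, -, -, sk⟩ := sizes hL
  obtain ⟨k1, k2, -⟩ := sk k hk
  have hM := M_pos L
  exact (crossing hL hl h hk j).trans (line_vb hL hl h hk j (by omega) (by omega) h1 h2)

/-- The line of the horizontal half meets the columns up to the cut. -/
lemma qx_row (h : V) {X : ℕ} (h2 : X ≤ cutX L) :
    S.Link ((Atom.qx : Atom L).obs Λ o h)
      (Λ.T o (loc h X (rowQY L)) (At X (rowQY L) fun t => t.fin.qx = some true)) := by
  obtain ⟨-, -, -, hq, -, -⟩ := meet_sizes hL
  exact (line_x0 hL hl h (Y := 0) (Y' := rowQY L) (Nat.zero_le _) hq).trans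
    (line_qx hL hl h (X := 0) (X' := X) (Nat.zero_le _) h2)

/-- The data of one frame commute. -/
lemma com_atoms (h : V) (a b : Atom L) : S.Com (a.obs Λ o h) (b.obs Λ o h) := by
  have grid : ∀ b : Atom L, S.Com ((Atom.grid : Atom L).obs Λ o h) (b.obs Λ o h) := fun b => by
    refine Link.com ?_ (com_key hL hl (-h) (-h) _ (atom_exp hL h b).1 _ (atom_exp hL h b).2)
    rw [Atom.obs, T_congr (P' := Exp L (-h) (loc h (Atom.grid : Atom L).X (Atom.grid : Atom L).Y))]
    · exact link_key hL hl _ _ (atom_exp hL h _).1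
    · intro t
      rw [exp_loc (Atom.facts hL _).1 (Atom.facts hL _).2.1]
      simp [At, Atom.P]
  obtain ⟨-, -, s3, s4, -, -, -, -, sk⟩ := sizes hL
  obtain ⟨-, -, -, hq, hh, hc⟩ := meet_sizes hL
  have hM := M_pos L
  have e : rowQY L = 2 * M L := rfl
  have bit_bit : ∀ k hk j k' hk' j', S.Com ((Atom.bit (L := L) k hk j).obs Λ o h)
      ((Atom.bit k' hk' j').obs Λ o h) := fun k hk j k' hk' j' => by
    obtain ⟨k1, k2, k3⟩ := sk k hk
    obtain ⟨-, -, k3'⟩ := sk k' hk'
    have e' : bitX L k' = M L + 2 * k' := rfl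
    have e'' : bitX L k = M L + 2 * k := rfl
    exact Link.com_both (line_h hL hl h hk j (X := bitX L k) (X' := bitX L k') (by omega) (by omega)
      (by omega) (by omega)) (bit_col hL hl h hk' j' (by omega) (by omega)) (com_tile _ _ _ _)
  have bit_qx : ∀ k hk j, S.Com ((Atom.bit (L := L) k hk j).obs Λ o h)
      ((Atom.qx : Atom L).obs Λ o h) := fun k hk j => by
    obtain ⟨-, -, k3⟩ := sk k hk
    exact Link.com_both (bit_col hL hl h hk j (Y := rowQY L) (by omega) hq)
      (qx_row hL hl h (X := bitX L k) (by omega)) (com_tile _ _ _ _)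
  have bit_qy : ∀ k hk j, S.Com ((Atom.bit (L := L) k hk j).obs Λ o h)
      ((Atom.qy : Atom L).obs Λ o h) := fun k hk j => by
    obtain ⟨k1, -, k3⟩ := sk k hk
    have e'' : bitX L k = M L + 2 * k := rfl
    exact Link.com_both (line_h hL hl h hk j (X := bitX L k) (X' := 2 * M L) (by omega) (by omega) (by omega) hc)
      (line_qy hL hl h (Y := 0) (Y' := wireY L k) (Nat.zero_le _) (by omega)) (com_tile _ _ _ _)
  have qx_qy : S.Com ((Atom.qx : Atom L).obs Λ o h) ((Atom.qy : Atom L).obs Λ o h) :=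
    Link.com_both (qx_row hL hl h (X := 2 * M L) hc)
      (line_qy hL hl h (Y := 0) (Y' := rowQY L) (Nat.zero_le _) hq) (com_tile _ _ _ _)
  cases a with
  | grid => exact grid b
  | bit k hk j =>
    cases b with
    | grid => exact com_symm (grid _)
    | bit k' hk' j' => exact bit_bit ..
    | qx => exact bit_qx ..
    | qy => exact bit_qy ..
  | qx =>
    cases b with
    | grid => exact com_symm (grid _)
    | bit k hk j => exact com_symm (bit_qx ..)
    | qx => exact com_tile _ _ _ _
    | qy => exact qx_qy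
  | qy =>
    cases b with
    | grid => exact com_symm (grid _)
    | bit k hk j => exact com_symm (bit_qy ..)
    | qx => exact com_symm qx_qy
    | qy => exact com_tile _ _ _ _

/-- The data of frames of different grids commute. -/
lemma com_atoms_ne (h h' : V) (hne : ¬ ((H L : ℤ) ∣ h.1 - h'.1 ∧ (H L : ℤ) ∣ h.2 - h'.2))
    (a b : Atom L) : S.Com (a.obs Λ o h) (b.obs Λ o h') := by
  obtain ⟨hk, hR⟩ := atom_exp hL h a
  obtain ⟨hk', hR'⟩ := atom_exp hL h' b
  refine com_grids hL hl (-h) (-h') _ _ hk hk' ?_ _ _ hR hR'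
  rintro ⟨h1, h2⟩
  refine hne ⟨?_, ?_⟩
  · rw [dvd_sub_comm]
    simpa [neg_add_eq_sub] using h1
  · rw [dvd_sub_comm]
    simpa [neg_add_eq_sub] using h2

/-- The data of a frame commute with an event if the atoms do. -/
lemma frameOK_of (h : V) {o' : S.Obs} (hc : ∀ a : Atom L, S.Com (a.obs Λ o h) o') :
    FrameOK L (Λ.Ok o o') h := by
  obtain ⟨-, -, s3, -, -, -, -, -, sk⟩ := sizes hL
  obtain ⟨-, -, -, hq, hh, hc'⟩ := meet_sizes hL
  have hH := H_pos L
  refine ⟨?_, fun k hk j => ?_, ?_, ?_⟩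
  · have h0 : loc h 0 0 = h := by ext <;> simp [loc]
    have := hc Atom.grid
    rw [Atom.obs, T_congr (P' := Exp L (-h) (loc h 0 0))] at this
    · simp only [Atom.X, Atom.Y, h0] at this
      exact this
    · intro t
      rw [exp_loc hH hH]
      simp [At, Atom.P, Atom.X, Atom.Y]
  · have := hc (Atom.bit k hk j)
    obtain ⟨k1, -, k3⟩ := sk k hk
    show S.Com (Λ.T o (loc h (bitX L k) (wireY L k)) (Here L h (loc h (bitX L k) (wireY L k)) _)) o'
    rw [here_loc (by omega) (by omega)]
    exact this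
  · show S.Com (Λ.T o (loc h (2 * M L) (rowQY L)) (Here L h (loc h (2 * M L) (rowQY L)) _)) o'
    rw [here_loc (by omega) (by omega)]
    exact (qx_row hL hl h hc').symm.com (hc Atom.qx)
  · show S.Com (Λ.T o (loc h (2 * M L) (rowQY L)) (Here L h (loc h (2 * M L) (rowQY L)) _)) o'
    rw [here_loc (by omega) (by omega)]
    exact (line_qy hL hl h (Y := rowQY L) (Y' := 0) hq (Nat.zero_le _)).com (hc Atom.qy)

/-- Each datum of a frame is shown on the row `2M` of that frame. -/
lemma atom_rowQ (h : V) (a : Atom L) :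
    ∃ (X : ℕ) (R : St → Prop),
      S.Link (a.obs Λ o h) (Λ.T o (loc h X (rowQY L)) R) := by
  obtain ⟨-, -, -, hq, hh, -⟩ := meet_sizes hL
  have hM := M_pos L
  have e : rowQY L = 2 * M L := rfl
  cases a with
  | grid =>
    have hkn : knownX L 0 (rowQY L) = true := knownX_band hL (by omega) _
    refine ⟨0, Exp L (-h) (loc h 0 (rowQY L)), ?_⟩
    rw [Atom.obs, T_congr (P' := Exp L (-h) (loc h 0 0))]
    · exact (link_key hL hl _ _ (atom_exp hL h Atom.grid).1).trans
        (link_pos hL hl h (H_pos L) (by omega) hkn).symm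
    · intro t
      rw [exp_loc (H_pos L) (H_pos L)]
      simp [At, Atom.P, Atom.X, Atom.Y]
  | bit k hk j => exact ⟨_, _, bit_col hL hl h hk j (by omega) hq⟩
  | qx => exact ⟨_, _, qx_row hL hl h (X := 0) (Nat.zero_le _)⟩
  | qy => exact ⟨_, _, line_qy hL hl h (Y := 0) (Y' := rowQY L) (Nat.zero_le _) hq⟩

/-- Each datum of a frame is shown on the middle row of that frame. -/
lemma atom_half (h : V) (a : Atom L) :
    ∃ (X : ℕ) (R : St → Prop),
      S.Link (a.obs Λ o h) (Λ.T o (loc h X (halfY L)) R) := by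
  obtain ⟨-, -, -, hq, hh, -⟩ := meet_sizes hL
  have hM := M_pos L
  have e : rowQY L = 2 * M L := rfl
  cases a with
  | grid =>
    have hkn : knownX L 0 (halfY L) = true := knownX_band hL (by omega) _
    refine ⟨0, Exp L (-h) (loc h 0 (halfY L)), ?_⟩
    rw [Atom.obs, T_congr (P' := Exp L (-h) (loc h 0 0))]
    · exact (link_key hL hl _ _ (atom_exp hL h Atom.grid).1).trans
        (link_pos hL hl h (H_pos L) hh hkn).symm
    · intro t
      rw [exp_loc (H_pos L) (H_pos L)]
      simp [At, Atom.P, Atom.X, Atom.Y]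
  | bit k hk j => exact ⟨_, _, bit_col hL hl h hk j (by omega) le_rfl⟩
  | qx => exact ⟨_, _, line_x0 hL hl h (Y := 0) (Y' := halfY L) (Nat.zero_le _) le_rfl⟩
  | qy => exact ⟨_, _, line_qy hL hl h (Y := 0) (Y' := halfY L) (Nat.zero_le _) le_rfl⟩

/-- The vertical half is one event along its row. -/
lemma link_qy_row (x x' r : ℤ) : S.Link (Λ.T o (x, r) (QY L)) (Λ.T o (x', r) (QY L)) := by
  refine link_line (fun x => Λ.T o (x, r) (QY L)) (fun _ => Λ.T_ctx _ _ _) (fun x => ?_) x x'
  refine link_horiz hl (invariant_true o) x r _ _ fun t l h _ _ => ?_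
  unfold QY
  rw [h.num.1]
  refine and_congr_right fun hy => ?_
  have hc : (claims L t).halfRow = true := (claim_halfY hL).2 (h.num.1.trans hy)
  have e : t.fin.qy = l.fin.qy := h.f.qy (by simp [hc])
  rw [e]

/-- A row commutes with everything in its lattice. -/
lemma com_row (i i' : V) (s : ℕ) (P' : St → Prop) :
    S.Com (Λ.T o i fun t => t.y = s) (Λ.T o i' P') := by
  by_cases hs : s < H L
  · rw [T_congr (P' := ExpY L ((s : ℤ) - i.2) i.2)]
    · exact (linkY hl _ i i').com (com_tile o i' _ _)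
    · intro t
      simp [ExpY, res_cast hs]
  · exact (okClosed hL hl i' P').never i _ fun t ht _ h => hs (h ▸ ht.bd.y_lt)

variable (hR : ReduceStatement) (hQ : RowQStatement)

include hR

/-- Data positioned in two frames commute if the data of the frames do. -/
lemma com_frames (h h' i i' : V) (hi : InRange L h i) (hi' : InRange L h' i')
    (hc : ∀ a b : Atom L, S.Com (a.obs Λ o h) (b.obs Λ o h')) (P P' : St → Prop) :
    S.Com (Λ.T o i (Here L h i P)) (Λ.T o i' (Here L h' i' P')) := by
  have h1 : ∀ b : Atom L, S.Com (Λ.T o i (Here L h i P)) (b.obs Λ o h') := fun b =>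
    hR S L Λ hL hl o _ (okClosed hL hl _ _) h i (frameOK_of hL hl h fun a => hc a b) hi P
  exact com_symm (hR S L Λ hL hl o _ (okClosed hL hl _ _) h' i'
    (frameOK_of hL hl h' fun b => com_symm (h1 b)) hi' P')

/-- Nearby positioned data commute. -/
lemma com_pos {i i' : V} (hn : Near L i i') (g g' : V) (P P' : St → Prop) :
    S.Com (Λ.T o i fun t => Exp L g i t ∧ P t) (Λ.T o i' fun t => Exp L g' i' t ∧ P' t) := by
  obtain ⟨⟨a1, a2⟩, ⟨a3, a4⟩, a5, a6⟩ := org_facts (L := L) g i
  obtain ⟨⟨b1, b2⟩, ⟨b3, b4⟩, b5, b6⟩ := org_facts (L := L) g' i'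
  obtain ⟨n1, n2⟩ := hn
  obtain ⟨m1, m2, -⟩ := meet_sizes hL
  by_cases hgg : (H L : ℤ) ∣ g.1 - g'.1 ∧ (H L : ℤ) ∣ g.2 - g'.2
  · obtain ⟨d1, d2⟩ := hgg
    have hmax : ∀ {u v a b : ℤ}, (H L : ℤ) ∣ u - v → (H L : ℤ) ∣ u + a → (H L : ℤ) ∣ v + b →
        (H L : ℤ) ∣ u + max a b ∧ (H L : ℤ) ∣ v + max a b := fun {u v a b} h ha hb => by
      rcases max_choice a b with e | e <;> rw [e]
      · refine ⟨ha, ?_⟩
        rw [show v + a = (u + a) - (u - v) by ring]
        exact dvd_sub ha h
      · refine ⟨?_, hb⟩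
        rw [show u + b = (u - v) + (v + b) by ring]
        exact dvd_add h hb
    obtain ⟨x1, x2⟩ := hmax d1 a1 b1
    obtain ⟨y1, y2⟩ := hmax d2 a2 b2
    let h : V := (max (org L g i).1 (org L g' i').1, max (org L g i).2 (org L g' i').2)
    rw [here_eq (h := h) x1 y1, here_eq (h := h) x2 y2]
    exact com_frames hL hl hR h h i i' (by simp only [InRange, h]; omega)
      (by simp only [InRange, h]; omega) (com_atoms hL hl h) P P'
  · rw [here_eq a1 a2, here_eq b1 b2]
    refine com_frames hL hl hR _ _ i i' (by simp only [InRange]; omega)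
      (by simp only [InRange]; omega) (com_atoms_ne hL hl _ _ fun h' => hgg ⟨?_, ?_⟩) P P'
    · have := dvd_sub (dvd_sub a1 b1) h'.1
      ring_nf at this ⊢
      exact this
    · have := dvd_sub (dvd_sub a2 b2) h'.2
      ring_nf at this ⊢
      exact this

include hQ

omit hR in
/-- Grids and the horizontal half commute. -/
lemma com_grid_qx (g : V) (x r : ℤ) : S.Com (Λ.T o (x, r) (QX L)) (GridObs Λ o g) := by
  refine hQ S L Λ hL hl o _ (okClosed hL hl _ _) (fun g' => ?_) (-g.1) x r ?_
  · exact com_key hL hl g' g _ (Or.inl (by simp [res])) _ fun t ht => ht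
  · have hb : BandAt L (g.1 + -g.1) := by simp [BandAt, res, band_zero hL]
    exact com_symm ((link_band hl g (-g.1, r) hb).symm.com (com_tile _ _ _ _))

omit hR in
/-- The data of a frame commute with the horizontal half on its row. -/
lemma com_atom_qx (h : V) (a : Atom L) (x : ℤ) :
    S.Com (Λ.T o (x, h.2 + rowQY L) (QX L)) (a.obs Λ o h) := by
  obtain ⟨X, R, hX⟩ := atom_rowQ hL hl h a
  refine hQ S L Λ hL hl o _ (okClosed hL hl _ _) (fun g' => ?_) (h.1 + X) x _ ?_
  · exact com_key hL hl g' (-h) _ (atom_exp hL h a).1 _ (atom_exp hL h a).2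
  · exact com_symm (hX.com (com_tile _ _ _ _))

/-- Nearby positioned data and the horizontal half commute. -/
lemma com_pos_qx {i i' : V} (hn : Near L i i') (g : V) (P : St → Prop) :
    S.Com (Λ.T o i fun t => Exp L g i t ∧ P t) (Λ.T o i' (QX L)) := by
  obtain ⟨n1, n2⟩ := hn
  obtain ⟨m1, m2, m3, hq, hh, -⟩ := meet_sizes hL
  by_cases he : res L (g.2 + i'.2) = (rowQY L : ℤ)
  · obtain ⟨⟨a1, -⟩, ⟨a3, a4⟩, -⟩ := org_facts (L := L) g i
    let h : V := ((org L g i).1, i'.2 - rowQY L)
    have a2 : (H L : ℤ) ∣ g.2 + h.2 := by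
      have := dvd_sub_res (L := L) (g.2 + i'.2)
      rwa [he, add_sub_assoc] at this
    rw [here_eq (h := h) a1 a2]
    refine hR S L Λ hL hl o _ (okClosed hL hl _ _) h i (frameOK_of hL hl h fun a => ?_)
      (by simp only [InRange, h]; omega) P
    have := com_atom_qx (o := o) hL hl hQ h a i'.1
    simp only [h, sub_add_cancel] at this
    exact com_symm this
  · exact sep (linkY hl g.2 i i') (fun t ht => ht.1.2.2) fun t ht hY =>
      he (hY.symm.trans (by rw [ht.1]))

omit hQ in
/-- Nearby positioned data and the vertical half commute. -/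
lemma com_pos_qy {i i' : V} (hn : Near L i i') (g : V) (P : St → Prop) :
    S.Com (Λ.T o i fun t => Exp L g i t ∧ P t) (Λ.T o i' (QY L)) := by
  obtain ⟨n1, n2⟩ := hn
  obtain ⟨m1, m2, m3, hq, hh, -⟩ := meet_sizes hL
  by_cases he : res L (g.2 + i'.2) = (halfY L : ℤ)
  · obtain ⟨⟨a1, -⟩, ⟨a3, a4⟩, -⟩ := org_facts (L := L) g i
    let h : V := ((org L g i).1, i'.2 - halfY L)
    have a2 : (H L : ℤ) ∣ g.2 + h.2 := by
      have := dvd_sub_res (L := L) (g.2 + i'.2)
      rwa [he, add_sub_assoc] at this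
    rw [here_eq (h := h) a1 a2]
    refine hR S L Λ hL hl o _ (okClosed hL hl _ _) h i (frameOK_of hL hl h fun a => ?_)
      (by simp only [InRange, h]; omega) P
    obtain ⟨X, R, hX⟩ := atom_half (o := o) hL hl h a
    have e : loc h X (halfY L) = (h.1 + X, i'.2) := by ext <;> simp [loc, h]
    rw [e] at hX
    exact Link.com_both hX (link_qy_row hL hl i'.1 (h.1 + X) i'.2) (com_tile _ _ _ _)
  · exact sep (linkY hl g.2 i i') (fun t ht => ht.1.2.2) fun t ht hY =>
      he (hY.symm.trans (by rw [ht.1]))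

omit hR in
/-- Nearby halves commute. -/
lemma com_halves {i i' : V} (hn : Near L i i') (P P' : St → Prop)
    (hP : P = QX L ∨ P = QY L) (hP' : P' = QX L ∨ P' = QY L) :
    S.Com (Λ.T o i P) (Λ.T o i' P') := by
  obtain ⟨n1, n2⟩ := hn
  obtain ⟨m1, -, m3, hq, hh, -⟩ := meet_sizes hL
  have dist : ∀ {y y' : ℕ}, y < H L → y' < H L → ∀ (i i' : V) (P P' : St → Prop),
      (∀ t, P t → t.y = y) → (∀ t, P' t → t.y = y') →
      ¬ (H L : ℤ) ∣ (i'.2 - i.2) - ((y' : ℤ) - y) → S.Com (Λ.T o i P) (Λ.T o i' P') := by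
    intro y y' hy hy' i i' P P' hP hP' hne
    refine sep (linkY hl ((y : ℤ) - i.2) i i') (fun t ht => ?_) fun t ht hY => hne ?_
    · show (t.y : ℤ) = _
      rw [hP t ht, sub_add_cancel, res_cast hy]
    · have e : res L ((y' : ℤ)) = res L ((y : ℤ) - i.2 + i'.2) := by
        rw [res_cast hy', ← hP' t ht]
        exact hY
      have := res_eq_res.1 e
      rw [dvd_sub_comm] at this
      ring_nf at this ⊢
      exact this
  have small : ∀ d : ℤ, d.natAbs < H L → (H L : ℤ) ∣ d → d = 0 := fun d h1 h2 =>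
    Int.eq_zero_of_dvd_of_natAbs_lt_natAbs h2 (by simpa using h1)
  rcases hP with rfl | rfl <;> rcases hP' with rfl | rfl
  · by_cases he : i'.2 = i.2
    · obtain ⟨a, r⟩ := i
      obtain ⟨a', r'⟩ := i'
      simp only at he
      subst he
      exact hQ S L Λ hL hl o _ (okClosed hL hl _ _)
        (fun g => com_symm (com_grid_qx hL hl hQ g a' r')) a' a r' (com_tile _ _ _ _)
    · exact dist (y := rowQY L) (y' := rowQY L) (by omega) (by omega) _ _ _ _
        (fun t h => h.1) (fun t h => h.1) fun h => he (by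
          have := small _ (by omega) h
          omega)
  · exact dist (y := rowQY L) (y' := halfY L) (by omega) hh _ _ _ _ (fun t h => h.1)
      (fun t h => h.1) fun h => by
        have := small _ (by omega) h
        omega
  · exact dist (y := halfY L) (y' := rowQY L) hh (by omega) _ _ _ _ (fun t h => h.1)
      (fun t h => h.1) fun h => by
        have := small _ (by omega) h
        omega
  · by_cases he : i'.2 = i.2
    · obtain ⟨a, r⟩ := i
      obtain ⟨a', r'⟩ := i'
      simp only at he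
      subst he
      exact (link_qy_row hL hl a a' r').com (com_tile _ _ _ _)
    · exact dist (y := halfY L) (y' := halfY L) hh hh _ _ _ _ (fun t h => h.1) (fun t h => h.1)
        fun h => he (by
          have := small _ (by omega) h
          omega)

/-- Nearby tiles commute. -/
lemma com_near_tiles {i i' : V} (hn : Near L i i') (P P' : St → Prop) :
    S.Com (Λ.T o i P) (Λ.T o i' P') := by
  have key : ∀ {i i' : V}, Near L i i' → ∀ (Q : St → Prop),
      (∀ (g : V) (R : St → Prop), S.Com (Λ.T o i Q) (Λ.T o i' fun t => Exp L g i' t ∧ R t)) →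
      S.Com (Λ.T o i Q) (Λ.T o i' (QX L)) → S.Com (Λ.T o i Q) (Λ.T o i' (QY L)) →
      ∀ P', S.Com (Λ.T o i Q) (Λ.T o i' P') := by
    intro i i' _ Q hpos hqx hqy P'
    exact com_symm (decompStatement S L Λ hL hl o _ (okClosed hL hl i Q) i'
      (fun g R => com_symm (hpos g R)) (fun s => com_row hL hl i' i s Q) (com_symm hqx)
      (com_symm hqy) P')
  refine decompStatement S L Λ hL hl o _ (okClosed hL hl i' P') i (fun g R => ?_)
    (fun s => com_row hL hl i i' s P') ?_ ?_ P
  · exact key hn _ (fun g' R' => com_pos hL hl hR hn g g' R R') (com_pos_qx hL hl hR hQ hn g R)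
      (com_pos_qy hL hl hR hn g R) P'
  · exact key hn _ (fun g R => com_symm (com_pos_qx hL hl hR hQ hn.symm g R))
      (com_halves hL hl hQ hn _ _ (Or.inl rfl) (Or.inl rfl))
      (com_halves hL hl hQ hn _ _ (Or.inl rfl) (Or.inr rfl)) P'
  · exact key hn _ (fun g R => com_symm (com_pos_qy hL hl hR hn.symm g R))
      (com_halves hL hl hQ hn _ _ (Or.inr rfl) (Or.inl rfl))
      (com_halves hL hl hQ hn _ _ (Or.inr rfl) (Or.inr rfl)) P'

end Virtual

/-- Tiles of one lattice near each other commute. -/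
theorem meet_of (hR : ReduceStatement) (hQ : RowQStatement) : MeetStatement := by
  intro S L Λ hL hl o i i' h1 h2 P P'
  exact Virtual.com_near_tiles hL hl hR hQ ⟨h1, h2⟩ P P'

/-- Tiles of one lattice near each other commute, with no hypothesis. -/
theorem meetStatement : MeetStatement := meet_of reduceStatement rowQStatement

end Vale.Agent.P196.Tile.Rigid
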