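import Vale.Agent.P196.Tile.Rigid.Reading
import Vale.Agent.P196.Tile.Rigid.Meet

/-!
P196, module D (rigidity): the tiles under parents.

What commutes with the heads and bits of the parents around a cell commutes with the tiles there:
the grids are unions of heads, the frames consist of heads and bits, and the halves on rows are
followed to a frame.
-/

noncomputable section

namespace Vale.Agent.P196.Tile.Rigid

open SFT Finset
open scoped Classical

variable {S : SFT} {L : ℕ}

attribute [local irreducible] box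

/-- A cell within distance `r` of the origin of the lattice. -/
def Small (r : ℕ) (i : V) : Prop := i.1.natAbs ≤ r ∧ i.2.natAbs ≤ r

lemma exp_self (h : V) (t : St) : Exp L (-h) h t ↔ t.xk = true ∧ t.x = 0 ∧ t.y = 0 := by
  simp [Exp, res]

/-- A quarter starts with two halves. -/
lemma head_of_exp (hL : L₀ ≤ L) {h : V} {t : St} (ht : TileRules L t) (he : Exp L (-h) h t) :
    ∃ bx by', Head bx by' t := by
  obtain ⟨hk, hx, hy⟩ := (exp_self h t).1 he
  have h1 : (claims L t).x0 = true := (claim_x0 hL).2 ⟨hk, hx⟩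
  have h2 : (claims L t).isY0 = true := claim_y0.2 hy
  have e1 : t.fin.qx.isSome = true := ht.p.qx_some.trans (by simp [h1])
  have e2 : t.fin.qy.isSome = true := ht.p.qy_some.trans (by simp [h2])
  obtain ⟨bx, hbx⟩ := Option.isSome_iff_exists.1 e1
  obtain ⟨b', hby⟩ := Option.isSome_iff_exists.1 e2
  exact ⟨bx, b', ⟨hk, hx, hy, hbx⟩, hk, hx, hy, hby⟩

/-- The row `0` below a cell of known height in a column. -/
lemma col_foot {I : St → Prop} {C : Finset V} {c : V → St} {a k : ℤ} {n : ℕ} (hn : n < H L)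
    (hc : Patch L I C c) (hC : ∀ m : ℕ, m ≤ n → (a, k + (m : ℤ)) ∈ C)
    (ht : (c (a, k + (n : ℤ))).y = n) : (c (a, k)).y = 0 := by
  induction n with
  | zero => simpa using ht
  | succ n ih =>
    have e : ((a, k + ((n + 1 : ℕ) : ℤ)) : V) - (0, 1) = (a, k + (n : ℤ)) := by
      ext <;> simp; omega
    have hv := hc.vert _ (hC (n + 1) le_rfl) (by rw [e]; exact hC n (by omega))
    rw [e] at hv
    refine ih (by omega) (fun m hm => hC m (by omega)) ?_
    have h1 := hv.num.1
    rw [ht] at h1
    have hb := hv.bot.bd.y_lt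
    rcases Nat.lt_or_ge ((c (a, k + (n : ℤ))).y + 1) (H L) with h2 | h2
    · rw [Nat.mod_eq_of_lt h2] at h1
      omega
    · rw [show (c (a, k + (n : ℤ))).y + 1 = H L by omega, Nat.mod_self] at h1
      omega

namespace Virtual

variable {Λ : Virtual S L}

/-- A property that is, on valid windows, one of finitely many commutes if they do. -/
lemma com_tile_union {o i : V} {o' : S.Obs} (ho' : S.Context o'.supp) {ι : Type} [Fintype ι]
    {P : St → Prop} (Ps : ι → St → Prop) (h : ∀ t, TileRules L t → (P t ↔ ∃ m, Ps m t))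
    (hc : ∀ m, S.Com (Λ.T o i (Ps m)) o') : S.Com (Λ.T o i P) o' := by
  refine com_of_determined _ o' (fun m => Λ.T o i (Ps m)) (Λ.area (Λ.cell o i)) subset_rfl
    (fun _ => subset_rfl) (Λ.area_ctx _) ho' (fun a b ha hb hab => ?_) hc
  have key : ∀ x : V → S.A, S.Admissible (Λ.area (Λ.cell o i)) x →
      ((Λ.T o i P).val x = true ↔ ∃ m, (Λ.T o i (Ps m)).val x = true) := fun x hx => by
    simp only [T]
    constructor
    · intro hv
      obtain ⟨q, hq, hp⟩ := (Λ.win_val_iff _ _ x).1 hv
      obtain ⟨m, hm⟩ := (h _ (tileRules (Λ.valid _ x q hx hq) 0)).1 hp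
      exact ⟨m, (win_val_some Λ hq).2 hm⟩
    · rintro ⟨m, hm⟩
      obtain ⟨q, hq, hp⟩ := (Λ.win_val_iff _ _ x).1 hm
      exact (win_val_some Λ hq).2 ((h _ (tileRules (Λ.valid _ x q hx hq) 0)).2 ⟨m, hp⟩)
  rw [Bool.eq_iff_iff, key a ha, key b hb]
  simp only [hab]

/-- The heads and bits of the parents around `v` commute with an event. -/
structure Parents (Λ : Virtual S L) (v : V) (o' : S.Obs) : Prop where
  ctx : S.Context o'.supp
  head : ∀ h, Small (3 * H L) h → S.Com (Λ.headObs v h false false) o'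
  bit : ∀ h, Small (3 * H L) h → ∀ k, k ≤ lastK L → ∀ j,
    S.Com (Λ.headBit v h false false k j) o'

variable {v : V} {o' : S.Obs} (hL : L₀ ≤ L) (hl : Λ.Linked) (hM : Meets Λ)
  (hp : Parents Λ v o')

include hL hl hM hp

/-- The origin of the parent of a quarter. -/
lemma com_head {h : V} (hh : Small (2 * H L) h) (bx by' : Bool) :
    S.Com (Λ.headObs v h bx by') o' := by
  obtain ⟨h1, h2⟩ := hh
  let z : Bool → ℤ := fun b => if b then 1 else 0
  have e : ∀ b, flipBy false (z b) = b := fun b => by cases b <;> simp [z, flipBy]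
  have l := head_lattice (o := v) hL hl hM (h - ((H L : ℤ) * z bx, (H L : ℤ) * z by')) false false
    (z bx) (z by')
  rw [e, e, sub_add_cancel] at l
  refine l.com (hp.head _ ?_)
  unfold Small
  cases bx <;> cases by' <;> simp [z] <;> omega

/-- The bits of the quarters of a parent. -/
lemma com_headBit (hB : BitStatement) {h : V} (hh : Small (2 * H L) h) (bx by' : Bool) {k : ℕ}
    (hk : k ≤ lastK L) (j : Fin 4) : S.Com (Λ.headBit v h bx by' k j) o' := by
  obtain ⟨h1, h2⟩ := hh
  have right : ∀ g b, S.Link (Λ.headBit v g false b k j)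
      (Λ.headBit v (g + ((H L : ℤ), 0)) true b k j) :=
    fun g b => (hB S L Λ hL hl hM v g false b k hk j j).1 (by simp [RightMap])
  have up : ∀ g b, S.Link (Λ.headBit v g b false k j)
      (Λ.headBit v (g + (0, (H L : ℤ))) b true k j) :=
    fun g b => (hB S L Λ hL hl hM v g b false k hk j j).2 (by simp [UpMap])
  cases bx <;> cases by'
  · exact hp.bit h ⟨by omega, by omega⟩ k hk j
  · have := up (h - (0, (H L : ℤ))) false
    rw [sub_add_cancel] at this
    exact this.symm.com (hp.bit _ ⟨by simp; omega, by simp; omega⟩ k hk j)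
  · have := right (h - ((H L : ℤ), 0)) false
    rw [sub_add_cancel] at this
    exact this.symm.com (hp.bit _ ⟨by simp; omega, by simp; omega⟩ k hk j)
  · have l1 := right (h - ((H L : ℤ), (H L : ℤ))) false
    have l2 := up (h - ((H L : ℤ), (H L : ℤ)) + ((H L : ℤ), 0)) true
    rw [show h - ((H L : ℤ), (H L : ℤ)) + ((H L : ℤ), 0) + (0, (H L : ℤ)) = h by
      ext <;> simp] at l2
    exact (l1.trans l2).symm.com (hp.bit _ ⟨by simp; omega, by simp; omega⟩ k hk j)

/-- A grid at the origin of a quarter. -/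
lemma com_corner {h : V} (hh : Small (2 * H L) h) :
    S.Com (Λ.T v h (Exp L (-h) h)) o' :=
  com_tile_union hp.ctx (ι := Bool × Bool) (fun b => Head b.1 b.2)
    (fun t ht => ⟨fun he => by obtain ⟨bx, b', hb⟩ := head_of_exp hL ht he; exact ⟨(bx, b'), hb⟩,
      fun ⟨_, hb⟩ => (exp_self h t).2 ⟨hb.1.1, hb.1.2.1, hb.1.2.2.1⟩⟩)
    fun b => com_head hL hl hM hp hh b.1 b.2

/-- All grids. -/
lemma com_gridObs (g : V) : S.Com (GridObs Λ v g) o' := by
  let h : V := (res L (-g.1), res L (-g.2))
  have hH : (0 : ℤ) < H L := by exact_mod_cast ChildRules.H_pos L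
  obtain ⟨a1, a2⟩ := res_range (L := L) (-g.1)
  obtain ⟨b1, b2⟩ := res_range (L := L) (-g.2)
  have d : ∀ z : ℤ, (H L : ℤ) ∣ z + res L (-z) := fun z => by
    have := (dvd_sub_res (L := L) (-z)).neg_right
    rwa [show -(-z - res L (-z)) = z + res L (-z) by ring] at this
  have hz : res L (g.2 + h.2) = 0 := Int.emod_eq_zero_of_dvd (d g.2)
  refine (link_zero hL hl g h hz).symm.com ?_
  rw [exp_congr (g := g) (g' := -h) (by simpa [h] using d g.1) (by simpa [h] using d g.2) h]
  exact com_corner hL hl hM hp ⟨by simp only [h]; omega, by simp only [h]; omega⟩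

/-- A row `0` everywhere. -/
lemma com_row0 (i : V) : S.Com (Λ.T v i fun t => t.y = 0) o' := by
  refine com_tile_union hp.ctx (ι := Fin (H L))
    (fun x => Exp L ((x : ℤ) - i.1, -i.2) i) (fun t ht => ?_) fun x => ?_
  · constructor
    · intro hy
      refine ⟨⟨t.x, ht.bd.x_lt⟩, ht.p.y0_xk (claim_y0.2 hy), ?_, ?_⟩
      · simp only [sub_add_cancel]
        exact (res_cast ht.bd.x_lt).symm
      · simp [hy, res]
    · rintro ⟨x, -, -, hy⟩
      simp [res] at hy
      exact hy
  · exact (link_zero hL hl _ i (by simp [res])).com (com_gridObs hL hl hM hp _)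

/-- A height everywhere. -/
lemma com_height (i : V) (s : ℕ) : S.Com (Λ.T v i fun t => t.y = s) o' := by
  by_cases hs : s < H L
  · rw [T_congr (P' := ExpY L ((s : ℤ) - i.2) i.2) i fun t => by simp [ExpY, res_cast hs]]
    refine (linkY hl ((s : ℤ) - i.2) i (0, i.2 - s)).com ?_
    rw [T_congr (P' := fun t => t.y = 0) (0, i.2 - (s : ℤ)) fun t => by simp [ExpY, res]]
    exact com_row0 hL hl hM hp _
  · exact com_tile_union hp.ctx (ι := Empty) (fun m => m.elim)
      (fun t ht => ⟨fun h => absurd (h ▸ ht.bd.y_lt) hs, fun ⟨m, _⟩ => m.elim⟩) fun m => m.elim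

lemma com_top (i : V) : S.Com (Λ.T v i fun _ => True) o' :=
  com_tile_union hp.ctx (ι := Fin (H L)) (fun s t => t.y = s)
    (fun t ht => ⟨fun _ => ⟨⟨t.y, ht.bd.y_lt⟩, rfl⟩, fun _ => trivial⟩)
    fun s => com_height hL hl hM hp i s

/-- The data of a frame. -/
lemma com_atom (hB : BitStatement) {h : V} (hh : Small (2 * H L) h) (a : Atom L) :
    S.Com (a.obs Λ v h) o' := by
  have hH := ChildRules.H_pos L
  have h0 : loc h 0 0 = h := by ext <;> simp [loc]
  cases a with
  | grid =>
    show S.Com (Λ.T v (loc h 0 0) (At 0 0 fun _ => True)) o'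
    rw [h0, T_congr (P' := Exp L (-h) h) h fun t => by simp [exp_self, At]]
    exact com_corner hL hl hM hp hh
  | qx =>
    show S.Com (Λ.T v (loc h 0 0) (At 0 0 fun t => t.fin.qx = some true)) o'
    rw [h0]
    refine com_tile_union hp.ctx (ι := Bool) (fun b => Head true b) (fun t ht => ?_)
      fun b => com_head hL hl hM hp hh true b
    constructor
    · rintro ⟨hk, hx, hy, hq⟩
      obtain ⟨bx, b', hb⟩ := head_of_exp hL ht ((exp_self h t).2 ⟨hk, hx, hy⟩)
      obtain rfl : bx = true := Option.some.inj (hb.1.2.2.2.symm.trans hq)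
      exact ⟨b', hb⟩
    · rintro ⟨b, ⟨hk, hx, hy, hq⟩, -⟩
      exact ⟨hk, hx, hy, hq⟩
  | qy =>
    obtain ⟨-, -, s3, -, -, -, -, -, -⟩ := sizes hL
    show S.Com (Λ.T v (loc h (2 * M L) 0) (At (2 * M L) 0 fun t => t.fin.qy = some true)) o'
    rw [← here_loc (L := L) (h := h) (show 2 * M L < H L by omega) hH]
    have hrow : res L ((-h).2 + h.2) = 0 := by simp [res]
    have l := rowY_link (o := v) hl (-h) h.2 hrow true (h.1 + (2 * M L : ℕ)) h.1
    rw [show loc h (2 * M L) 0 = (h.1 + ((2 * M L : ℕ) : ℤ), h.2) by ext <;> simp [loc]]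
    refine l.com ?_
    refine com_tile_union hp.ctx (ι := Bool) (fun b => Head b true) (fun t ht => ?_)
      fun b => com_head hL hl hM hp hh b true
    constructor
    · rintro ⟨he, hq⟩
      obtain ⟨bx, b', hb⟩ := head_of_exp hL ht (show Exp L (-h) h t from he)
      obtain rfl : b' = true := Option.some.inj (hb.2.2.2.2.symm.trans hq)
      exact ⟨bx, hb⟩
    · rintro ⟨b, -, hk, hx, hy, hq⟩
      exact ⟨(exp_self h t).2 ⟨hk, hx, hy⟩, hq⟩
  | bit k hk j =>
    show S.Com (Λ.bitObs v h k j) o'
    have hX : bitX L k < H L ∧ wireY L k < H L := by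
      obtain ⟨-, -, b3, b4⟩ := box_sizes hL
      obtain ⟨-, -, hb⟩ := Corner.bundle_bitX hL hk
      have hw : wireY L k ≤ cornerH L := Corner.wireY_le (show k ≤ lastK L + 1 by omega)
      omega
    have hU := ctx_box (Λ := Λ) hL hl hM v h
    have hlive := live_wireY hL hk
    have lk : S.Link (Λ.T v (loc h (bitX L k) (wireY L k))
        (Exp L (-h) (loc h (bitX L k) (wireY L k)))) (Λ.T v h (Exp L (-h) h)) :=
      (link_pos hL hl h hX.1 hX.2 (by simp [knownX, hlive])).trans
        (link_zero hL hl (-h) h (by simp [res])).symm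
    refine (lk.null_diff hU (Λ.area_sub (crossing_mem_box hL h hk))
      (Λ.area_sub (origin_mem_box h))).com_of_determined (ι := Bool × Bool)
      (fun b => Λ.headBit v h b.1 b.2 k j) hU (bit_sub hL v h hk j)
      (union_subset (Λ.area_sub (crossing_mem_box hL h hk)) (Λ.area_sub (origin_mem_box h)))
      (fun b => headBit_sub hL v h b.1 b.2 hk j) hp.ctx (fun a b ha hb na nb hab => ?_)
      fun b => com_headBit hL hl hM hp hB hh b.1 b.2 hk j
    have key : ∀ x : V → S.A, S.Admissible (Λ.areaU v (box L h)) x →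
        ((Λ.T v (loc h (bitX L k) (wireY L k)) (Exp L (-h) (loc h (bitX L k) (wireY L k)))).diff
          (Λ.T v h (Exp L (-h) h))).val x = false →
        ((Λ.bitObs v h k j).val x = true ↔ ∃ b : Bool × Bool,
          (Λ.headBit v h b.1 b.2 k j).val x = true) := by
      intro x hx hn
      simp only [headBit, Obs.and_val, Bool.and_eq_true]
      refine ⟨fun hv => ?_, fun ⟨_, _, hv⟩ => hv⟩
      obtain ⟨q, hq, hat⟩ := (Λ.win_val_iff _ _ x).1 hv
      have h1 : (Λ.T v (loc h (bitX L k) (wireY L k))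
          (Exp L (-h) (loc h (bitX L k) (wireY L k)))).val x = true :=
        (win_val_some Λ hq).2 ((exp_loc hX.1 hX.2 _).2 ⟨hat.1, hat.2.1, hat.2.2.1⟩)
      rw [Obs.diff_val, h1, Bool.true_and, Bool.not_eq_false'] at hn
      obtain ⟨q', hq', he⟩ := (Λ.win_val_iff _ _ x).1 hn
      have hadm : S.Admissible (Λ.area (Λ.cell v h)) x := fun u hu =>
        hx u fun p => Λ.area_sub (origin_mem_box h) (hu p)
      obtain ⟨bx, b', hb⟩ := head_of_exp hL (tileRules (Λ.valid _ x q' hadm hq') 0) he
      exact ⟨(bx, b'), (win_val_some Λ hq').2 hb, hv⟩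
    rw [Bool.eq_iff_iff, key a ha na, key b hb nb]
    simp only [hab]

/-- The row carrying the horizontal half. -/
lemma com_qx {i : V} (hi : Small 2 i) : S.Com (Λ.T v i (QX L)) o' := by
  obtain ⟨a, r⟩ := i
  obtain ⟨i1, i2⟩ := hi
  obtain ⟨-, hq⟩ := rowQY_lt hL
  set k : ℤ := r - (rowQY L : ℕ) with hk
  have hU : S.Context (Λ.areaU v (colSet L a k)) :=
    (ctx_twoCols (o := v) hL hl hM a k).mono (Λ.areaU_mono v fun i hi => by
      simp only [colSet, twoCols, Finset.mem_Icc, Prod.le_def] at hi ⊢; omega)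
  have colA : ∀ m : ℕ, m ≤ rowQY L → (a, k + (m : ℤ)) ∈ colSet L a k :=
    fun m hm => (slice_mem hm).1
  have e : (a, k + ((rowQY L : ℕ) : ℤ)) = ((a, r) : V) := by simp [hk]
  refine (link_cell hl (invariant hL hl v) hU (e ▸ colA _ le_rfl) (QX L)).com ?_
  refine com_patch hl (invariant hL hl v) hU hp.ctx (ι := Fin (H L))
    (fun x => Slice L ((x : ℤ) - a, -k) a k true) (fun c hc hQ => ?_) (fun c hc x hs => ?_)
    fun x => ?_
  · obtain ⟨hy, hh⟩ := hQ
    rw [← e] at hy hh
    have h0 := col_foot hq hc colA hy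
    have ht := hc.tile _ (by simpa using colA 0 (Nat.zero_le _))
    refine ⟨⟨_, ht.bd.x_lt⟩, ⟨ht.p.y0_xk (claim_y0.2 h0), ?_, ?_⟩, hh⟩
    · simp only [sub_add_cancel]
      exact (res_cast ht.bd.x_lt).symm
    · simp [h0, res]
  · obtain ⟨⟨-, -, hy⟩, hh⟩ := hs
    have h0 : (c (a, k)).y = 0 := by simpa [res] using hy
    refine ⟨?_, ?_⟩
    · rw [← e]; exact col_y hc h0 hq colA
    · rw [← e]; exact hh
  · set g : V := ((x : ℤ) - a, -k) with hg
    have hx := x.2
    have seg : S.Link (Λ.obsP v (colSet L a k) (Slice L g a k true))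
        (Λ.obsP v (colSet L (a - (x : ℕ)) k) (Slice L g (a - (x : ℕ)) k true)) :=
      link_seg (fun a => Λ.obsP v (colSet L a k) (Slice L g a k true))
        (fun a => (ctx_twoCols (o := v) hL hl hM a k).mono (Λ.areaU_mono v fun i hi => by
          simp only [colSet, twoCols, Finset.mem_Icc, Prod.le_def] at hi ⊢; omega))
        (by omega) fun a' h1 h2 => by
        have := slice_step (o := v) hL hl hM g a' k (by simp [hg, res]) true
        rwa [if_neg (res_ne (show 0 < g.1 + a' by simp [hg]; omega)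
          (by simp [hg]; omega))] at this
    refine (seg.trans (slice_head hL hl hM g _ k (by simp [hg, res]) (by simp [hg, res])
      true).symm).com ?_
    refine com_tile_union hp.ctx (ι := Bool) (fun b => Head true b) (fun t ht => ?_)
      fun b => com_head hL hl hM hp ⟨?_, ?_⟩ true b
    · constructor
      · rintro ⟨h1, h2, h3, h4⟩
        obtain ⟨bx, b', hb⟩ := head_of_exp hL (h := (0 : V)) ht ((exp_self _ t).2 ⟨h1, h2, h3⟩)
        obtain rfl : bx = true := Option.some.inj (hb.1.2.2.2.symm.trans h4)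
        exact ⟨b', hb⟩
      · rintro ⟨b, hb, -⟩
        exact hb
    · have := eight_lt_M hL; simp at i1 ⊢; omega
    · simp [hk] at i2 ⊢; omega

/-- The row carrying the vertical half. -/
lemma com_qy (hB : BitStatement) {i : V} (hi : Small 2 i) : S.Com (Λ.T v i (QY L)) o' := by
  obtain ⟨a, r⟩ := i
  obtain ⟨i1, i2⟩ := hi
  obtain ⟨s1, -, s3, -, -, -, s6, s7, sk⟩ := sizes hL
  obtain ⟨w1, w2, -⟩ := sk _ (le_refl (lastK L))
  have hlive := live_wireY hL (le_refl (lastK L))
  have hgap : halfY L + 12 ≤ meetD L + wireY L (lastK L) := by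
    have h2 : M L ^ 2 * 3 ≤ lastK L * M L ^ 2 := by
      rw [Nat.mul_comm]; exact Nat.mul_le_mul_right _ (by unfold lastK A; omega)
    have := eight_lt_M hL
    have e1 : wireY L (lastK L) = M L + lastK L * M L ^ 2 := rfl
    have e2 : meetD L = H L / 2 - M L ^ 2 := rfl
    omega
  set rw' : ℤ := r - ((halfY L : ℕ) : ℤ) + ((wireY L (lastK L) : ℕ) : ℤ) with hrw
  set k0 : ℤ := r - ((halfY L : ℕ) : ℤ) with hk0
  let g : Fin (H L) → V := fun x => ((x : ℤ) - a, -k0)
  have exp_y : ∀ x, res L ((g x).2 + rw') = ((wireY L (lastK L) : ℕ) : ℤ) ∧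
      res L ((g x).2 + r) = ((halfY L : ℕ) : ℤ) := fun x => by
    constructor
    · rw [show (g x).2 + rw' = ((wireY L (lastK L) : ℕ) : ℤ) by simp [g, hrw]]
      exact res_cast (by omega)
    · rw [show (g x).2 + r = ((halfY L : ℕ) : ℤ) by simp only [g, hk0]; ring]
      exact res_cast s6
  let C : ℤ → Finset V := fun a' => {(a', rw'), (a', r)}
  have hC : ∀ a', S.Context (Λ.areaU v (C a')) := fun a' =>
    context_areaU hL hl hM v fun p hp' p' hp'' => by
      have := meetD_big hL
      simp only [C, Finset.mem_insert, Finset.mem_singleton] at hp' hp''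
      rcases hp' with rfl | rfl <;> rcases hp'' with rfl | rfl <;> simp [hrw] <;> omega
  have subw : ∀ a', Λ.area (Λ.cell v (a', rw')) ⊆ Λ.areaU v (C a') :=
    fun a' => Λ.area_sub (by simp [C])
  have subr : ∀ a', Λ.area (Λ.cell v (a', r)) ⊆ Λ.areaU v (C a') :=
    fun a' => Λ.area_sub (by simp [C])
  -- the halves on the middle row, with a position of the grid
  let E : ℤ → Fin (H L) → S.Obs := fun a' x =>
    (Λ.T v (a', rw') (Exp L (g x) (a', rw'))).and (Λ.T v (a', r) (QY L))
  have comE : ∀ x, S.Com (E a x) o' := fun x => by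
    have hx := x.2
    set a1 : ℤ := a - (x : ℕ) + ((2 * M L : ℕ) : ℤ) with ha1
    have hlv : ∀ a', S.Link (Λ.T v (a', rw') (Exp L (g x) (a', rw'))) (GridObs Λ v (g x)) :=
      fun a' => link_live hL hl (g x) (a', rw') (by simp only [(exp_y x).1, Int.toNat_natCast]; exact hlive)
    have l1 : S.Link (E a x) (E a1 x) :=
      link_inter ((hlv a).trans (hlv a1).symm) (link_qy_row hL hl a a1 r)
        ((hC a).mono (union_subset (subw a) (subr a)))
        ((hC a1).mono (union_subset (subw a1) (subr a1)))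
    have e1 : (g x).1 + a1 = ((2 * M L : ℕ) : ℤ) := by simp only [g, ha1]; ring
    have hb : BandAt L ((g x).1 + a1) := by
      rw [BandAt, e1, res_cast (show 2 * M L < H L by omega), Int.toNat_natCast]
      exact (band_le_iff hL).2 (by have := ChildRules.M_pos L; omega)
    have l2 : S.Link (E a1 x) ((Λ.T v (a1, r) (Exp L (g x) (a1, r))).and (Λ.T v (a1, r) (QY L))) :=
      link_inter ((link_band hl (g x) (a1, rw') hb).trans (link_band hl (g x) (a1, r) hb).symm)
        (Link.refl (Λ.area_ctx _)) ((hC a1).mono (union_subset (subw a1) (subr a1)))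
        ((Λ.area_ctx (Λ.cell v (a1, r))).mono (union_subset subset_rfl subset_rfl))
    set hh : V := (a - (x : ℕ), k0) with hhh
    have l3 : S.Link ((Λ.T v (a1, r) (Exp L (g x) (a1, r))).and (Λ.T v (a1, r) (QY L)))
        (Λ.T v (loc hh (2 * M L) (halfY L))
          (At (2 * M L) (halfY L) fun t => t.fin.qy = some true)) := by
      have e : loc hh (2 * M L) (halfY L) = (a1, r) := by ext <;> simp [loc, hhh, ha1, hk0]
      rw [e]
      refine link_same (Λ.area_ctx (Λ.cell v (a1, r))) (union_subset subset_rfl subset_rfl)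
        subset_rfl fun a' _ => ?_
      rw [Bool.eq_iff_iff, Obs.and_val, Bool.and_eq_true]
      unfold T
      simp only [win_val_iff, Exp, e1, res_cast (show 2 * M L < H L by omega), (exp_y x).2,
        Nat.cast_inj, At, QY]
      constructor
      · rintro ⟨⟨q, hq, h1, h2, h3⟩, q', hq', -, h4⟩
        rw [hq, Option.some.injEq] at hq'
        subst hq'
        exact ⟨q, hq, h1, h2, h3, h4⟩
      · rintro ⟨q, hq, h1, h2, h3, h4⟩
        exact ⟨⟨q, hq, h1, h2, h3⟩, q, hq, h3, h4⟩
    refine (l1.trans (l2.trans (l3.trans (line_qy hL hl hh le_rfl (Nat.zero_le _))))).com ?_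
    refine com_atom hL hl hM hp hB ⟨?_, ?_⟩ Atom.qy
    · simp [hhh] at i1 ⊢; omega
    · simp [hhh, hk0] at i2 ⊢; omega
  -- the middle row comes with one of these positions
  let Y : S.Obs := Λ.T v (a, rw') fun t => t.y = wireY L (lastK L)
  let G : Fin (H L) → S.Obs := fun x => Λ.T v (a, rw') (Exp L (g x) (a, rw'))
  let N : S.Obs :=
    { supp := Λ.area (Λ.cell v (a, rw'))
      val := fun z => decide (Y.val z = true ∧ ∀ x, (G x).val z = false)
      dep := fun z z' h => by simp only [Y.dep z z' h, fun x => (G x).dep z z' h] }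
  have hN : Null N := by
    refine link_of_fun (ι := Option (Fin (H L))) (fun m => m.elim Y G)
      (fun m => m.elim (Λ.T v (a, k0) fun t => t.y = 0) fun x =>
        Λ.T v (a, k0) (Exp L (g x) (a, k0)))
      (fun f => decide (f none = true ∧ ∀ x, f (some x) = false))
      (Λ.area_ctx (Λ.cell v (a, rw'))) (Λ.area_ctx (Λ.cell v (a, k0))) subset_rfl (by simp)
      (fun m => by cases m <;> exact subset_rfl) (fun m => by cases m <;> exact subset_rfl)
      (fun z _ => rfl) (fun z hz => ?_) (fun m => ?_)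
    · simp only [botObs_val, Option.elim]
      refine (decide_eq_false ?_).symm
      rintro ⟨hy, hall⟩
      obtain ⟨q, hq, hy⟩ := (Λ.win_val_iff _ _ z).1 hy
      have ht := tileRules (Λ.valid _ z q hz hq) 0
      refine Bool.false_ne_true ((hall ⟨_, ht.bd.x_lt⟩).symm.trans ((win_val_some Λ hq).2 ?_))
      refine ⟨ht.p.y0_xk (claim_y0.2 hy), ?_, ?_⟩
      · simp only [g, sub_add_cancel]
        exact (res_cast ht.bd.x_lt).symm
      · simp [g, hy, res]
    · cases m with
      | none =>
        have l := linkY (o := v) (L := L) hl (((wireY L (lastK L) : ℕ) : ℤ) - rw') (a, rw') (a, k0)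
        have e : ((wireY L (lastK L) : ℕ) : ℤ) - rw' + k0 = 0 := by simp [hrw, hk0]
        simp only [Option.elim, Y]
        rw [T_congr (P' := ExpY L (((wireY L (lastK L) : ℕ) : ℤ) - rw') rw') (a, rw') fun t => by
          simp [ExpY, res_cast (show wireY L (lastK L) < H L by omega)],
          T_congr (P' := ExpY L (((wireY L (lastK L) : ℕ) : ℤ) - rw') k0) (a, k0) fun t => by
          simp [ExpY, e, res]]
        exact l
      | some x =>
        simp only [Option.elim, G]
        exact (link_live hL hl (g x) (a, rw') (by simp only [(exp_y x).1, Int.toNat_natCast]; exact hlive)).trans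
          (link_zero hL hl (g x) (a, k0) (by simp [g, res])).symm
  have hD : Null ((Λ.T v (a, r) fun t => t.y = halfY L).diff Y) := by
    have l := linkY (o := v) (L := L) hl (((halfY L : ℕ) : ℤ) - r) (a, r) (a, rw')
    have e : ((halfY L : ℕ) : ℤ) - r + rw' = ((wireY L (lastK L) : ℕ) : ℤ) := by
      simp only [hrw, hk0]; ring
    rw [T_congr (P' := ExpY L (((halfY L : ℕ) : ℤ) - r) r) (a, r) fun t => by
      simp [ExpY, res_cast s6]]
    refine Link.null_diff ?_ (hC a) (subr a) (subw a)
    rw [show Y = Λ.T v (a, rw') (ExpY L (((halfY L : ℕ) : ℤ) - r) rw') from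
      T_congr _ fun t => by simp [ExpY, e, res_cast (show wireY L (lastK L) < H L by omega)]]
    exact l
  have hNQ : Null ((Λ.T v (a, r) (QY L)).diff
      ⟨Λ.area (Λ.cell v (a, rw')), fun z => decide (∃ x, (G x).val z = true),
        fun z z' h => by simp only [fun x => (G x).dep z z' h]⟩) := by
    refine null_of_le (ι := Bool)
      (fun b => if b then N else (Λ.T v (a, r) fun t => t.y = halfY L).diff Y) (hC a)
      (union_subset (subr a) (subw a))
      (fun b => by cases b; exacts [union_subset (subr a) (subw a), subw a])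
      (fun b => by cases b; exacts [hD, hN]) fun z _ hz => ?_
    rw [Obs.diff_val, Bool.and_eq_true, Bool.not_eq_true', decide_eq_false_iff_not,
      not_exists] at hz
    obtain ⟨q, hq, hy, -⟩ := (Λ.win_val_iff _ _ z).1 hz.1
    cases hY : Y.val z
    · refine ⟨false, ?_⟩
      simp only [Bool.false_eq_true, if_false, Obs.diff_val, hY, Bool.not_false, Bool.and_true]
      exact (win_val_some Λ hq).2 hy
    · exact ⟨true, decide_eq_true ⟨hY, fun x => Bool.eq_false_iff.2 (hz.2 x)⟩⟩
  refine hNQ.com_of_determined (E a) (hC a) (subr a) (union_subset (subr a) (subw a))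
    (fun x => union_subset (subw a) (subr a)) hp.ctx (fun z z' _ _ nz nz' hzz => ?_) comE
  have key : ∀ z : V → S.A, ((Λ.T v (a, r) (QY L)).diff
      ⟨Λ.area (Λ.cell v (a, rw')), fun z => decide (∃ x, (G x).val z = true),
        fun z z' h => by simp only [fun x => (G x).dep z z' h]⟩).val z = false →
      ((Λ.T v (a, r) (QY L)).val z = true ↔ ∃ x, (E a x).val z = true) := by
    intro z hz
    simp only [E, Obs.and_val, Bool.and_eq_true]
    refine ⟨fun hv => ?_, fun ⟨_, _, hv⟩ => hv⟩
    rw [Obs.diff_val, hv, Bool.true_and, Bool.not_eq_false', decide_eq_true_iff] at hz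
    obtain ⟨x, hx⟩ := hz
    exact ⟨x, hx, hv⟩
  rw [Bool.eq_iff_iff, key z nz, key z' nz']
  simp only [hzz]

/-- All tiles near `v`. -/
theorem com_tiles (hB : BitStatement) {i : V} (hi : Small 2 i) (P : St → Prop) :
    S.Com (Λ.T v i P) o' := by
  have hC : Closed Λ v (Λ.Ok v o') :=
    closed_ok hl (invariant hL hl v) hp.ctx fun i => com_top hL hl hM hp i
  refine decompStatement S L Λ hL hl v _ hC i (fun g R => ?_)
    (fun s => com_height hL hl hM hp i s) (com_qx hL hl hM hp hi) (com_qy hL hl hM hp hB hi) P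
  obtain ⟨⟨a1, a2⟩, ⟨a3, a4⟩, a5, a6⟩ := org_facts (L := L) g i
  obtain ⟨i1, i2⟩ := hi
  obtain ⟨m1, m2, -⟩ := meet_sizes hL
  have := meetD_big hL
  rw [here_eq (h := org L g i) a1 a2]
  refine reduceStatement S L Λ hL hl v _ hC _ i
    (frameOK_of hL hl _ fun a => com_atom hL hl hM hp hB ⟨?_, ?_⟩ a) ?_ R
  · omega
  · omega
  · simp only [InRange]; omega

end Virtual

end Vale.Agent.P196.Tile.Rigid
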