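import Vale.Agent.P196.Tile.Rigid.Grid

/-!
P196, module D (rigidity): the interface between the invariants of a virtual level, the reduction
of a tile to the data of one frame, and the meeting of two tiles.

A frame is the corner `h` of a quarter. Its data are the bits at the crossings and the halves at
the crossing of column `2M` and row `2M`. Everything is proved for an arbitrary family `C` of
events closed under derivation, so that it applies to commutation and to being readable in a
context.
-/

noncomputable section

namespace Vale.Agent.P196.Tile.Rigid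

open SFT Finset ChildRules

variable {S : SFT} {L : ℕ}

/-- The child without bits at the numbers of a state. -/
def shellOf (L : ℕ) (t : St) : St := child L (fun _ => false) (fun _ _ => false) t.x t.y

/-- What every tile of a lattice satisfies: a position is known exactly where it should be, and
then the counter, the row in use and the extent of the scanning and table columns are exact. -/
def Inv (L : ℕ) (t : St) : Prop :=
  (t.xk = false ∧ t.u = 0 ∧ t.fin.live = false ∧ t.fin.carry = none ∧ t.fin.eq = none ∧
      t.fin.look = none) ∨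
    (t.xk = true ∧ knownX L t.x t.y = true ∧ t.u = (shellOf L t).u ∧
      t.fin.live = (shellOf L t).fin.live ∧
      t.fin.carry.isSome = (shellOf L t).fin.carry.isSome ∧
      t.fin.eq.isSome = (shellOf L t).fin.eq.isSome ∧
      t.fin.look.isSome = (shellOf L t).fin.look.isSome)

/-- The tile is where the frame `h` puts it and has the property `P`. -/
def Here (L : ℕ) (h i : V) (P : St → Prop) (t : St) : Prop := Exp L (-h) i t ∧ P t

/-- The row carrying the horizontal half, with the half `true`. -/
def QX (L : ℕ) (t : St) : Prop := t.y = rowQY L ∧ t.fin.qx = some true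

/-- The row carrying the vertical half, with the half `true`. -/
def QY (L : ℕ) (t : St) : Prop := t.y = halfY L ∧ t.fin.qy = some true

/-- A family of events closed under derivation. -/
structure Closed (Λ : Virtual S L) (o : V) (C : V → (St → Prop) → Prop) : Prop where
  top : ∀ i, C i fun _ => True
  link : ∀ (i i' : V) (P P' : St → Prop), S.Link (Λ.T o i P) (Λ.T o i' P') → C i' P' → C i P
  step : ∀ {ι : Type} [Fintype ι] (i : V) (j : Fin 4) (P : St → Prop) (js : ι → Fin 4)
    (Ps : ι → St → Prop),
    (∀ q q', Valid L q → Valid L q' → (∀ k, Inv L (q k)) → (∀ k, Inv L (q' k)) →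
      (∀ m, Ps m (q (js m)) ↔ Ps m (q' (js m))) → (P (q j) ↔ P (q' j))) →
    (∀ m, C (i - dir (js m)) (Ps m)) → C (i - dir j) P

/-- The crossing of the bit `k` in the frame `h`. -/
def bitPos (L : ℕ) (h : V) (k : ℕ) : V := h + (((bitX L k : ℕ) : ℤ), ((wireY L k : ℕ) : ℤ))

/-- The crossing of the column and the row carrying the halves in the frame `h`. -/
def halfPos (L : ℕ) (h : V) : V := h + (((2 * M L : ℕ) : ℤ), ((rowQY L : ℕ) : ℤ))

/-- The data of the frame `h` belong to `C`. -/
structure FrameOK (L : ℕ) (C : V → (St → Prop) → Prop) (h : V) : Prop where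
  grid : C h (Exp L (-h) h)
  bit : ∀ k ≤ lastK L, ∀ j : Fin 4,
    C (bitPos L h k) (Here L h (bitPos L h k) fun t => t.fin.h j = true)
  qx : C (halfPos L h) (Here L h (halfPos L h) fun t => t.fin.qx = some true)
  qy : C (halfPos L h) (Here L h (halfPos L h) fun t => t.fin.qy = some true)

/-- The cells whose data are shown in the frame `h`: its quarter, and the parts of the quarters on
the left and below beyond the places where the bits of their neighbours end. -/
def InRange (L : ℕ) (h i : V) : Prop :=
  (cutX L : ℤ) - (H L : ℤ) < i.1 - h.1 ∧ i.1 - h.1 < (H L : ℤ) ∧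
    (halfY L : ℤ) - (H L : ℤ) < i.2 - h.2 ∧ i.2 - h.2 < (H L : ℤ)

/-- All grids belong to `C`. -/
def GridsOK (L : ℕ) (C : V → (St → Prop) → Prop) : Prop := ∀ g : V, C (-g) (Exp L g (-g))

/-- The distance within which tiles of one lattice commute. It is enough to join the row carrying
the vertical half to a wire row in use. -/
def meetD (L : ℕ) : ℕ := H L / 2 - M L ^ 2

/-- Tiles of one lattice within `meetD` commute. -/
def MeetStatement : Prop :=
  ∀ (S : SFT) (L : ℕ) (Λ : Virtual S L), L₀ ≤ L → Λ.Linked → ∀ o i i' : V,
    (i'.1 - i.1).natAbs ≤ meetD L → (i'.2 - i.2).natAbs ≤ meetD L →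
      ∀ P P' : St → Prop, S.Com (Λ.T o i P) (Λ.T o i' P')

/-- The invariant holds. -/
def InvStatement : Prop :=
  ∀ (S : SFT) (L : ℕ) (Λ : Virtual S L), L₀ ≤ L → Λ.Linked → ∀ o, Λ.Invariant o (Inv L)

/-- The data of a frame determine the tiles in its range. -/
def ReduceStatement : Prop :=
  ∀ (S : SFT) (L : ℕ) (Λ : Virtual S L), L₀ ≤ L → Λ.Linked → ∀ (o : V)
    (C : V → (St → Prop) → Prop), Closed Λ o C → ∀ h i : V, FrameOK L C h → InRange L h i →
      ∀ P, C i (Here L h i P)

/-- The horizontal half moves along its row. -/
def RowQStatement : Prop :=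
  ∀ (S : SFT) (L : ℕ) (Λ : Virtual S L), L₀ ≤ L → Λ.Linked → ∀ (o : V)
    (C : V → (St → Prop) → Prop), Closed Λ o C → GridsOK L C →
      ∀ a a' r : ℤ, C (a, r) (QX L) → C (a', r) (QX L)

/-- A tile is determined by its positioned data, its row, and the halves carried on rows. -/
def DecompStatement : Prop :=
  ∀ (S : SFT) (L : ℕ) (Λ : Virtual S L), L₀ ≤ L → Λ.Linked → ∀ (o : V)
    (C : V → (St → Prop) → Prop), Closed Λ o C → ∀ i : V,
      (∀ (g : V) (P : St → Prop), C i fun t => Exp L g i t ∧ P t) → (∀ s, C i fun t => t.y = s) →
      C i (QX L) → C i (QY L) → ∀ P, C i P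

/-- Commutation with a fixed event is closed. -/
lemma closed_ok {Λ : Virtual S L} (hl : Λ.Linked) {o : V} (hI : Λ.Invariant o (Inv L))
    {o' : S.Obs} (ho' : S.Context o'.supp) (htop : ∀ i, Λ.Ok o o' i fun _ => True) :
    Closed Λ o (Λ.Ok o o') where
  top := htop
  link _ _ _ _ h h' := Virtual.Ok.of_link h h'
  step i j P js Ps h hm := Virtual.Ok.step hl hI ho' i j P js Ps h (htop i) hm

end Vale.Agent.P196.Tile.Rigid
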