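import Vale.Agent.P196.Tile.Rigid.MoreFacts
import Vale.Agent.P196.Tile.Facts.Coords
import Vale.Agent.P196.Tile.Desub.Corner

/-!
P196, module D (rigidity): the rules of a valid window as rules of pairs of neighbouring tiles, and
the meaning of the claims of a tile as properties of its numbers.
-/

namespace Vale.Agent.P196.Tile.Rigid

open ChildRules

/-- The bounds of a state. -/
structure Bd (L : ℕ) (t : St) : Prop where
  x_lt : t.x < H L
  y_lt : t.y < H L
  u_lt : t.u < M L
  x_zero : t.xk = false → t.x = 0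

/-- The rules of a single tile of a valid window. -/
structure TileRules (L : ℕ) (t : St) : Prop where
  bd : Bd L t
  p : PFacts (cell L t)
  live_xk : t.fin.live = true → t.xk = true
  v_table : (claims L t).zone = true → t.fin.v = table (lo L t.x)

/-- The rules of a tile and the tile below it. -/
structure VRules (L : ℕ) (t d : St) : Prop where
  top : TileRules L t
  bot : TileRules L d
  num : VertNum L t d
  cnt : CounterNum L t d
  f : VFacts (cell L t) (cell L d)
  r : RV (cell L t) (cell L d)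

/-- The rules of a tile and the tile on its left. -/
structure HRules (L : ℕ) (t l : St) : Prop where
  right : TileRules L t
  left : TileRules L l
  num : HorNum L t l
  f : HFacts (cell L t) (cell L l)
  r : RH (cell L t) (cell L l)

variable {L : ℕ}

lemma tileRules {q : Quad4 St} (h : Valid L q) (j : Fin 4) : TileRules L (q j) := by
  obtain ⟨⟨hb, -, -, -, -, -, -, hs, -⟩, ht⟩ := h
  exact ⟨⟨(hb j).1, (hb j).2.1, (hb j).2.2.1, (hb j).2.2.2⟩, (shape_facts hs).p j,
    (shape_rfacts hs).live_xk j, ht j⟩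

/-- The vertical pairs of a valid window. -/
lemma vRules {q : Quad4 St} (h : Valid L q) : VRules L (q 0) (q 2) ∧ VRules L (q 1) (q 3) := by
  have hj := tileRules h
  obtain ⟨⟨-, hv0, hv1, -, -, hc0, hc1, hs, -⟩, -⟩ := h
  exact ⟨⟨hj 0, hj 2, hv0, hc0, (shape_facts hs).v₀, (shape_rfacts hs).v₀⟩,
    ⟨hj 1, hj 3, hv1, hc1, (shape_facts hs).v₁, (shape_rfacts hs).v₁⟩⟩

/-- The horizontal pairs of a valid window. -/
lemma hRules {q : Quad4 St} (h : Valid L q) : HRules L (q 0) (q 1) ∧ HRules L (q 2) (q 3) := by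
  have hj := tileRules h
  obtain ⟨⟨-, -, -, hn0, hn2, -, -, hs, -⟩, -⟩ := h
  exact ⟨⟨hj 0, hj 1, hn0, (shape_facts hs).h₀, (shape_rfacts hs).h₀⟩,
    ⟨hj 2, hj 3, hn2, (shape_facts hs).h₂, (shape_rfacts hs).h₂⟩⟩

/-! ### Numbers -/

/-- The band columns. -/
def IsBand (L x : ℕ) : Prop := hi L x = 0 ∧ mid L x ≤ 7

/-- The height of the row carrying the horizontal half. -/
def rowQY (L : ℕ) : ℕ := 2 * M L

/-- The height of the wire row `k`. -/
def wireY (L k : ℕ) : ℕ := M L + k * M L ^ 2

/-- The column of the bit `k`. -/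
def bitX (L k : ℕ) : ℕ := M L + 2 * k

lemma band_le_iff {x : ℕ} (hL : L₀ ≤ L) : IsBand L x ↔ x < 8 * M L := by
  have hM := eight_lt_M hL
  have h1 := coord_eq L x
  have h2 : lo L x < M L := Nat.mod_lt _ (M_pos L)
  constructor
  · rintro ⟨a, b⟩
    rw [a] at h1
    have : M L * mid L x ≤ M L * 7 := Nat.mul_le_mul_left _ b
    omega
  · intro h
    have h3 : x < M L ^ 2 := lt_of_lt_of_le h (by rw [sq]; exact Nat.mul_le_mul_right _ (by omega))
    refine ⟨Nat.div_eq_of_lt h3, ?_⟩
    have h4 : x / M L < 8 := (Nat.div_lt_iff_lt_mul (M_pos L)).2 (by omega)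
    exact le_trans (Nat.mod_le _ _) (by omega)

lemma wire_iff {y : ℕ} (hL : L₀ ≤ L) : IsWire L y ↔ y = wireY L (hi L y) := by
  have hM := eight_lt_M hL
  constructor
  · intro h
    have h1 := coord_eq L y
    rw [h.1, h.2, mul_one, add_zero] at h1
    unfold wireY
    rw [Nat.mul_comm]
    omega
  · intro h
    obtain ⟨-, e2, e3⟩ := coord_of (L := L) (a := hi L y) (c := 1) (e := 0) (by omega) (M_pos L)
    rw [show M L ^ 2 * hi L y + M L * 1 + 0 = y by
      rw [wireY, Nat.mul_comm] at h; omega] at e2 e3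
    exact ⟨e3, e2⟩

lemma wireY_facts (hL : L₀ ≤ L) (k : ℕ) :
    hi L (wireY L k) = k ∧ IsWire L (wireY L k) := by
  obtain ⟨e1, e2, e3⟩ := coord_of (L := L) (a := k) (c := 1) (e := 0)
    (by have := eight_lt_M hL; omega) (M_pos L)
  rw [show M L ^ 2 * k + M L * 1 + 0 = wireY L k by unfold wireY; ring] at e1 e2 e3
  exact ⟨e1, e3, e2⟩

lemma rowQ_iff {y : ℕ} (hL : L₀ ≤ L) :
    lo L y = 0 ∧ mid L y = 2 ∧ hi L y = 0 ↔ y = rowQY L := by
  have hM := eight_lt_M hL
  have h := col0_iff (L := L) (x := y) (m := 2) (by omega)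
  rw [show M L * 2 = rowQY L by unfold rowQY; ring] at h
  rw [← h]
  unfold IsCol
  tauto

/-! ### The claims of a tile -/

section Claims

variable {t : St} (hL : L₀ ≤ L) (hb : Bd L t)

lemma claim_y0 : (claims L t).isY0 = true ↔ t.y = 0 := isY0_iff L t

lemma claim_wire : (claims L t).isWire = true ↔ IsWire L t.y := by
  simp only [Claims.isWire, Bool.and_eq_true, decide_eq_true_iff, IsWire]
  simp only [claims, decide_eq_true_iff]
  refine and_congr Iff.rfl ?_
  constructor <;> intro h <;> omega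

lemma claim_yhC : (claims L t).cy.yhC.val = min (hi L t.y) YB := rfl

lemma claim_yhMod : (claims L t).cy.yhMod.val = hi L t.y % 8 := rfl

lemma claim_col {m : ℕ} (hm : m ≤ 7) :
    ((claims L t).xk && (claims L t).cx.xh0 && (claims L t).cx.xl0 &&
      decide ((claims L t).cx.xmC.val = m)) = true ↔
      t.xk = true ∧ IsCol L t.x m ∧ lo L t.x = 0 := by
  simp only [Bool.and_eq_true, decide_eq_true_iff]
  simp only [claims, decide_eq_true_iff, IsCol]
  constructor
  · rintro ⟨⟨⟨a, b⟩, c⟩, d⟩
    exact ⟨a, ⟨b, by omega⟩, c⟩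
  · rintro ⟨a, ⟨b, d⟩, c⟩
    exact ⟨⟨⟨a, b⟩, c⟩, by omega⟩

include hL

lemma claim_colM {m : ℕ} (hm : m ≤ 7) :
    ((claims L t).xk && (claims L t).cx.xh0 && (claims L t).cx.xl0 &&
      decide ((claims L t).cx.xmC.val = m)) = true ↔
      t.xk = true ∧ t.x = M L * m := by
  rw [claim_col hm, col0_iff (by have := eight_lt_M hL; omega)]

lemma claim_x0 : (claims L t).x0 = true ↔ t.xk = true ∧ t.x = 0 := by
  rw [Claims.x0, claim_colM hL (by norm_num), mul_zero]

lemma claim_cut : (claims L t).cut = true ↔ t.xk = true ∧ t.x = cutX L := by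
  rw [Claims.cut, claim_colM hL (by norm_num), cutX, Nat.mul_comm]

lemma claim_colQ : (claims L t).colQ = true ↔ t.xk = true ∧ t.x = 2 * M L := by
  rw [Claims.colQ, claim_colM hL (by norm_num), Nat.mul_comm]

lemma claim_scan : (claims L t).isScan = true ↔ t.xk = true ∧ t.x = 3 * M L := by
  rw [Claims.isScan, claim_colM hL (by norm_num), Nat.mul_comm]

omit hL

lemma claim_halfRow : (claims L t).halfRow = true ↔ IsHalfRow L t.y := by
  simp only [Claims.halfRow, Bool.and_eq_true, decide_eq_true_iff, IsHalfRow, and_assoc]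
  simp only [claims, decide_eq_true_iff]
  refine and_congr Iff.rfl (and_congr ?_ Iff.rfl)
  constructor <;> intro h <;> omega

include hL

lemma claim_halfY : (claims L t).halfRow = true ↔ t.y = halfY L := by
  rw [claim_halfRow, halfRow_iff hL]

lemma claim_rowQ : (claims L t).rowQ = true ↔ t.y = rowQY L := by
  rw [← rowQ_iff hL]
  simp only [Claims.rowQ, Bool.and_eq_true, decide_eq_true_iff, and_assoc]
  simp only [claims, decide_eq_true_iff]
  have h : (0 : ℕ) < YB := by unfold YB; omega
  refine and_congr Iff.rfl (and_congr ?_ ?_) <;> constructor <;> intro h' <;> omega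

omit hL

lemma claim_band : (claims L t).band = true ↔ IsBand L t.x := by
  simp only [Claims.band, Bool.and_eq_true, decide_eq_true_iff, IsBand]
  simp only [claims, decide_eq_true_iff]
  refine and_congr Iff.rfl ?_
  constructor <;> intro h <;> omega

lemma claim_bundle : (claims L t).bundle = true ↔ t.xk = true ∧ IsBundle L t.x := by
  simp only [Claims.bundle, IsBundle, IsCol, Bool.and_eq_true, decide_eq_true_iff]
  simp only [claims, decide_eq_true_iff]
  constructor
  · rintro ⟨⟨⟨a, b⟩, c⟩, d⟩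
    exact ⟨a, ⟨b, by omega⟩, c⟩
  · rintro ⟨a, ⟨b, d⟩, c⟩
    exact ⟨⟨⟨a, b⟩, c⟩, by omega⟩

lemma claim_diag : (claims L t).cm.diag = true ↔ lo L t.x = 2 * hi L t.y := by
  simp only [claims, decide_eq_true_iff]

end Claims

end Vale.Agent.P196.Tile.Rigid
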