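import Vale.Agent.P196.Tile.Rigid.Tiles
import Vale.Agent.P196.Tile.Rigid.Rules

/-!
P196, module D (rigidity): linked events along lines, and the grid of parents as one event.

`Exp g i` says that the tile at the cell `i` knows its position and is where the grid `g` puts it.
On the row `0` and in the band this is one event for all cells.
-/

noncomputable section

namespace Vale.Agent.P196.Tile.Rigid

open SFT Finset ChildRules
open scoped Classical

variable {S : SFT} {L : ℕ} {Λ : Virtual S L}

/-! ### Lines -/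

/-- Events linked at each step of a segment are linked at its ends. -/
lemma link_seg (F : ℤ → S.Obs) (hc : ∀ k, S.Context (F k).supp) {a b : ℤ}
    (hab : a ≤ b) (h : ∀ k, a < k → k ≤ b → S.Link (F k) (F (k - 1))) : S.Link (F b) (F a) := by
  obtain ⟨n, hn⟩ := Int.eq_ofNat_of_zero_le (sub_nonneg.2 hab)
  obtain rfl : b = a + n := by omega
  induction n with
  | zero => simpa using Link.refl (hc a)
  | succ n ih =>
    have h1 := h (a + (n + 1 : ℕ)) (by omega) le_rfl
    rw [show a + ((n + 1 : ℕ) : ℤ) - 1 = a + n by omega] at h1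
    exact h1.trans (ih (by omega) (fun k hk hk' => h k hk (by omega)) (by omega))

/-- Events linked at each step of a line are one event. -/
lemma link_line (F : ℤ → S.Obs) (hc : ∀ k, S.Context (F k).supp)
    (h : ∀ k, S.Link (F k) (F (k - 1))) (a b : ℤ) : S.Link (F a) (F b) := by
  rcases le_total a b with hab | hab
  · exact (link_seg F hc hab fun k _ _ => h k).symm
  · exact link_seg F hc hab fun k _ _ => h k

namespace Virtual

variable {o : V}

/-- Two linked pairs give linked intersections. -/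
lemma link_and {i i' : V} {P P' Q Q' : St → Prop} (h : S.Link (Λ.T o i P) (Λ.T o i' P'))
    (h' : S.Link (Λ.T o i Q) (Λ.T o i' Q')) :
    S.Link (Λ.T o i fun t => P t ∧ Q t) (Λ.T o i' fun t => P' t ∧ Q' t) := by
  have key : ∀ (i : V) (P Q : St → Prop) (a : V → S.A), (Λ.T o i fun t => P t ∧ Q t).val a =
      ((Λ.T o i P).val a && (Λ.T o i Q).val a) := by
    intro i P Q a
    rw [Bool.eq_iff_iff, Bool.and_eq_true]
    unfold T
    simp only [win_val_iff]
    constructor
    · rintro ⟨q, hq, hP, hQ⟩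
      exact ⟨⟨q, hq, hP⟩, q, hq, hQ⟩
    · rintro ⟨⟨q, hq, hP⟩, q', hq', hQ⟩
      rw [hq] at hq'
      exact ⟨q, hq, hP, Option.some.inj hq' ▸ hQ⟩
  exact link_of_fun (ι := Bool) (fun b => if b then Λ.T o i P else Λ.T o i Q)
    (fun b => if b then Λ.T o i' P' else Λ.T o i' Q') (fun g => g true && g false)
    (Λ.area_ctx _) (Λ.area_ctx _) subset_rfl subset_rfl
    (fun b => by cases b <;> exact subset_rfl) (fun b => by cases b <;> exact subset_rfl)
    (fun a _ => key i P Q a) (fun a _ => key i' P' Q' a)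
    (fun b => by cases b; exacts [h', h])

/-- An equivalence on valid windows links vertical neighbours. -/
lemma link_vert {Inv : St → Prop} (hl : Λ.Linked) (hI : Λ.Invariant o Inv) (a k : ℤ)
    (P P' : St → Prop) (h : ∀ t d, VRules L t d → Inv t → Inv d → (P t ↔ P' d)) :
    S.Link (Λ.T o (a, k) P) (Λ.T o (a, k - 1) P') := by
  have := link_step hl hI (a, k) 0 2 P P' fun q hq hi => h _ _ (vRules hq).1 (hi 0) (hi 2)
  simpa [dir] using this

/-- An equivalence on valid windows links horizontal neighbours. -/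
lemma link_horiz {Inv : St → Prop} (hl : Λ.Linked) (hI : Λ.Invariant o Inv) (a k : ℤ)
    (P P' : St → Prop) (h : ∀ t l, HRules L t l → Inv t → Inv l → (P t ↔ P' l)) :
    S.Link (Λ.T o (a, k) P) (Λ.T o (a - 1, k) P') := by
  have := link_step hl hI (a, k) 0 1 P P' fun q hq hi => h _ _ (hRules hq).1 (hi 0) (hi 1)
  simpa [dir] using this

/-- All origins of a lattice are one event. -/
lemma origin_link (hl : Λ.Linked) (i i' : V) :
    S.Link (Λ.T o i fun _ => True) (Λ.T o i' fun _ => True) := by
  have h1 : ∀ a a' k, S.Link (Λ.T o (a, k) fun _ => True) (Λ.T o (a', k) fun _ => True) :=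
    fun a a' k => link_line (fun a => Λ.T o (a, k) fun _ => True) (fun _ => Λ.T_ctx _ _ _)
      (fun a => link_horiz hl (invariant_true o) a k _ _ fun _ _ _ _ _ => Iff.rfl) a a'
  have h2 : ∀ a k k', S.Link (Λ.T o (a, k) fun _ => True) (Λ.T o (a, k') fun _ => True) :=
    fun a k k' => link_line (fun k => Λ.T o (a, k) fun _ => True) (fun _ => Λ.T_ctx _ _ _)
      (fun k => link_vert hl (invariant_true o) a k _ _ fun _ _ _ _ _ => Iff.rfl) k k'
  exact (h1 i.1 i'.1 i.2).trans (h2 i'.1 i.2 i'.2)

/-- A tile that is an origin commutes with the events of its lattice. -/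
lemma ok_origin (hl : Λ.Linked) (i i' : V) (P : St → Prop) :
    Λ.Ok o (Λ.T o i' P) i fun _ => True :=
  (origin_link hl i i').com (com_tile o i' _ P)

end Virtual

/-! ### Shifts modulo the side of a quarter -/

/-- The coordinate expected at an offset. -/
def res (L : ℕ) (m : ℤ) : ℤ := m % (H L : ℤ)

lemma res_shift {L a b : ℕ} {m : ℤ} (ha : a < H L) (hb : b = (a + 1) % H L) :
    (b : ℤ) = res L (m + 1) ↔ (a : ℤ) = res L m := by
  have hH : (0 : ℤ) < H L := by exact_mod_cast (H_pos L)
  subst hb
  unfold res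
  push_cast
  have e1 : (a : ℤ) % (H L : ℤ) = a := Int.emod_eq_of_lt (by omega) (by omega)
  constructor
  · intro h
    have := Int.ModEq.add_right_cancel' (1 : ℤ) (show Int.ModEq (H L : ℤ) (a + 1) (m + 1) from h)
    rw [← e1]
    exact this
  · intro h
    rw [h, Int.emod_add_emod]

/-- The tile is where the grid puts it, and knows it. -/
def Exp (L : ℕ) (g i : V) (t : St) : Prop :=
  t.xk = true ∧ (t.x : ℤ) = res L (g.1 + i.1) ∧ (t.y : ℤ) = res L (g.2 + i.2)

/-- The tile is on the row where the grid puts it. -/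
def ExpY (L : ℕ) (c k : ℤ) (t : St) : Prop := (t.y : ℤ) = res L (c + k)

/-- The expected column is in the band. -/
def BandAt (L : ℕ) (m : ℤ) : Prop := IsBand L (res L m).toNat

lemma band_zero (hL : L₀ ≤ L) : IsBand L 0 :=
  (band_le_iff hL).2 (by have := eight_lt_M hL; omega)

namespace Virtual

variable {o : V}

/-- The vertical coordinate is one event. -/
lemma linkY (hl : Λ.Linked) (c : ℤ) (i i' : V) :
    S.Link (Λ.T o i (ExpY L c i.2)) (Λ.T o i' (ExpY L c i'.2)) := by
  have h1 : ∀ a a' k, S.Link (Λ.T o (a, k) (ExpY L c k)) (Λ.T o (a', k) (ExpY L c k)) :=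
    fun a a' k => link_line (fun a => Λ.T o (a, k) (ExpY L c k)) (fun _ => Λ.T_ctx _ _ _)
      (fun a => link_horiz hl (invariant_true o) a k _ _
        fun t l h _ _ => by unfold ExpY; rw [h.num.1]) a a'
  have h2 : ∀ a k k', S.Link (Λ.T o (a, k) (ExpY L c k)) (Λ.T o (a, k') (ExpY L c k')) :=
    fun a k k' => link_line (fun k => Λ.T o (a, k) (ExpY L c k)) (fun _ => Λ.T_ctx _ _ _)
      (fun k => link_vert hl (invariant_true o) a k _ _ fun t d h _ _ => by
        have := res_shift (m := c + (k - 1)) h.bot.bd.y_lt h.num.1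
        rwa [show c + (k - 1) + 1 = c + k by ring] at this) k k'
  exact (h1 i.1 i'.1 i.2).trans (h2 i'.1 i.2 i'.2)

/-- In a band column the grid is one event. -/
lemma link_col (hl : Λ.Linked) (g : V) (a : ℤ) (ha : BandAt L (g.1 + a)) (k k' : ℤ) :
    S.Link (Λ.T o (a, k) (Exp L g (a, k))) (Λ.T o (a, k') (Exp L g (a, k'))) := by
  refine link_line (fun k => Λ.T o (a, k) (Exp L g (a, k))) (fun _ => Λ.T_ctx _ _ _) (fun k => ?_)
    k k'
  refine link_vert hl (invariant_true o) a k _ _ fun t d h _ _ => ?_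
  have hy := res_shift (m := g.2 + (k - 1)) h.bot.bd.y_lt h.num.1
  rw [show g.2 + (k - 1) + 1 = g.2 + k by ring] at hy
  unfold Exp
  constructor
  · rintro ⟨hk, hx, hty⟩
    have hband : IsBand L t.x := by rwa [BandAt, ← hx, Int.toNat_natCast] at ha
    obtain ⟨hdk, -⟩ := h.r.band_down hk (claim_band.2 hband)
    exact ⟨hdk, by rw [← hx, h.num.2 hk hdk], hy.1 hty⟩
  · rintro ⟨hk, hx, hdy⟩
    have hband : IsBand L d.x := by rwa [BandAt, ← hx, Int.toNat_natCast] at ha
    have htk : t.xk = true := by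
      by_cases h0 : t.y = 0
      · exact h.top.p.y0_xk (claim_y0.2 h0)
      · refine (h.f.xk (Bool.eq_false_iff.2 fun hh => h0 (claim_y0.1 hh))).trans ?_
        have e1 : (claims L d).xk = true := hk
        have e2 : (claims L d).band = true := claim_band.2 hband
        simp [e1, e2]
    exact ⟨htk, by rw [← hx, h.num.2 htk hk], hy.2 hdy⟩

/-- On an expected row `0` the grid is one event. -/
lemma link_row0 (hl : Λ.Linked) (g : V) (k : ℤ) (hk : res L (g.2 + k) = 0) (a a' : ℤ) :
    S.Link (Λ.T o (a, k) (Exp L g (a, k))) (Λ.T o (a', k) (Exp L g (a', k))) := by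
  refine link_line (fun a => Λ.T o (a, k) (Exp L g (a, k))) (fun _ => Λ.T_ctx _ _ _) (fun a => ?_)
    a a'
  refine link_horiz hl (invariant_true o) a k _ _ fun t l h _ _ => ?_
  have hy := h.num.1
  unfold Exp
  constructor
  · rintro ⟨htk, hx, hty⟩
    have hlk : l.xk = true := h.left.p.y0_xk (claim_y0.2 (by
      have : (t.y : ℤ) = 0 := hty.trans hk
      omega))
    have hs := res_shift (m := g.1 + (a - 1)) h.left.bd.x_lt (h.num.2 htk hlk)
    rw [show g.1 + (a - 1) + 1 = g.1 + a by ring] at hs
    exact ⟨hlk, hs.1 hx, by rw [← hy]; exact hty⟩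
  · rintro ⟨hlk, hx, hly⟩
    have htk : t.xk = true := h.right.p.y0_xk (claim_y0.2 (by
      have : (l.y : ℤ) = 0 := hly.trans hk
      omega))
    have hs := res_shift (m := g.1 + (a - 1)) h.left.bd.x_lt (h.num.2 htk hlk)
    rw [show g.1 + (a - 1) + 1 = g.1 + a by ring] at hs
    exact ⟨htk, hs.2 hx, by rw [hy]; exact hly⟩

/-- The grid as an event at its origin. -/
def GridObs (Λ : Virtual S L) (o g : V) : S.Obs := Λ.T o (-g.1, -g.2) (Exp L g (-g.1, -g.2))

/-- In the band the grid is the event at its origin. -/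
lemma link_band (hl : Λ.Linked) (g i : V) (hb : BandAt L (g.1 + i.1)) :
    S.Link (Λ.T o i (Exp L g i)) (GridObs Λ o g) := by
  have h0 : res L (g.2 + -g.2) = 0 := by simp [res]
  exact (link_col hl g i.1 hb i.2 (-g.2)).trans (link_row0 hl g (-g.2) h0 i.1 (-g.1))

/-- On the row `0` the grid is the event at its origin. -/
lemma link_zero (hL : L₀ ≤ L) (hl : Λ.Linked) (g i : V) (hy : res L (g.2 + i.2) = 0) :
    S.Link (Λ.T o i (Exp L g i)) (GridObs Λ o g) := by
  have h0 : BandAt L (g.1 + -g.1) := by simp [BandAt, res, band_zero hL]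
  exact (link_row0 hl g i.2 hy i.1 (-g.1)).trans (link_col hl g (-g.1) h0 i.2 (-g.2))

end Virtual

end Vale.Agent.P196.Tile.Rigid
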