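import Vale.Agent.P196.Tile.Rigid.Inv
import Vale.Agent.P196.Tile.Rigid.Context

/-!
P196, module D (rigidity): the corners of the quarters of one lattice are one event, the halves
alternating.

The vertical half of a column `x = 0` and the horizontal half of a row `0` do not change along it.
The vertical half alternates through the column carrying it. The horizontal half alternates along
its row, seen through columns of height `2M` standing on a row `0`.
-/

noncomputable section

namespace Vale.Agent.P196.Tile.Rigid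

open SFT Finset
open scoped Classical

variable {S : SFT} {L : ℕ}

/-- The tile starts a quarter in the horizontal half `b`. -/
def HeadX (b : Bool) (t : St) : Prop := t.xk = true ∧ t.x = 0 ∧ t.y = 0 ∧ t.fin.qx = some b

/-- The tile starts a quarter in the vertical half `b`. -/
def HeadY (b : Bool) (t : St) : Prop := t.xk = true ∧ t.x = 0 ∧ t.y = 0 ∧ t.fin.qy = some b

/-- The tile starts a quarter in the halves `bx`, `by'`. -/
def Head (bx by' : Bool) (t : St) : Prop := HeadX bx t ∧ HeadY by' t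

/-! ### Semantic steps -/

lemma band_step {t d : St} (hv : VRules L t d) :
    (t.xk = true ∧ IsBand L t.x ↔ d.xk = true ∧ IsBand L d.x) ∧
      (t.xk = true ∧ IsBand L t.x → t.x = d.x) := by
  have down : t.xk = true ∧ IsBand L t.x → d.xk = true ∧ t.x = d.x := fun h => by
    obtain ⟨hd, -⟩ := hv.r.band_down h.1 (claim_band.2 h.2)
    exact ⟨hd, hv.num.2 h.1 hd⟩
  refine ⟨⟨fun h => ⟨(down h).1, (down h).2 ▸ h.2⟩, ?_⟩, fun h => (down h).2⟩
  rintro ⟨hk, hb⟩
  have htk : t.xk = true := by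
    by_cases h0 : t.y = 0
    · exact hv.top.p.y0_xk (claim_y0.2 h0)
    · refine (hv.f.xk (Bool.eq_false_iff.2 fun hh => h0 (claim_y0.1 hh))).trans ?_
      have e1 : (claims L d).xk = true := hk
      have e2 : (claims L d).band = true := claim_band.2 hb
      simp [e1, e2]
  exact ⟨htk, (hv.num.2 htk hk).symm ▸ hb⟩

section Column

variable {I : St → Prop} {C : Finset V} {c : V → St} {a k : ℤ}

/-- Heights along a column standing on a row `0`. -/
lemma col_y (hc : Patch L I C c) (h0 : (c (a, k)).y = 0) {n : ℕ} (hn : n < H L)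
    (hC : ∀ m : ℕ, m ≤ n → (a, k + m) ∈ C) : (c (a, k + n)).y = n := by
  induction n with
  | zero => simpa using h0
  | succ n ih =>
    have h1 := hC (n + 1) le_rfl
    have e : ((a, k + ((n + 1 : ℕ) : ℤ)) : V) - (0, 1) = (a, k + (n : ℤ)) := by
      ext <;> simp; omega
    have hv := hc.vert _ h1 (by rw [e]; exact hC n (by omega))
    rw [e] at hv
    rw [hv.num.1, ih (by omega) fun m hm => hC m (by omega), Nat.mod_eq_of_lt hn]

/-- The band along a column. -/
lemma col_inband (hc : Patch L I C c) (n : ℕ) (hC : ∀ m : ℕ, m ≤ n → (a, k + m) ∈ C) :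
    ((c (a, k + n)).xk = true ∧ IsBand L (c (a, k + n)).x ↔
        (c (a, k)).xk = true ∧ IsBand L (c (a, k)).x) ∧
      ((c (a, k + n)).xk = true ∧ IsBand L (c (a, k + n)).x →
        (c (a, k + n)).x = (c (a, k)).x) := by
  induction n with
  | zero => simp
  | succ n ih =>
    have h1 := hC (n + 1) le_rfl
    have e : ((a, k + ((n + 1 : ℕ) : ℤ)) : V) - (0, 1) = (a, k + (n : ℤ)) := by
      ext <;> simp; omega
    have hv := hc.vert _ h1 (by rw [e]; exact hC n (by omega))
    rw [e] at hv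
    obtain ⟨i1, i2⟩ := ih fun m hm => hC m (by omega)
    obtain ⟨s1, s2⟩ := band_step hv
    exact ⟨s1.trans i1, fun h => (s2 h).trans (i2 (s1.1 h))⟩

/-- The horizontal half along a column `x = 0`. -/
lemma col_qx (hL : L₀ ≤ L) (hc : Patch L I C c) (hk : (c (a, k)).xk = true)
    (hx : (c (a, k)).x = 0) (n : ℕ) (hC : ∀ m : ℕ, m ≤ n → (a, k + m) ∈ C) :
    (c (a, k + n)).fin.qx = (c (a, k)).fin.qx := by
  induction n with
  | zero => simp
  | succ n ih =>
    have h1 := hC (n + 1) le_rfl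
    have e : ((a, k + ((n + 1 : ℕ) : ℤ)) : V) - (0, 1) = (a, k + (n : ℤ)) := by
      ext <;> simp; omega
    have hv := hc.vert _ h1 (by rw [e]; exact hC n (by omega))
    rw [e] at hv
    obtain ⟨b1, b2⟩ := col_inband hc (n + 1) hC
    have hb : IsBand L (c (a, k)).x := hx ▸ band_zero hL
    have ht := b1.2 ⟨hk, hb⟩
    refine (hv.f.qx ?_).trans (ih fun m hm => hC m (by omega))
    rw [Bool.or_eq_true]
    exact Or.inl ((claim_x0 hL).2 ⟨ht.1, (b2 ht).trans hx⟩)

end Column

namespace Virtual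

variable {Λ : Virtual S L} {o : V}

/-- Properties of one tile that agree on valid windows. -/
lemma link_tile (hl : Λ.Linked) (i : V) {P P' : St → Prop}
    (h : ∀ q, Valid L q → (P (q 0) ↔ P' (q 0))) : S.Link (Λ.T o i P) (Λ.T o i P') := by
  have := link_step hl (invariant_true o) i 0 0 P P' fun q hq _ => h q hq
  rwa [show i - dir 0 = i by simp [dir]] at this

/-- The column of height `2M` at `a` on the row `k`. -/
def colSet (L : ℕ) (a k : ℤ) : Finset V := Finset.Icc (a, k) (a, k + (rowQY L : ℕ))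

/-- Two neighbouring columns of height `2M`. -/
def twoCols (L : ℕ) (a k : ℤ) : Finset V := Finset.Icc (a - 1, k) (a, k + (rowQY L : ℕ))

/-- The column `a` stands on the row `0` of the grid `g` and shows the half `b`. -/
def Slice (L : ℕ) (g : V) (a k : ℤ) (b : Bool) (c : V → St) : Prop :=
  Exp L g (a, k) (c (a, k)) ∧ (c (a, k + (rowQY L : ℕ))).fin.qx = some b

lemma rowQY_lt (hL : L₀ ≤ L) : rowQY L + 13 ≤ meetD L ∧ rowQY L < H L := by
  have hM := eight_lt_M hL
  have h4 : M L * 4 ≤ M L * M L := Nat.mul_le_mul_left _ (by omega)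
  have h5 : M L * M L * 8 ≤ M L * M L * M L := Nat.mul_le_mul_left _ (by omega)
  have hH : H L = M L * M L * M L := by unfold H; ring
  have hs : M L ^ 2 = M L * M L := sq _
  unfold meetD rowQY
  omega

lemma slice_mem {a k : ℤ} {n : ℕ} (hn : n ≤ rowQY L) :
    (a, k + (n : ℤ)) ∈ colSet L a k ∧ (a - 1, k + (n : ℤ)) ∈ twoCols L a k ∧
      (a, k + (n : ℤ)) ∈ twoCols L a k := by
  simp only [colSet, twoCols, Finset.mem_Icc, Prod.le_def]
  omega

lemma slice_local (g : V) (a k : ℤ) (b : Bool) : LocalOn (colSet L a k) (Slice L g a k b) := by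
  intro c c' h
  have h0 := h (a, k) (by simpa using (slice_mem (L := L) (a := a) (k := k) (Nat.zero_le _)).1)
  have h1 := h (a, k + (rowQY L : ℕ)) (slice_mem le_rfl).1
  unfold Slice
  rw [h0, h1]

lemma ctx_twoCols (hL : L₀ ≤ L) (hl : Λ.Linked) (hM : Meets Λ) (a k : ℤ) :
    S.Context (Λ.areaU o (twoCols L a k)) := by
  have hq := rowQY_lt hL
  refine context_areaU hL hl hM o fun i hi i' hi' => ?_
  simp only [twoCols, Finset.mem_Icc, Prod.le_def] at hi hi'
  have := meetD_big hL
  omega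

/-- Slices on neighbouring columns. -/
lemma slice_step (hL : L₀ ≤ L) (hl : Λ.Linked) (hM : Meets Λ) (g : V) (a k : ℤ)
    (hk : res L (g.2 + k) = 0) (b : Bool) :
    S.Link (Λ.obsP o (colSet L a k) (Slice L g a k (if res L (g.1 + a) = 0 then !b else b)))
      (Λ.obsP o (colSet L (a - 1) k) (Slice L g (a - 1) k b)) := by
  have sub : colSet L a k ⊆ twoCols L a k := fun i hi => by
    simp only [colSet, twoCols, Finset.mem_Icc, Prod.le_def] at hi ⊢; omega
  have sub' : colSet L (a - 1) k ⊆ twoCols L a k := fun i hi => by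
    simp only [colSet, twoCols, Finset.mem_Icc, Prod.le_def] at hi ⊢; omega
  have ne : ∀ a, (colSet L a k).Nonempty := fun a => ⟨_, (slice_mem (Nat.zero_le _)).1⟩
  refine link_common hl (Virtual.invariant hL hl o) (ctx_twoCols hL hl hM a k) sub sub' (ne _)
    (ne _) (slice_local _ _ _ _) (slice_local _ _ _ _) fun c hc => ?_
  have e0 : ((a, k) : V) - (1, 0) = (a - 1, k) := by ext <;> simp
  have e1 : ((a, k + (rowQY L : ℕ)) : V) - (1, 0) = (a - 1, k + (rowQY L : ℕ)) := by ext <;> simp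
  have m0 := slice_mem (L := L) (a := a) (k := k) (Nat.zero_le (rowQY L))
  have m1 := slice_mem (L := L) (a := a) (k := k) (le_refl (rowQY L))
  simp only [Nat.cast_zero, add_zero] at m0
  have hh := hc.horiz _ m0.2.2 (by rw [e0]; exact m0.2.1)
  have hq := hc.horiz _ m1.2.2 (by rw [e1]; exact m1.2.1)
  rw [e0] at hh
  rw [e1] at hq
  have colA : ∀ m : ℕ, m ≤ rowQY L → (a, k + (m : ℤ)) ∈ twoCols L a k :=
    fun m hm => (slice_mem hm).2.2
  -- the grid at the feet
  have hgrid : Exp L g (a, k) (c (a, k)) ↔ Exp L g (a - 1, k) (c (a - 1, k)) := by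
    unfold Exp
    constructor
    · rintro ⟨htk, hx, hty⟩
      have hlk : (c (a - 1, k)).xk = true := hh.left.p.y0_xk (claim_y0.2 (by
        have h1 : ((c (a, k)).y : ℤ) = 0 := hty.trans hk
        have := hh.num.1
        omega))
      have hs := res_shift (m := g.1 + (a - 1)) hh.left.bd.x_lt (hh.num.2 htk hlk)
      rw [show g.1 + (a - 1) + 1 = g.1 + a by ring] at hs
      exact ⟨hlk, hs.1 hx, by rw [← hh.num.1]; exact hty⟩
    · rintro ⟨hlk, hx, hly⟩
      have htk : (c (a, k)).xk = true := hh.right.p.y0_xk (claim_y0.2 (by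
        have h1 : ((c (a - 1, k)).y : ℤ) = 0 := hly.trans hk
        have := hh.num.1
        omega))
      have hs := res_shift (m := g.1 + (a - 1)) hh.left.bd.x_lt (hh.num.2 htk hlk)
      rw [show g.1 + (a - 1) + 1 = g.1 + a by ring] at hs
      exact ⟨htk, hs.2 hx, by rw [hh.num.1]; exact hly⟩
  -- the halves at the tops
  have htop : Exp L g (a, k) (c (a, k)) → (c (a, k + (rowQY L : ℕ))).fin.qx =
      if res L (g.1 + a) = 0 then (c (a - 1, k + (rowQY L : ℕ))).fin.qx.map (fun b => !b)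
      else (c (a - 1, k + (rowQY L : ℕ))).fin.qx := by
    rintro ⟨htk, hx, hty⟩
    have hy0 : (c (a, k)).y = 0 := by have h1 : ((c (a, k)).y : ℤ) = 0 := hty.trans hk; omega
    have hy := col_y hc hy0 (rowQY_lt hL).2 colA
    obtain ⟨b1, b2⟩ := col_inband hc (rowQY L) colA
    refine (hq.f.qx ((claim_rowQ hL).2 hy)).trans ?_
    by_cases hr : res L (g.1 + a) = 0
    · have h0 : (c (a, k)).x = 0 := by rw [hr] at hx; exact_mod_cast hx
      have ht := b1.2 ⟨htk, h0 ▸ band_zero hL⟩
      rw [if_pos hr, if_pos ((claim_x0 hL).2 ⟨ht.1, (b2 ht).trans h0⟩)]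
    · rw [if_neg hr, if_neg]
      intro hx0
      obtain ⟨tk, tx⟩ := (claim_x0 hL).1 hx0
      have hb := b2 ⟨tk, tx ▸ band_zero hL⟩
      rw [tx] at hb
      rw [← hb] at hx
      exact hr (by exact_mod_cast hx.symm)
  unfold Slice
  constructor
  · rintro ⟨hg, hv⟩
    refine ⟨hgrid.1 hg, ?_⟩
    rw [htop hg] at hv
    split_ifs at hv
    · cases e : (c (a - 1, k + (rowQY L : ℕ))).fin.qx with
      | none => simp [e] at hv
      | some v =>
        rw [e] at hv
        cases v <;> cases b <;> simp_all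
    · exact hv
  · rintro ⟨hg, hv⟩
    refine ⟨hgrid.2 hg, ?_⟩
    rw [htop (hgrid.2 hg), hv]
    split_ifs <;> rfl

/-- The foot of a slice on a column `x = 0`. -/
lemma slice_head (hL : L₀ ≤ L) (hl : Λ.Linked) (hM : Meets Λ) (g : V) (a k : ℤ)
    (ha : res L (g.1 + a) = 0) (hk : res L (g.2 + k) = 0) (b : Bool) :
    S.Link (Λ.T o (a, k) (HeadX b)) (Λ.obsP o (colSet L a k) (Slice L g a k b)) := by
  have hU : S.Context (Λ.areaU o (colSet L a k)) :=
    (ctx_twoCols (o := o) hL hl hM a k).mono (Λ.areaU_mono o fun i hi => by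
      simp only [colSet, twoCols, Finset.mem_Icc, Prod.le_def] at hi ⊢; omega)
  have colA : ∀ m : ℕ, m ≤ rowQY L → (a, k + (m : ℤ)) ∈ colSet L a k :=
    fun m hm => (slice_mem hm).1
  refine (link_cell hl (Virtual.invariant hL hl o) hU (by simpa using colA 0 (Nat.zero_le _))
    _).trans (link_patch hl (Virtual.invariant hL hl o) hU fun c hc => ?_)
  unfold Slice HeadX Exp
  simp only [ha, hk, Nat.cast_eq_zero]
  constructor
  · rintro ⟨h1, h2, h3, h4⟩
    exact ⟨⟨h1, h2, h3⟩, (col_qx hL hc h1 h2 _ colA).trans h4⟩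
  · rintro ⟨⟨h1, h2, h3⟩, h4⟩
    exact ⟨h1, h2, h3, (col_qx hL hc h1 h2 _ colA).symm.trans h4⟩

lemma res_H (m n : ℤ) : res L (-m + (m + (H L : ℤ) * n)) = 0 := by
  rw [show -m + (m + (H L : ℤ) * n) = (H L : ℤ) * n by ring]
  exact Int.mul_emod_right _ _

lemma res_ne {n : ℤ} (h1 : 0 < n) (h2 : n < H L) : res L n ≠ 0 := by
  unfold res
  rw [Int.emod_eq_of_lt h1.le h2]
  omega

/-- Horizontal halves alternate to the right. -/
lemma headX_right (hL : L₀ ≤ L) (hl : Λ.Linked) (hM : Meets Λ) (h : V) (b : Bool) :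
    S.Link (Λ.T o (h + ((H L : ℤ), 0)) (HeadX !b)) (Λ.T o h (HeadX b)) := by
  obtain ⟨a, k⟩ := h
  set g : V := (-a, -k) with hg
  have hk : res L (g.2 + k) = 0 := by simpa [hg] using res_H (L := L) k 0
  have hH : (0 : ℤ) < H L := by exact_mod_cast ChildRules.H_pos L
  have h1 : res L (g.1 + (a + (H L : ℤ))) = 0 := by simpa [hg] using res_H (L := L) a 1
  have h0 : res L (g.1 + a) = 0 := by simpa [hg] using res_H (L := L) a 0
  rw [show ((a, k) : V) + ((H L : ℤ), 0) = (a + (H L : ℤ), k) by ext <;> simp]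
  refine (slice_head hL hl hM g _ _ h1 hk _).trans (Link.trans ?_ (slice_head hL hl hM g a k h0 hk
    b).symm)
  have last := slice_step (o := o) hL hl hM g (a + (H L : ℤ)) k hk b
  rw [if_pos h1] at last
  refine last.trans ?_
  refine link_seg (fun a => Λ.obsP o (colSet L a k) (Slice L g a k b)) (fun a' => ?_) (by omega)
    fun a' ha1 ha2 => ?_
  · exact (ctx_twoCols (o := o) hL hl hM a' k).mono (Λ.areaU_mono o fun i hi => by
      simp only [colSet, twoCols, Finset.mem_Icc, Prod.le_def] at hi ⊢; omega)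
  · have := slice_step (o := o) hL hl hM g a' k hk b
    rwa [if_neg (res_ne (show 0 < g.1 + a' by simp [hg]; omega) (by simp [hg]; omega))] at this

/-- Horizontal halves are constant upwards. -/
lemma headX_up (hL : L₀ ≤ L) (hl : Λ.Linked) (h : V) (b : Bool) :
    S.Link (Λ.T o (h + (0, (H L : ℤ))) (HeadX b)) (Λ.T o h (HeadX b)) := by
  obtain ⟨a, k⟩ := h
  set g : V := (-a, -k)
  have h0 : res L (g.1 + a) = 0 := by simpa [g] using res_H (L := L) a 0
  have key : ∀ k', S.Link (Λ.T o (a, k') fun t => Exp L g (a, k') t ∧ t.fin.qx = some b)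
      (Λ.T o (a, k' - 1) fun t => Exp L g (a, k' - 1) t ∧ t.fin.qx = some b) := fun k' => by
    refine link_vert hl (invariant_true o) a k' _ _ fun t d hv _ _ => ?_
    obtain ⟨s1, s2⟩ := band_step hv
    have hy := res_shift (m := g.2 + (k' - 1)) hv.bot.bd.y_lt hv.num.1
    rw [show g.2 + (k' - 1) + 1 = g.2 + k' by ring] at hy
    unfold Exp
    simp only [h0, Nat.cast_eq_zero]
    constructor
    · rintro ⟨⟨htk, hx, hty⟩, hq⟩
      have hb : t.xk = true ∧ IsBand L t.x := ⟨htk, hx ▸ band_zero hL⟩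
      refine ⟨⟨(s1.1 hb).1, (s2 hb).symm.trans hx, hy.1 hty⟩, ?_⟩
      rw [← hq]
      exact (hv.f.qx (by rw [Bool.or_eq_true]; exact Or.inl ((claim_x0 hL).2 ⟨htk, hx⟩))).symm
    · rintro ⟨⟨hdk, hx, hdy⟩, hq⟩
      have hb := s1.2 ⟨hdk, hx ▸ band_zero hL⟩
      have hx' := (s2 hb).trans hx
      refine ⟨⟨hb.1, hx', hy.2 hdy⟩, ?_⟩
      rw [← hq]
      exact hv.f.qx (by rw [Bool.or_eq_true]; exact Or.inl ((claim_x0 hL).2 ⟨hb.1, hx'⟩))
  have conv : ∀ n : ℤ, S.Link (Λ.T o (a, k + (H L : ℤ) * n) (HeadX b))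
      (Λ.T o (a, k + (H L : ℤ) * n) fun t =>
        Exp L g (a, k + (H L : ℤ) * n) t ∧ t.fin.qx = some b) := fun n => by
    refine link_tile hl (a, k + (H L : ℤ) * n) fun q hq => ?_
    have hr : res L (g.2 + (k + (H L : ℤ) * n)) = 0 := res_H k n
    unfold HeadX Exp
    simp only [h0, hr, Nat.cast_eq_zero, and_assoc]
  have l := link_line (fun k' => Λ.T o (a, k') fun t => Exp L g (a, k') t ∧ t.fin.qx = some b)
    (fun _ => Λ.T_ctx _ _ _) key (k + (H L : ℤ) * 1) (k + (H L : ℤ) * 0)
  have e1 : ((a, k) : V) + (0, (H L : ℤ)) = (a, k + (H L : ℤ) * 1) := by ext <;> simp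
  rw [e1, show ((a, k) : V) = (a, k + (H L : ℤ) * 0) by simp]
  exact (conv 1).trans (l.trans (conv 0).symm)

/-- Vertical halves are constant to the right, together with the row. -/
lemma rowY_link (hl : Λ.Linked) (g : V) (k : ℤ) (hk : res L (g.2 + k) = 0) (b : Bool) (a a' : ℤ) :
    S.Link (Λ.T o (a, k) fun t => Exp L g (a, k) t ∧ t.fin.qy = some b)
      (Λ.T o (a', k) fun t => Exp L g (a', k) t ∧ t.fin.qy = some b) := by
  have yrow : ∀ a, S.Link (Λ.T o (a, k) fun t => t.y = 0 ∧ t.fin.qy = some b)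
      (Λ.T o (a - 1, k) fun t => t.y = 0 ∧ t.fin.qy = some b) := fun a =>
    link_horiz hl (invariant_true o) a k _ _ fun t l hh _ _ => by
      have hy := hh.num.1
      constructor
      · rintro ⟨h1, h2⟩
        refine ⟨by omega, ?_⟩
        rw [← h2]
        exact (hh.f.qy (by rw [Bool.or_eq_true]; exact Or.inl (claim_y0.2 h1))).symm
      · rintro ⟨h1, h2⟩
        refine ⟨by omega, ?_⟩
        rw [← h2]
        exact hh.f.qy (by rw [Bool.or_eq_true]; exact Or.inl (claim_y0.2 (show t.y = 0 by omega)))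
  have conv : ∀ a, S.Link (Λ.T o (a, k) fun t => Exp L g (a, k) t ∧ t.fin.qy = some b)
      (Λ.T o (a, k) fun t => Exp L g (a, k) t ∧ t.y = 0 ∧ t.fin.qy = some b) := fun a => by
    refine link_tile hl (a, k) fun q hq => ?_
    unfold Exp
    simp only [hk, Nat.cast_eq_zero]
    tauto
  exact (conv a).trans ((link_and (link_row0 hl g k hk a a')
    (link_line (fun a => Λ.T o (a, k) fun t => t.y = 0 ∧ t.fin.qy = some b)
      (fun _ => Λ.T_ctx _ _ _) yrow a a')).trans (conv a').symm)

/-- Vertical halves are constant to the right. -/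
lemma headY_right (hl : Λ.Linked) (h : V) (b : Bool) :
    S.Link (Λ.T o (h + ((H L : ℤ), 0)) (HeadY b)) (Λ.T o h (HeadY b)) := by
  obtain ⟨a, k⟩ := h
  set g : V := (-a, -k)
  have hk : res L (g.2 + k) = 0 := by simpa [g] using res_H (L := L) k 0
  have conv : ∀ n : ℤ, S.Link (Λ.T o (a + (H L : ℤ) * n, k) (HeadY b))
      (Λ.T o (a + (H L : ℤ) * n, k) fun t =>
        Exp L g (a + (H L : ℤ) * n, k) t ∧ t.fin.qy = some b) := fun n => by
    refine link_tile hl (a + (H L : ℤ) * n, k) fun q hq => ?_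
    have hr : res L (g.1 + (a + (H L : ℤ) * n)) = 0 := res_H a n
    unfold HeadY Exp
    simp only [hk, hr, Nat.cast_eq_zero, and_assoc]
  have e1 : ((a, k) : V) + ((H L : ℤ), 0) = (a + (H L : ℤ) * 1, k) := by ext <;> simp
  rw [e1, show ((a, k) : V) = (a + (H L : ℤ) * 0, k) by simp]
  exact (conv 1).trans ((rowY_link hl g k hk b _ _).trans (conv 0).symm)

/-- Vertical halves alternate upwards. -/
lemma headY_up (hL : L₀ ≤ L) (hl : Λ.Linked) (h : V) (b : Bool) :
    S.Link (Λ.T o (h + (0, (H L : ℤ))) (HeadY !b)) (Λ.T o h (HeadY b)) := by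
  obtain ⟨a, k⟩ := h
  set g : V := (-a, -k) with hg
  set q : ℤ := a + (2 * M L : ℕ) with hq
  have hM := eight_lt_M hL
  have hH : 8 * M L < H L := by
    have h4 : M L * 8 ≤ M L * M L := Nat.mul_le_mul_left _ (by omega)
    have h5 : M L * M L * 8 ≤ M L * M L * M L := Nat.mul_le_mul_left _ (by omega)
    have : H L = M L * M L * M L := by unfold H; ring
    omega
  have hx : res L (g.1 + q) = ((2 * M L : ℕ) : ℤ) := by
    rw [show g.1 + q = ((2 * M L : ℕ) : ℤ) by simp [hg, hq]]
    exact Int.emod_eq_of_lt (by omega) (by omega)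
  have hband : IsBand L (2 * M L) := (band_le_iff hL).2 (by omega)
  let Y : ℤ → Bool → S.Obs := fun k' b' =>
    Λ.T o (q, k') fun t => Exp L g (q, k') t ∧ t.fin.qy = some b'
  have step : ∀ k' b', S.Link (Y k' (if res L (g.2 + k') = 0 then !b' else b')) (Y (k' - 1) b') := by
    intro k' b'
    refine link_vert hl (invariant_true o) q k' _ _ fun t d hv _ _ => ?_
    obtain ⟨s1, s2⟩ := band_step hv
    have hy := res_shift (m := g.2 + (k' - 1)) hv.bot.bd.y_lt hv.num.1
    rw [show g.2 + (k' - 1) + 1 = g.2 + k' by ring] at hy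
    have hr : ∀ {x : ℕ}, (x : ℤ) = res L (g.1 + q) ↔ x = 2 * M L := by
      intro x; rw [hx]; exact_mod_cast Iff.rfl
    have flip : t.xk = true → t.x = 2 * M L → (t.y : ℤ) = res L (g.2 + k') →
        t.fin.qy = if res L (g.2 + k') = 0 then d.fin.qy.map (fun b => !b) else d.fin.qy := by
      intro htk htx hty
      refine (hv.f.qy ((claim_colQ hL).2 ⟨htk, htx⟩)).trans ?_
      refine if_congr ?_ rfl rfl
      rw [show (Tile.cell L t).2.isY0 = (claims L t).isY0 from rfl, claim_y0, ← hty]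
      exact_mod_cast Iff.rfl
    unfold Exp
    simp only [hr]
    constructor
    · rintro ⟨⟨htk, htx, hty⟩, hq'⟩
      have hb : t.xk = true ∧ IsBand L t.x := ⟨htk, htx ▸ hband⟩
      refine ⟨⟨(s1.1 hb).1, (s2 hb).symm.trans htx, hy.1 hty⟩, ?_⟩
      rw [flip htk htx hty] at hq'
      split_ifs at hq'
      · cases e : d.fin.qy with
        | none => simp [e] at hq'
        | some v => rw [e] at hq'; cases v <;> cases b' <;> simp_all
      · exact hq'
    · rintro ⟨⟨hdk, hdx, hdy⟩, hq'⟩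
      have hb := s1.2 ⟨hdk, hdx ▸ hband⟩
      have htx := (s2 hb).trans hdx
      refine ⟨⟨hb.1, htx, hy.2 hdy⟩, ?_⟩
      rw [flip hb.1 htx (hy.2 hdy), hq']
      split_ifs <;> rfl
  have h0 : res L (g.2 + k) = 0 := by simpa [hg] using res_H (L := L) k 0
  have h1 : res L (g.2 + (k + (H L : ℤ))) = 0 := by simpa [hg] using res_H (L := L) k 1
  have foot : ∀ k' b', res L (g.2 + k') = 0 → S.Link (Λ.T o (a, k') (HeadY b')) (Y k' b') := by
    intro k' b' hk'
    refine Link.trans ?_ (rowY_link hl g k' hk' b' a q)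
    refine link_tile hl (a, k') fun w hw => ?_
    have hr : res L (g.1 + a) = 0 := by simpa [hg] using res_H (L := L) a 0
    unfold HeadY Exp
    simp only [hk', hr, Nat.cast_eq_zero, and_assoc]
  rw [show ((a, k) : V) + (0, (H L : ℤ)) = (a, k + (H L : ℤ)) by ext <;> simp]
  refine (foot _ _ h1).trans (Link.trans ?_ (foot k b h0).symm)
  have last := step (k + (H L : ℤ)) b
  rw [if_pos h1] at last
  refine last.trans ?_
  refine link_seg (fun k' => Y k' b) (fun _ => Λ.T_ctx _ _ _) (by omega) fun k' ha1 ha2 => ?_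
  have := step k' b
  rwa [if_neg (res_ne (show 0 < g.2 + k' by simp [hg]; omega) (by simp [hg]; omega))] at this

/-- Corners to the right. -/
lemma head_right (hL : L₀ ≤ L) (hl : Λ.Linked) (hM : Meets Λ) (h : V) (bx by' : Bool) :
    S.Link (Λ.T o (h + ((H L : ℤ), 0)) (Head (!bx) by')) (Λ.T o h (Head bx by')) :=
  link_and (headX_right hL hl hM h bx) (headY_right hl h by')

/-- Corners upwards. -/
lemma head_up (hL : L₀ ≤ L) (hl : Λ.Linked) (h : V) (bx by' : Bool) :
    S.Link (Λ.T o (h + (0, (H L : ℤ))) (Head bx (!by'))) (Λ.T o h (Head bx by')) :=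
  link_and (headX_up hL hl h bx) (headY_up hL hl h by')

/-- The halves seen at a displacement by quarters. -/
def flipBy (b : Bool) (n : ℤ) : Bool := xor b (decide (n % 2 = 1))

lemma flipBy_succ (b : Bool) (n : ℤ) : flipBy b n = !flipBy b (n - 1) := by
  unfold flipBy
  by_cases h : n % 2 = 1
  · rw [decide_eq_true h, decide_eq_false (show ¬ (n - 1) % 2 = 1 by omega)]; simp
  · rw [decide_eq_false h, decide_eq_true (show (n - 1) % 2 = 1 by omega)]; simp

/-- The corners of all quarters of a lattice are one event. -/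
lemma head_lattice (hL : L₀ ≤ L) (hl : Λ.Linked) (hM : Meets Λ) (h : V) (bx by' : Bool) (m n : ℤ) :
    S.Link (Λ.T o (h + ((H L : ℤ) * m, (H L : ℤ) * n)) (Head (flipBy bx m) (flipBy by' n)))
      (Λ.T o h (Head bx by')) := by
  have lx : S.Link (Λ.T o (h + ((H L : ℤ) * m, 0)) (Head (flipBy bx m) by'))
      (Λ.T o h (Head bx by')) := by
    have l := link_line (fun m => Λ.T o (h + ((H L : ℤ) * m, 0)) (Head (flipBy bx m) by'))
      (fun _ => Λ.T_ctx _ _ _) (fun m => ?_) m 0
    · simpa [flipBy, Prod.mk_zero_zero] using l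
    · have := head_right (o := o) hL hl hM (h + ((H L : ℤ) * (m - 1), 0)) (flipBy bx (m - 1)) by'
      rwa [← flipBy_succ, show h + ((H L : ℤ) * (m - 1), 0) + ((H L : ℤ), 0) =
        h + ((H L : ℤ) * m, 0) by ext <;> simp; ring] at this
  refine Link.trans ?_ lx
  have l := link_line
    (fun n => Λ.T o (h + ((H L : ℤ) * m, (H L : ℤ) * n)) (Head (flipBy bx m) (flipBy by' n)))
    (fun _ => Λ.T_ctx _ _ _) (fun n => ?_) n 0
  · simpa [flipBy] using l
  · have := head_up (o := o) hL hl (h + ((H L : ℤ) * m, (H L : ℤ) * (n - 1))) (flipBy bx m)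
      (flipBy by' (n - 1))
    rwa [← flipBy_succ, show h + ((H L : ℤ) * m, (H L : ℤ) * (n - 1)) + (0, (H L : ℤ)) =
      h + ((H L : ℤ) * m, (H L : ℤ) * n) by ext <;> simp; ring] at this

end Virtual

end Vale.Agent.P196.Tile.Rigid
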