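import Vale.Agent.P196.Tile.Rigid.Frame

/-!
P196, module D (rigidity): tiles at known positions of one frame.

Positions are offsets from the corner of the frame. Where a position is known, being there is one
event with being there at the corner, so events at such cells are moved to neighbouring cells by
the rules of valid windows.
-/

noncomputable section

namespace Vale.Agent.P196.Tile.Rigid

open SFT Finset ChildRules
open scoped Classical

variable {S : SFT} {L : ℕ}

/-! ### Offsets -/

lemma res_pos {X : ℤ} (h0 : 0 ≤ X) (h1 : X < H L) : res L X = X := Int.emod_eq_of_lt h0 h1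

lemma res_neg {X : ℤ} (h0 : X < 0) (h1 : -(H L : ℤ) ≤ X) : res L X = X + H L := by
  unfold res
  rw [← Int.add_emod_right, Int.emod_eq_of_lt (by omega) (by omega)]

lemma res_nonneg (L : ℕ) (X : ℤ) : 0 ≤ res L X :=
  Int.emod_nonneg _ (by have := H_pos L; omega)

lemma res_lt (L : ℕ) (X : ℤ) : res L X < H L :=
  Int.emod_lt_of_pos _ (by have := H_pos L; omega)

/-- The sizes of a quarter. -/
lemma frame_sizes (hL : L₀ ≤ L) :
    8 * M L < halfY L ∧ halfY L + 1 < H L ∧ 8 * M L + 1 < H L ∧
      2 * lastK L + 2 < M L ∧ cutX L = 7 * M L ∧ rowQY L = 2 * M L ∧ 8 < M L := by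
  have hM := eight_lt_M hL
  have hk := lastK_bound hL
  have e : H L = M L * M L ^ 2 := by rw [H, ← pow_succ']
  have h2 : (M L / 2 + 1) * M L ^ 2 ≤ M L * M L ^ 2 := Nat.mul_le_mul_right _ (by omega)
  have h3 : 9 * M L ≤ M L ^ 2 := by rw [sq]; exact Nat.mul_le_mul_right _ (by omega)
  have h4 : 1 * M L ^ 2 ≤ M L / 2 * M L ^ 2 := Nat.mul_le_mul_right _ (by omega)
  rw [Nat.add_mul] at h2
  refine ⟨?_, ?_, ?_, by omega, rfl, rfl, by omega⟩
  · unfold halfY; omega
  · unfold halfY; omega
  · rw [e]; omega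

/-- The tile is at the offset `(X, Y)`, and knows it. -/
def E (L : ℕ) (X Y : ℤ) (t : St) : Prop :=
  t.xk = true ∧ (t.x : ℤ) = res L X ∧ (t.y : ℤ) = res L Y

/-- The cell at an offset. -/
def pt (h : V) (X Y : ℤ) : V := h + (X, Y)

lemma exp_pt (h : V) (X Y : ℤ) : Exp L (-h) (pt h X Y) = E L X Y := by
  funext t
  simp [Exp, E, pt]

/-- The offsets where the position is known. -/
def Known (L : ℕ) (X Y : ℤ) : Prop :=
  BandAt L X ∨ res L Y = 0 ∨ IsLive L (res L Y).toNat

lemma bandAt_iff (hL : L₀ ≤ L) (X : ℤ) : BandAt L X ↔ res L X < ((8 * M L : ℕ) : ℤ) := by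
  have := res_nonneg L X
  unfold BandAt
  rw [band_le_iff hL]
  omega

section Tiles

variable {X Y : ℤ} {t t' : St}

lemma E.x_nat (he : E L X Y t) : t.x = (res L X).toNat := by
  have := he.2.1; omega

lemma E.y_nat (he : E L X Y t) : t.y = (res L Y).toNat := by
  have := he.2.2; omega

/-- What the invariant says of a tile at a known position. -/
lemma E.exact (he : E L X Y t) (hi : Inv L t) : knownX L t.x t.y = true ∧
    t.u = (shellOf L t).u ∧ t.fin.live = (shellOf L t).fin.live ∧
    t.fin.carry.isSome = (shellOf L t).fin.carry.isSome ∧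
    t.fin.eq.isSome = (shellOf L t).fin.eq.isSome ∧
    t.fin.look.isSome = (shellOf L t).fin.look.isSome := by
  rcases hi with ⟨h, -⟩ | ⟨-, h⟩
  · exact absurd he.1 (by simp [h])
  · exact h

lemma E.live (he : E L X Y t) (hi : Inv L t) (hb : Bd L t) :
    t.fin.live = decide (IsLive L (res L Y).toNat) := by
  rw [(he.exact hi).2.2.1, ← he.y_nat]
  show decide (IsLive L (t.y % H L)) = _
  rw [Nat.mod_eq_of_lt hb.y_lt]

lemma E.known (he : E L X Y t) (hi : Inv L t) : Known L X Y := by
  have h := (he.exact hi).1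
  simp only [knownX, Bool.or_eq_true, Bool.and_eq_true, decide_eq_true_iff] at h
  rw [he.x_nat, he.y_nat] at h
  rcases h with (h | h) | h
  · exact Or.inr (Or.inl (by have := res_nonneg L Y; omega))
  · exact Or.inl h
  · exact Or.inr (Or.inr h)

/-- Two tiles at one known position have the same numbers. -/
lemma E.same (he : E L X Y t) (hi : Inv L t) (he' : E L X Y t') (hi' : Inv L t') :
    t.xk = t'.xk ∧ t.x = t'.x ∧ t.y = t'.y ∧ t.u = t'.u ∧ t.fin.live = t'.fin.live := by
  have hx : t.x = t'.x := he.x_nat.trans he'.x_nat.symm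
  have hy : t.y = t'.y := he.y_nat.trans he'.y_nat.symm
  have hs : shellOf L t = shellOf L t' := by unfold shellOf; rw [hx, hy]
  refine ⟨he.1.trans he'.1.symm, hx, hy, ?_, ?_⟩
  · rw [(he.exact hi).2.1, (he'.exact hi').2.1, hs]
  · rw [(he.exact hi).2.2.1, (he'.exact hi').2.2.1, hs]

lemma E.claims_same (he : E L X Y t) (hi : Inv L t) (he' : E L X Y t') (hi' : Inv L t') :
    claims L t = claims L t' := by
  obtain ⟨h1, h2, h3, h4, -⟩ := he.same hi he' hi'
  obtain ⟨k, x, y, u, f⟩ := t
  obtain ⟨k', x', y', u', f'⟩ := t'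
  cases h1
  cases h2
  cases h3
  cases h4
  rfl

/-- In a band column the position is known above exactly if it is known below. -/
lemma E_band (hb : BandAt L X) {d : St} (h : VRules L t d) :
    E L X Y t ↔ E L X (Y - 1) d := by
  have hy := res_shift (m := Y - 1) h.bot.bd.y_lt h.num.1
  rw [sub_add_cancel] at hy
  constructor
  · rintro ⟨hk, hx, hty⟩
    have hband : IsBand L t.x := by rwa [BandAt, ← hx, Int.toNat_natCast] at hb
    obtain ⟨hdk, -⟩ := h.r.band_down hk (claim_band.2 hband)
    exact ⟨hdk, by rw [← hx, h.num.2 hk hdk], hy.1 hty⟩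
  · rintro ⟨hk, hx, hdy⟩
    have hband : IsBand L d.x := by rwa [BandAt, ← hx, Int.toNat_natCast] at hb
    have htk : t.xk = true := by
      by_cases h0 : t.y = 0
      · exact h.top.p.y0_xk (claim_y0.2 h0)
      · refine (h.f.xk (Bool.eq_false_iff.2 fun hh => h0 (claim_y0.1 hh))).trans ?_
        have e1 : (claims L d).xk = true := hk
        have e2 : (claims L d).band = true := claim_band.2 hband
        simp [e1, e2]
    exact ⟨htk, by rw [← hx, h.num.2 htk hk], hy.2 hdy⟩

/-- On a row in use the position is known on the right exactly if it is known on the left. -/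
lemma E_live (hY : IsLive L (res L Y).toNat) {l : St} (h : HRules L t l) (hi : Inv L t)
    (hi' : Inv L l) : E L X Y t ↔ E L (X - 1) Y l := by
  constructor
  · intro he
    have hl : l.fin.live = true := by
      have e : t.fin.live = l.fin.live := h.f.live
      rw [← e, he.live hi h.right.bd, decide_eq_true hY]
    have hk := h.left.live_xk hl
    have hs := res_shift (m := X - 1) h.left.bd.x_lt (h.num.2 he.1 hk)
    rw [sub_add_cancel] at hs
    exact ⟨hk, hs.1 he.2.1, by rw [← h.num.1]; exact he.2.2⟩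
  · intro he
    have ht : t.fin.live = true := by
      have e : t.fin.live = l.fin.live := h.f.live
      rw [e, he.live hi' h.left.bd, decide_eq_true hY]
    have hk := h.right.live_xk ht
    have hs := res_shift (m := X - 1) h.left.bd.x_lt (h.num.2 hk he.1)
    rw [sub_add_cancel] at hs
    exact ⟨hk, hs.2 he.2.1, by rw [h.num.1]; exact he.2.2⟩

end Tiles

namespace Virtual

variable {Λ : Virtual S L} {o : V}

/-- Two linked properties of tiles of one window, each cut down by properties equal where both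
hold, are linked. -/
lemma link_pair {I : St → Prop} (hl : Λ.Linked) (hI : Λ.Invariant o I) (i : V) (j j' : Fin 4)
    (P₀ P₀' P P' : St → Prop)
    (h0 : S.Link (Λ.T o (i - dir j) P₀) (Λ.T o (i - dir j') P₀'))
    (h : ∀ q, Valid L q → (∀ k, I (q k)) → P₀ (q j) → P₀' (q j') → (P (q j) ↔ P' (q j'))) :
    S.Link (Λ.T o (i - dir j) fun t => P₀ t ∧ P t)
      (Λ.T o (i - dir j') fun t => P₀' t ∧ P' t) := by
  have hU := Λ.area_ctx (Λ.cell o i)
  have e : S.Link (Λ.win (Λ.cell o i) fun q => P₀ (q j))
      (Λ.win (Λ.cell o i) fun q => P₀' (q j')) :=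
    (hl.tile o i j P₀).trans (h0.trans (hl.tile o i j' P₀').symm)
  have diff : ∀ A B : Quad4 St → Prop,
      S.Link (Λ.win (Λ.cell o i) A) (Λ.win (Λ.cell o i) B) →
        Null (Λ.win (Λ.cell o i) fun q => A q ∧ ¬ B q) := by
    intro A B hAB
    refine Null.of_link (link_of_fun (ι := Bool)
      (fun b => if b then Λ.win (Λ.cell o i) A else Λ.win (Λ.cell o i) B)
      (fun _ => Λ.win (Λ.cell o i) B) (fun g => g true && !g false) hU hU subset_rfl
      (o' := Λ.win (Λ.cell o i) fun _ => False) subset_rfl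
      (fun b => by cases b <;> exact subset_rfl) (fun _ => subset_rfl) (fun a _ => ?_)
      (fun a _ => ?_) (fun b => by cases b; exacts [Link.refl hU, hAB]))
      (null_of_false hU subset_rfl fun a _ => by simp [win])
    · cases hr : Λ.rd (Λ.cell o i) a with
      | none => simp [win_val_none Λ hr]
      | some q => simp [win, hr]
    · cases hr : Λ.rd (Λ.cell o i) a with
      | none => simp [win_val_none Λ hr]
      | some q => simp [win, hr]
  refine (hl.tile o i j _).symm.trans (Link.trans ?_ (hl.tile o i j' _))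
  let N : Fin 3 → Quad4 St → Prop := ![fun q => ∃ k, ¬ I (q k),
    fun q => P₀ (q j) ∧ ¬ P₀' (q j'), fun q => P₀' (q j') ∧ ¬ P₀ (q j)]
  have hN : Null (Λ.win (Λ.cell o i) fun q => ∃ m, N m q) := by
    refine null_of_le (fun m => Λ.win (Λ.cell o i) (N m)) hU subset_rfl (fun _ => subset_rfl)
      (fun m => ?_) fun a _ hv => ?_
    · fin_cases m
      · exact hI.window hl i
      · exact diff _ _ e
      · exact diff _ _ e.symm
    · obtain ⟨q, hq, m, hm⟩ := (Λ.win_val_iff _ _ a).1 hv
      exact ⟨m, (Λ.win_val_iff _ _ a).2 ⟨q, hq, hm⟩⟩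
  refine hN.link_of_eq hU subset_rfl subset_rfl subset_rfl fun a ha hn => ?_
  cases hr : Λ.rd (Λ.cell o i) a with
  | none => rw [win_val_none Λ hr, win_val_none Λ hr]
  | some q =>
    have hn' : ∀ m, ¬ N m q := fun m hm =>
      Bool.false_ne_true (hn.symm.trans ((win_val_some Λ hr).2 ⟨m, hm⟩))
    have hI' : ∀ k, I (q k) := fun k => by_contra fun hk => hn' 0 ⟨k, hk⟩
    have hv := Λ.valid _ a q ha hr
    rw [Bool.eq_iff_iff, win_val_some Λ hr, win_val_some Λ hr]
    constructor
    · rintro ⟨hA, hP⟩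
      have hB : P₀' (q j') := by_contra fun hB => hn' 1 ⟨hA, hB⟩
      exact ⟨hB, (h q hv hI' hA hB).1 hP⟩
    · rintro ⟨hB, hP⟩
      have hA : P₀ (q j) := by_contra fun hA => hn' 2 ⟨hB, hA⟩
      exact ⟨hA, (h q hv hI' hA hB).2 hP⟩

/-- A known position is one event with the corner. -/
lemma link_known (hL : L₀ ≤ L) (hl : Λ.Linked) (hI : Λ.Invariant o (Inv L)) (h : V) (X Y : ℤ)
    (hk : Known L X Y) : S.Link (Λ.T o (pt h X Y) (E L X Y)) (GridObs Λ o (-h)) := by
  rcases hk with hk | hk | hk
  · rw [← exp_pt h X Y]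
    exact link_band hl _ _ (by simpa [pt] using hk)
  · rw [← exp_pt h X Y]
    exact link_zero hL hl _ _ (by simpa [pt] using hk)
  · refine (link_line (fun X => Λ.T o (pt h X Y) (E L X Y)) (fun _ => Λ.T_ctx _ _ _)
      (fun X => ?_) X 0).trans ?_
    · have e := link_horiz hl hI (h.1 + X) (h.2 + Y) (E L X Y) (E L (X - 1) Y)
        fun t l hh hi hi' => E_live hk hh hi hi'
      rw [show h.1 + X - 1 = h.1 + (X - 1) by ring] at e
      exact e
    · rw [← exp_pt h 0 Y]
      exact link_band hl _ _ (by simp [pt, BandAt, res, band_zero hL])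

end Virtual

end Vale.Agent.P196.Tile.Rigid
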