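import Vale.Agent.P196.Tile.Rigid.Parent

/-!
P196, module D (rigidity): what a corner shows of the parent level.

The corner lemma gives an accepted window of finite data and the numbers of the four parents; a
state shown by one component is the one decoded from that component. So the parts that one corner
cannot check alone, stated for each component, make the decoded window valid.
-/

noncomputable section

namespace Vale.Agent.P196.Tile.Rigid

open ChildRules

variable {L : ℕ} {c : V → St} {h : V}

/-- A state shown by a component is the one decoded from it. -/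
lemma decoded {b : ℕ → Quad} {s : Sig}
    (hf : ∀ k < A, ∀ j, finBits (s j) k = b k j)
    (hz : ∀ i, i ≤ L → ∀ j, b (A + 8 * i + 7) j = false) {j : Fin 4} {t : St}
    (ht : Scanning.Bounded (L + 1) t) (he : Encodes L t fun k => b k j) :
    t = decodeSt L b j (s j) ∧ cell (L + 1) t = s j := by
  have hcell : cell (L + 1) t = s j := finBits_inj fun k hk => by
    have := he k (by unfold lastK; omega)
    rw [enc, if_pos hk] at this
    rw [hf k hk j]
    exact this
  have hn : ∀ τ, τ < 8 →
      num (L + 1) t τ = num (L + 1) (decodeSt L b j (s j)) τ := fun τ hτ => by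
    refine Nat.eq_of_testBit_eq fun i => ?_
    rcases Nat.lt_or_ge i (L + 1) with hi | hi
    · rw [← Decode.testBit_num L b j (s j) (fun i hi => hz i hi j) (show i ≤ L by omega) hτ]
      have := he (A + 8 * i + τ) (by unfold lastK; omega)
      rw [enc, if_neg (by omega), show (A + 8 * i + τ - A) / 8 = i by omega,
        show (A + 8 * i + τ - A) % 8 = τ by omega, decide_eq_true hi, Bool.true_and] at this
      exact this
    · have hle := Nat.pow_le_pow_right (show 0 < 2 by norm_num) hi
      rw [Nat.testBit_lt_two_pow ((Scanning.num_lt ht τ).trans_le hle),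
        Nat.testBit_lt_two_pow ((Scanning.num_lt (Decode.bounded L b j (s j)) τ).trans_le hle)]
  refine ⟨?_, hcell⟩
  have hfin : t.fin = (s j).1 := congrArg Prod.fst hcell
  have hxk : t.xk = (s j).2.xk := congrArg (fun e : Cell => e.2.xk) hcell
  have hx : t.x = (decodeSt L b j (s j)).x := (Num.eq_iff_parts (L + 1) _ _).2
    ⟨hn 0 (by norm_num), hn 1 (by norm_num), hn 2 (by norm_num)⟩
  have hy : t.y = (decodeSt L b j (s j)).y := (Num.eq_iff_parts (L + 1) _ _).2
    ⟨hn 3 (by norm_num), hn 4 (by norm_num), hn 5 (by norm_num)⟩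
  have hu : t.u = (decodeSt L b j (s j)).u := hn 6 (by norm_num)
  obtain ⟨k, x, y, u, f⟩ := t
  simp only at hfin hxk hx hy hu
  subst hfin hxk hx hy hu
  rfl

/-- What one corner shows of the parent level. -/
theorem parentStatement : ParentStatement := by
  intro L c h hL hc
  obtain ⟨s, hs, hs0, hf, hz, -, -, -, -, hbd, hx0, hv, hh, hcn, htab⟩ := Corner.corner_ok hL hc
  have dec : ∀ {j : Fin 4} {t : St}, Scanning.Bounded (L + 1) t → Encodes L t (comp L c h j) →
      t = decodeSt L (Corner.bits L c h) j (s j) ∧ cell (L + 1) t = s j :=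
    fun ht he => decoded hf hz ht he
  refine ⟨⟨decodeSt L (Corner.bits L c h) 0 (s 0), hbd 0, hx0, htab, fun k hk => ?_⟩,
    fun t d ht hd het hed => ?_, fun t l ht hl het hel => ?_, fun hsingle hV hH => ?_⟩
  · by_cases hA : k < A
    · rw [enc, if_pos hA, show (decodeSt L (Corner.bits L c h) 0 (s 0)).fin = (s 0).1 from rfl,
        show claims (L + 1) (decodeSt L (Corner.bits L c h) 0 (s 0)) = (s 0).2 from
          (congrArg Prod.snd hs0).symm]
      exact hf k hA 0
    · have hi : (k - A) / 8 ≤ L := by unfold lastK at hk; omega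
      rw [enc, if_neg hA, decide_eq_true (show (k - A) / 8 < L + 1 by omega), Bool.true_and,
        ← Decode.testBit_num L (Corner.bits L c h) 0 (s 0) (fun i hi => hz i hi 0) hi
          (Nat.mod_lt _ (by norm_num)),
        show A + 8 * ((k - A) / 8) + (k - A) % 8 = k by omega]
      rfl
  · rw [(dec ht het).1, (dec hd hed).1]
    exact ⟨hv, hcn⟩
  · rw [(dec ht het).1, (dec hl hel).1]
    exact hh
  choose t hb ht0 htz hte using hsingle
  refine ⟨t, ⟨⟨fun j => ⟨(hb j).1, (hb j).2.1, (hb j).2.2, ht0 j⟩, ?_, ?_, ?_, ?_, ?_, ?_, ?_⟩,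
    htz⟩, hte⟩
  · rw [(dec (hb 0) (hte 0)).1, (dec (hb 2) (hte 2)).1]
    exact hv
  · exact (hV _ _ (hb 1) (hb 3) (hte 1) (hte 3)).1
  · rw [(dec (hb 0) (hte 0)).1, (dec (hb 1) (hte 1)).1]
    exact hh
  · exact hH _ _ (hb 2) (hb 3) (hte 2) (hte 3)
  · rw [(dec (hb 0) (hte 0)).1, (dec (hb 2) (hte 2)).1]
    exact hcn
  · exact (hV _ _ (hb 1) (hb 3) (hte 1) (hte 3)).2
  · rw [show sig (L + 1) t = s from funext fun j => (dec (hb j) (hte j)).2]
    exact hs

end Vale.Agent.P196.Tile.Rigid
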