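import Vale.Agent.P196.Tile.Rigid.Windows
import Vale.Agent.P196.Tile.Rigid.Cover
import Vale.Agent.P196.Tile.Rigid.BitLinks
import Vale.Agent.P196.Tile.Rigid.ParentOK

/-!
P196, module D (rigidity): the parents form a virtual level.
-/

noncomputable section

namespace Vale.Agent.P196.Tile.Rigid

open SFT Finset
open scoped Classical

variable {S : SFT} {L : ℕ}

attribute [local irreducible] box

namespace Virtual

variable {Λ : Virtual S L}

lemma meets (hL : L₀ ≤ L) (hl : Λ.Linked) : Meets Λ :=
  fun o i i' h1 h2 P P' => meetStatement S L Λ hL hl o i i' h1 h2 P P'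

lemma area_parent_le (hL : L₀ ≤ L) (v u : V) (hu : u ∈ Λ.areaU v (box L 0)) :
    u ∈ boxAt v (2 * (side L * Λ.Q)) := by
  obtain ⟨-, -, b3, b4⟩ := box_sizes hL
  obtain ⟨i, hi, hu⟩ := mem_biUnion.1 hu
  have h := mem_boxAt.1 (Λ.area_le _ u hu)
  have hside : 2 * (side L * Λ.Q) = 4 * (H L * Λ.Q) := by unfold side; ring
  have hQ : Λ.Q ≤ H L * Λ.Q := Nat.le_mul_of_pos_left _ (ChildRules.H_pos L)
  have bound : ∀ z : ℤ, z.natAbs ≤ H L → ((Λ.Q : ℤ) * z).natAbs ≤ H L * Λ.Q := fun z hz => by
    rw [Int.natAbs_mul, Int.natAbs_natCast, Nat.mul_comm Λ.Q]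
    exact Nat.mul_le_mul_right _ hz
  unfold box at hi
  simp only [Finset.mem_Icc, Prod.le_def, Prod.fst_zero, Prod.snd_zero, zero_add] at hi
  have h1 := bound i.1 (by omega)
  have h2 := bound i.2 (by omega)
  simp only [cell, Prod.fst_add, Prod.snd_add, Prod.smul_fst, Prod.smul_snd, smul_eq_mul] at h
  rw [mem_boxAt]
  omega

/-- What commutes with the parents around a cell commutes with it. -/
lemma parent_cover (hL : L₀ ≤ L) (hl : Λ.Linked) (u : V) (o' : S.Obs)
    (ho' : S.Context o'.supp)
    (h : ∀ v ∈ boxAt u (2 * (side L * Λ.Q)), ∀ P : Option (Quad4 St) → Bool,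
      S.Com (readObs (fun v => Λ.areaU v (box L 0)) Λ.readQuad (readQuad_dep hL) v P) o') :
    S.CellCom u o' := by
  have hM := meets hL hl
  refine Λ.cellCom ho' fun v hv P => ?_
  have hv' := mem_boxAt.1 (Λ.near_le u v hv)
  have hside : 2 * (side L * Λ.Q) = 4 * (H L * Λ.Q) := by unfold side; ring
  have hQ : 4 * Λ.Q ≤ H L * Λ.Q := Nat.mul_le_mul_right _ (by
    have := eight_lt_M hL
    have : M L ≤ H L := Nat.le_self_pow (by norm_num) _
    omega)
  have mem : ∀ i : V, Small (3 * H L) i → Λ.cell v i ∈ boxAt u (2 * (side L * Λ.Q)) := by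
    intro i ⟨hi1, hi2⟩
    have bound : ∀ z : ℤ, z.natAbs ≤ 3 * H L →
        ((Λ.Q : ℤ) * z).natAbs ≤ 3 * (H L * Λ.Q) := fun z hz => by
      rw [Int.natAbs_mul, Int.natAbs_natCast, Nat.mul_comm Λ.Q, ← Nat.mul_assoc]
      exact Nat.mul_le_mul_right _ hz
    have h1 := bound _ hi1
    have h2 := bound _ hi2
    rw [mem_boxAt]
    simp only [cell, Prod.fst_add, Prod.snd_add, Prod.smul_fst, Prod.smul_snd, smul_eq_mul]
    omega
  -- properties of windows of parents
  have hq : ∀ w ∈ boxAt u (2 * (side L * Λ.Q)), ∀ Q : Option (Quad4 St) → Prop,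
      S.Com (quadEv (Λ := Λ) hL w Q) o' := fun w hw Q => h w hw fun r => decide (Q r)
  have hp : Parents Λ v o' := by
    refine ⟨ho', fun i hi => ?_, fun i hi k hk j => ?_⟩
    · have e1 : Λ.headObs v i false false = Λ.headObs (Λ.cell v i) 0 false false := by
        rw [headObs_shift, add_zero]
      have e2 : S.Link (Λ.headObs (Λ.cell v i) 0 false false)
          (Λ.readEv hL (Λ.cell v i) fun _ => True) :=
        link_same (ctx_box hL hl hM (Λ.cell v i) 0) (head_sub (Λ.cell v i) 0 false false) subset_rfl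
          fun a _ => by rw [Bool.eq_iff_iff, readEv_val_iff]; simp
      rw [e1]
      exact (e2.trans (link_quadEv hL hl hM bitStatement parentStatement (Λ.cell v i)
        (P := fun r => ∃ q, r = some q) (by simp) fun b q _ => by simp).symm).com (hq _ (mem i hi) _)
    · have e1 : Λ.headBit v i false false k j = Λ.headBit (Λ.cell v i) 0 false false k j := by
        rw [headBit_shift, add_zero]
      have e2 : S.Link (Λ.headBit (Λ.cell v i) 0 false false k j)
          (Λ.readEv hL (Λ.cell v i) fun b => b k j = true) :=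
        link_same (ctx_box hL hl hM (Λ.cell v i) 0)
          (headBit_sub hL (Λ.cell v i) 0 false false hk j) subset_rfl fun a _ => by
            rw [Bool.eq_iff_iff, readEv_val_iff, headBit, Obs.and_val, Bool.and_eq_true,
              bitsOf, if_pos hk]
      rw [e1]
      refine (e2.trans (link_quadEv hL hl hM bitStatement parentStatement (Λ.cell v i)
        (P := fun r => ∃ q, r = some q ∧ enc (L + 1) (q j) k = true) (by simp)
        fun b q hs => ?_).symm).com (hq _ (mem i hi) _)
      constructor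
      · rintro ⟨q', hq', hb⟩
        cases hq'
        rwa [hs.2 j k hk] at hb
      · exact fun hb => ⟨q, rfl, (hs.2 j k hk).trans hb⟩
  rw [← cell_zero (Λ := Λ) v]
  exact com_qev_of_tiles hl v 0 P ho' fun j R =>
    com_tiles hL hl hM hp bitStatement
      (by unfold Small dir; simp only [zero_sub, Prod.neg_mk]; split_ifs <;> simp) R

/-- The parents as a virtual level. -/
def parentLevel (hL : L₀ ≤ L) (hl : Λ.Linked) : Virtual S (L + 1) where
  Q := side L * Λ.Q
  Q_pos := Nat.mul_pos (Nat.mul_pos two_pos (ChildRules.H_pos L)) Λ.Q_pos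
  area v := Λ.areaU v (box L 0)
  area_ctx v := ctx_box hL hl (meets hL hl) v 0
  area_le := area_parent_le hL
  rd := Λ.readQuad
  rd_dep := readQuad_dep hL
  valid _ _ _ _ h := (readQuad_some.1 h).2.1
  near u := boxAt u (2 * (side L * Λ.Q))
  near_le u v hv := by
    rw [mem_boxAt] at hv ⊢
    omega
  cover := parent_cover hL hl
  excl := parents_excl hL hl (meets hL hl)

theorem parentLevel_linked (hL : L₀ ≤ L) (hl : Λ.Linked) : (parentLevel hL hl).Linked := by
  intro x j P
  obtain ⟨w, rfl⟩ : ∃ w, x = Λ.cell w ((side L : ℤ) • dir j) :=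
    ⟨Λ.cell x (-((side L : ℤ) • dir j)), by rw [cell_cell, neg_add_cancel, cell_zero]⟩
  have e : Λ.cell w ((side L : ℤ) • dir j) - ((parentLevel hL hl).Q : ℤ) • dir j = w := by
    show Λ.cell w _ - ((side L * Λ.Q : ℕ) : ℤ) • dir j = w
    simp only [cell, smul_smul]
    push_cast
    rw [mul_comm]
    abel
  rw [e]
  have conv : ∀ (u : V) (i : Fin 4), S.Link ((parentLevel hL hl).win u fun q => P (q i))
      (quadEv (Λ := Λ) hL u fun r => ∃ q, r = some q ∧ P (q i)) := fun u i =>
    link_same (ctx_box hL hl (meets hL hl) u 0) subset_rfl subset_rfl fun a _ => by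
      rw [Bool.eq_iff_iff, win_val_iff]
      simp only [quadEv, parentLevel, decide_eq_true_iff]
  exact (conv _ j).trans ((link_parents hL hl (meets hL hl) bitStatement parentStatement w j P).trans
    (conv w 0).symm)

end Virtual

end Vale.Agent.P196.Tile.Rigid
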