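import Vale.Agent.P196.Tile.Rigid.Inv

/-!
P196, module D (rigidity): the lines of a frame along which its data are shown.

In the frame with corner `h` the bit `k` is one event on its wire row up to the cut and on its
bundle column up to the middle row; the halves are one event on their row and column.
-/

noncomputable section

namespace Vale.Agent.P196.Tile.Rigid

open SFT Finset ChildRules
open scoped Classical

variable {S : SFT} {L : ℕ}

/-- Sizes of the special coordinates. -/
lemma sizes (hL : L₀ ≤ L) :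
    8 * M L ≤ M L ^ 2 ∧ M L ^ 2 ≤ H L ∧ 8 * M L < H L ∧ cutX L = 7 * M L ∧
      halfY L + M L ^ 2 ≤ H L + 2 * M L ∧ rowQY L < halfY L ∧ halfY L < H L ∧
      H L / 2 + 2 * M L = halfY L ∧
      ∀ k, k ≤ lastK L → wireY L k < halfY L ∧ M L ≤ wireY L k ∧ bitX L k ≤ 2 * M L := by
  have hM := eight_lt_M hL
  have hHM : H L = M L * M L ^ 2 := by rw [H, ← pow_succ']
  have h1 : 8 * M L ≤ M L ^ 2 := by rw [sq]; exact Nat.mul_le_mul_right _ (by omega)
  have h2 : 1 * M L ^ 2 ≤ M L * M L ^ 2 := Nat.mul_le_mul_right _ (by omega)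
  have h2' : 2 * M L ^ 2 ≤ M L * M L ^ 2 := Nat.mul_le_mul_right _ (by omega)
  have hev : 2 * (M L / 2) = M L := by
    have : 2 ∣ M L := dvd_pow_self 2 (by have := le_L₀.trans hL; omega)
    omega
  have h3 : 2 * (M L / 2 * M L ^ 2) = H L := by rw [← mul_assoc, hev, hHM]
  have h4 : 1 * M L ^ 2 ≤ M L / 2 * M L ^ 2 := Nat.mul_le_mul_right _ (by omega)
  refine ⟨h1, by omega, by omega, rfl, ?_, ?_, ?_, ?_, fun k hk => ?_⟩
  · unfold halfY; omega
  · unfold rowQY halfY; omega
  · unfold halfY; omega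
  · unfold halfY; omega
  · have hb := lastK_bound hL
    have h5 : (k + 1) * M L ^ 2 ≤ M L / 2 * M L ^ 2 := Nat.mul_le_mul_right _ (by omega)
    rw [Nat.add_mul, one_mul] at h5
    unfold wireY halfY bitX
    omega

lemma live_wireY (hL : L₀ ≤ L) {k : ℕ} (hk : k ≤ lastK L) : IsLive L (wireY L k) :=
  ⟨(wireY_facts hL k).2, by rw [(wireY_facts hL k).1]; exact hk⟩

lemma knownX_band (hL : L₀ ≤ L) {x : ℕ} (h : x < 8 * M L) (y : ℕ) : knownX L x y = true :=
  known_of_band ((band_le_iff hL).2 h)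

/-- Congruent grids are the same. -/
lemma exp_congr {g g' : V} (h1 : (H L : ℤ) ∣ g.1 - g'.1) (h2 : (H L : ℤ) ∣ g.2 - g'.2) (i : V) :
    Exp L g i = Exp L g' i := by
  funext t
  have e : ∀ a b c : ℤ, (H L : ℤ) ∣ a - b → res L (a + c) = res L (b + c) := fun a b c h =>
    (Int.modEq_iff_dvd.2 (by
      rw [show b + c - (a + c) = -(a - b) by ring]
      exact dvd_neg.2 h))
  simp only [Exp, e _ _ _ h1, e _ _ _ h2]

/-- The tile knows that it is at `(X, Y)` and has the property `P`. -/
def At (X Y : ℕ) (P : St → Prop) (t : St) : Prop := t.xk = true ∧ t.x = X ∧ t.y = Y ∧ P t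

/-- The cell at the local position `(X, Y)` of the frame `h`. -/
def loc (h : V) (X Y : ℕ) : V := h + ((X : ℤ), (Y : ℤ))

lemma exp_loc {h : V} {X Y : ℕ} (hX : X < H L) (hY : Y < H L) (t : St) :
    Exp L (-h) (loc h X Y) t ↔ t.xk = true ∧ t.x = X ∧ t.y = Y := by
  have e : ∀ (a : ℤ) (n : ℕ), n < H L → res L (-a + (a + n)) = (n : ℤ) := fun a n hn => by
    rw [neg_add_cancel_left]
    exact Int.emod_eq_of_lt (by omega) (by omega)
  simp only [Exp, loc, Prod.fst_neg, Prod.snd_neg, Prod.fst_add, Prod.snd_add, e _ _ hX, e _ _ hY,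
    Nat.cast_inj]

lemma here_loc {h : V} {X Y : ℕ} (hX : X < H L) (hY : Y < H L) (P : St → Prop) :
    Here L h (loc h X Y) P = At X Y P := by
  funext t
  simp only [Here, At, exp_loc hX hY, and_assoc]

namespace Virtual

variable {Λ : Virtual S L} {o : V}

/-- On an expected row in use the grid is the event at its origin. -/
lemma link_live (hL : L₀ ≤ L) (hl : Λ.Linked) (g i : V)
    (hy : IsLive L (res L (g.2 + i.2)).toNat) :
    S.Link (Λ.T o i (Exp L g i)) (GridObs Λ o g) := by
  have key : ∀ j : V, j.2 = i.2 →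
      S.Link (Λ.T o j (Exp L g j)) (Λ.T o j fun t => Exp L g j t ∧ t.fin.live = true) := by
    intro j hj
    have h0 : j - dir 0 = j := by simp [dir]
    have := link_step hl (invariant hL hl o) j 0 0 (Exp L g j)
      (fun t => Exp L g j t ∧ t.fin.live = true) fun q hq hi => by
        refine ⟨fun h => ⟨h, ?_⟩, fun h => h.1⟩
        have hb := (tileRules hq 0).bd
        obtain ⟨hk, -, hy'⟩ := h
        obtain ⟨-, -, -, hlive, -⟩ := (hi 0).resolve_left fun h' => by
          rw [hk] at h'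
          exact Bool.noConfusion h'.1
        rw [hlive, shellOf, child_live, Nat.mod_eq_of_lt hb.y_lt]
        have e : (q 0).y = (res L (g.2 + i.2)).toNat := by rw [← hj, ← hy', Int.toNat_natCast]
        exact decide_eq_true (e ▸ hy)
    rwa [h0] at this
  have hb : BandAt L (g.1 + -g.1) := by simp [BandAt, res, band_zero hL]
  exact ((key i rfl).trans ((link_liveExp hl g i.2 i.1 (-g.1)).trans
    (key (-g.1, i.2) rfl).symm)).trans (link_band hl g (-g.1, i.2) hb)

/-- An equivalence on valid windows may use linked properties of two of their tiles. -/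
lemma link_step' (hL : L₀ ≤ L) (hl : Λ.Linked) (i : V) (j j' : Fin 4) {A A' : St → Prop}
    (hA : S.Link (Λ.T o (i - dir j) A) (Λ.T o (i - dir j') A')) (P P' : St → Prop)
    (h : ∀ q, Valid L q → (∀ k, Inv L (q k)) → (A (q j) ↔ A' (q j')) → (P (q j) ↔ P' (q j'))) :
    S.Link (Λ.T o (i - dir j) P) (Λ.T o (i - dir j') P') := by
  refine (hl.tile o i j P).symm.trans (Link.trans ?_ (hl.tile o i j' P'))
  have hU := Λ.area_ctx (Λ.cell o i)
  let v := Λ.cell o i
  have hlA : S.Link (Λ.win v fun q => A (q j)) (Λ.win v fun q => A' (q j')) :=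
    (hl.tile o i j A).trans (hA.trans (hl.tile o i j' A').symm)
  have hN : Null (Λ.win v fun q => ¬ (A (q j) ↔ A' (q j'))) := by
    refine link_of_fun (ι := Bool)
      (fun b => if b then Λ.win v fun q => A (q j) else Λ.win v fun q => A' (q j'))
      (fun _ => Λ.win v fun q => A' (q j')) (fun f => f true != f false) hU hU subset_rfl
      (o' := S.botObs) (by simp) (fun b => by cases b <;> exact subset_rfl) (fun _ => subset_rfl)
      (fun a _ => ?_) (fun a _ => by simp) (fun b => by
        cases b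
        · exact Link.refl (Λ.area_ctx v)
        · exact hlA)
    simp only [if_true, Bool.false_eq_true, if_false]
    cases hr : Λ.rd v a with
    | none => simp [win, hr]
    | some q => by_cases h1 : A (q j) <;> by_cases h2 : A' (q j') <;> simp [win, hr, h1, h2]
  have hall : Null (Λ.win v fun q => ¬ (A (q j) ↔ A' (q j')) ∨ ∃ k, ¬ Inv L (q k)) := by
    refine null_of_le (fun b : Bool => if b then Λ.win v fun q => ¬ (A (q j) ↔ A' (q j'))
      else Λ.win v fun q => ∃ k, ¬ Inv L (q k)) hU subset_rfl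
      (fun b => by cases b <;> exact subset_rfl)
      (fun b => by cases b; exacts [(invariant hL hl o).window hl i, hN]) fun a _ ha => ?_
    obtain ⟨q, hq, h' | h'⟩ := (Λ.win_val_iff _ _ a).1 ha
    · exact ⟨true, (Λ.win_val_iff _ _ a).2 ⟨q, hq, h'⟩⟩
    · exact ⟨false, (Λ.win_val_iff _ _ a).2 ⟨q, hq, h'⟩⟩
  refine hall.link_of_eq hU subset_rfl subset_rfl subset_rfl fun a ha hNa => ?_
  cases hr : Λ.rd v a with
  | none => rw [win_val_none Λ hr, win_val_none Λ hr]
  | some q =>
    have hgood : ¬ (¬ (A (q j) ↔ A' (q j')) ∨ ∃ k, ¬ Inv L (q k)) := fun h' =>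
      Bool.false_ne_true (hNa.symm.trans ((win_val_some Λ hr).2 h'))
    simp only [not_or, not_not, not_exists] at hgood
    rw [Bool.eq_iff_iff, win_val_some Λ hr, win_val_some Λ hr]
    exact h q (Λ.valid _ a q ha hr) hgood.2 hgood.1

/-- A position in the band or on a row in use of a frame is the grid of that frame. -/
lemma link_pos (hL : L₀ ≤ L) (hl : Λ.Linked) (h : V) {X Y : ℕ} (hX : X < H L) (hY : Y < H L)
    (hk : knownX L X Y = true) :
    S.Link (Λ.T o (loc h X Y) (Exp L (-h) (loc h X Y))) (GridObs Λ o (-h)) := by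
  have ex : res L ((-h).1 + (loc h X Y).1) = X := by
    simp only [loc, Prod.fst_neg, Prod.fst_add, neg_add_cancel_left]
    exact Int.emod_eq_of_lt (by omega) (by omega)
  have ey : res L ((-h).2 + (loc h X Y).2) = Y := by
    simp only [loc, Prod.snd_neg, Prod.snd_add, neg_add_cancel_left]
    exact Int.emod_eq_of_lt (by omega) (by omega)
  simp only [knownX, Bool.or_eq_true, Bool.and_eq_true, decide_eq_true_iff] at hk
  rcases hk with (hk | hk) | hk
  · exact link_zero hL hl _ _ (by rw [ey, hk]; rfl)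
  · exact link_band hl _ _ (by rw [BandAt, ex, Int.toNat_natCast]; exact hk)
  · exact link_live hL hl _ _ (by rw [ey, Int.toNat_natCast]; exact hk)

/-- A step to the right inside a frame. -/
lemma link_right (hL : L₀ ≤ L) (hl : Λ.Linked) (h : V) {X Y : ℕ} (hX : X + 1 < H L)
    (hY : Y < H L) (hk : knownX L X Y = true) (hk' : knownX L (X + 1) Y = true)
    (P P' : St → Prop)
    (hP : ∀ t l, HRules L t l → Inv L t → Inv L l → t.xk = true → t.x = X + 1 → t.y = Y →
      l.xk = true → l.x = X → l.y = Y → (P t ↔ P' l)) :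
    S.Link (Λ.T o (loc h (X + 1) Y) (At (X + 1) Y P)) (Λ.T o (loc h X Y) (At X Y P')) := by
  have e1 : loc h (X + 1) Y - dir 0 = loc h (X + 1) Y := by simp [dir]
  have e2 : loc h (X + 1) Y - dir 1 = loc h X Y := by
    ext <;> simp [loc, dir]; ring
  have := link_step' (o := o) hL hl (loc h (X + 1) Y) 0 1
    (A := Exp L (-h) (loc h (X + 1) Y)) (A' := Exp L (-h) (loc h X Y))
    (by rw [e1, e2]; exact (link_pos hL hl h hX hY hk').trans (link_pos hL hl h (by omega) hY hk).symm)
    (At (X + 1) Y P) (At X Y P') fun q hq hi hiff => ?_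
  · rwa [e1, e2] at this
  · rw [exp_loc hX hY, exp_loc (by omega) hY] at hiff
    unfold At
    constructor
    · rintro ⟨a, b, c, d⟩
      obtain ⟨a', b', c'⟩ := hiff.1 ⟨a, b, c⟩
      exact ⟨a', b', c', (hP _ _ (hRules hq).1 (hi 0) (hi 1) a b c a' b' c').1 d⟩
    · rintro ⟨a', b', c', d⟩
      obtain ⟨a, b, c⟩ := hiff.2 ⟨a', b', c'⟩
      exact ⟨a, b, c, (hP _ _ (hRules hq).1 (hi 0) (hi 1) a b c a' b' c').2 d⟩

/-- A step upwards inside a frame. -/
lemma link_up (hL : L₀ ≤ L) (hl : Λ.Linked) (h : V) {X Y : ℕ} (hX : X < H L)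
    (hY : Y + 1 < H L) (hk : knownX L X Y = true) (hk' : knownX L X (Y + 1) = true)
    (P P' : St → Prop)
    (hP : ∀ t d, VRules L t d → Inv L t → Inv L d → t.xk = true → t.x = X → t.y = Y + 1 →
      d.xk = true → d.x = X → d.y = Y → (P t ↔ P' d)) :
    S.Link (Λ.T o (loc h X (Y + 1)) (At X (Y + 1) P)) (Λ.T o (loc h X Y) (At X Y P')) := by
  have e1 : loc h X (Y + 1) - dir 0 = loc h X (Y + 1) := by simp [dir]
  have e2 : loc h X (Y + 1) - dir 2 = loc h X Y := by
    ext <;> simp [loc, dir]; ring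
  have := link_step' (o := o) hL hl (loc h X (Y + 1)) 0 2
    (A := Exp L (-h) (loc h X (Y + 1))) (A' := Exp L (-h) (loc h X Y))
    (by rw [e1, e2]; exact (link_pos hL hl h hX hY hk').trans (link_pos hL hl h hX (by omega) hk).symm)
    (At X (Y + 1) P) (At X Y P') fun q hq hi hiff => ?_
  · rwa [e1, e2] at this
  · rw [exp_loc hX hY, exp_loc hX (by omega)] at hiff
    unfold At
    constructor
    · rintro ⟨a, b, c, d⟩
      obtain ⟨a', b', c'⟩ := hiff.1 ⟨a, b, c⟩
      exact ⟨a', b', c', (hP _ _ (vRules hq).1 (hi 0) (hi 2) a b c a' b' c').1 d⟩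
    · rintro ⟨a', b', c', d⟩
      obtain ⟨a, b, c⟩ := hiff.2 ⟨a', b', c'⟩
      exact ⟨a, b, c, (hP _ _ (vRules hq).1 (hi 0) (hi 2) a b c a' b' c').2 d⟩

/-- Constant steps on an interval of naturals. -/
lemma link_range (F : ℕ → S.Obs) (hc : ∀ n, S.Context (F n).supp) {a b : ℕ}
    (h : ∀ n, a ≤ n → n < b → S.Link (F (n + 1)) (F n)) :
    ∀ {m n : ℕ}, a ≤ m → m ≤ b → a ≤ n → n ≤ b → S.Link (F m) (F n) := by
  have main : ∀ n, a ≤ n → n ≤ b → S.Link (F n) (F a) := by
    intro n han
    induction n, han using Nat.le_induction with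
    | base => exact fun _ => Link.refl (hc a)
    | succ n hn ih => exact fun hb => (h n hn (by omega)).trans (ih (by omega))
  exact fun {m n} hm hm' hn hn' => (main m hm hm').trans (main n hn hn').symm

/-- The wire row of the bit `k` up to the cut. -/
lemma line_h (hL : L₀ ≤ L) (hl : Λ.Linked) (h : V) {k : ℕ} (hk : k ≤ lastK L) (j : Fin 4)
    {X X' : ℕ} (h1 : 1 ≤ X) (h2 : X ≤ cutX L) (h1' : 1 ≤ X') (h2' : X' ≤ cutX L) :
    S.Link (Λ.T o (loc h X (wireY L k)) (At X (wireY L k) fun t => t.fin.h j = true))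
      (Λ.T o (loc h X' (wireY L k)) (At X' (wireY L k) fun t => t.fin.h j = true)) := by
  obtain ⟨-, -, s3, s4, -, -, s6, -, sk⟩ := sizes hL
  obtain ⟨k1, k2, -⟩ := sk k hk
  have hlive := live_wireY hL hk
  have hkn : ∀ X, knownX L X (wireY L k) = true := fun X => by simp [knownX, hlive]
  refine link_range (fun X => Λ.T o (loc h X (wireY L k))
    (At X (wireY L k) fun t => t.fin.h j = true)) (fun _ => Λ.T_ctx _ _ _) (a := 1) (b := cutX L)
    (fun n hn hn' => ?_) h1 h2 h1' h2'
  refine link_right hL hl h (by omega) (by omega) (hkn _) (hkn _) _ _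
    fun t l hr _ _ htk htx hty hlk hlx _ => ?_
  have hw : (claims L t).isWire = true := claim_wire.2 (hty ▸ hlive.1)
  have hh : HRule (Tile.cell L t) (Tile.cell L l) := hr.f.h hw
  unfold HRule at hh
  rw [if_neg (fun h' => by have := ((claim_x0 hL).1 h'.1).2; omega),
    if_neg (fun h' => by have := ((claim_cut hL).1 h'.1).2; omega),
    if_neg (fun h' => by have := ((claim_x0 hL).1 h'.1).2; omega)] at hh
  have e : t.fin.h = l.fin.h := hh
  rw [e]

/-- The bundle column of the bit `k` up to the middle row. -/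
lemma line_vb (hL : L₀ ≤ L) (hl : Λ.Linked) (h : V) {k : ℕ} (hk : k ≤ lastK L) (j : Fin 4)
    {Y Y' : ℕ} (h1 : 1 ≤ Y) (h2 : Y ≤ halfY L) (h1' : 1 ≤ Y') (h2' : Y' ≤ halfY L) :
    S.Link (Λ.T o (loc h (bitX L k) Y) (At (bitX L k) Y fun t => t.fin.vb j = true))
      (Λ.T o (loc h (bitX L k) Y') (At (bitX L k) Y' fun t => t.fin.vb j = true)) := by
  obtain ⟨s1, s2, s3, -, -, -, s6, -, sk⟩ := sizes hL
  obtain ⟨-, -, k3⟩ := sk k hk
  have hkn : ∀ Y, knownX L (bitX L k) Y = true := fun Y => knownX_band hL (by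
    have := M_pos L; omega) Y
  have hbu : IsBundle L (bitX L k) := by
    have hb := lastK_bound hL
    obtain ⟨e1, e2, e3⟩ := coord_of (L := L) (a := 0) (c := 1) (e := 2 * k)
      (by omega) (by omega)
    rw [show M L ^ 2 * 0 + M L * 1 + 2 * k = bitX L k by unfold bitX; ring] at e1 e2 e3
    exact ⟨⟨e1, e2⟩, by rw [e3]; omega⟩
  refine link_range (fun Y => Λ.T o (loc h (bitX L k) Y)
    (At (bitX L k) Y fun t => t.fin.vb j = true)) (fun _ => Λ.T_ctx _ _ _) (a := 1)
    (b := halfY L) (fun n hn hn' => ?_) h1 h2 h1' h2'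
  refine link_up hL hl h (by omega) (by omega) (hkn _) (hkn _) _ _
    fun t d hr _ _ htk htx hty hdk hdx hdy => ?_
  have hh : VbRule (Tile.cell L t) (Tile.cell L d) := hr.f.vb (claim_bundle.2 ⟨htk, htx ▸ hbu⟩)
  unfold VbRule at hh
  rw [if_neg (fun h' => by have := (claim_y0 (L := L) (t := t)).1 h'.1; omega),
    if_neg (fun h' => by have := (claim_halfY hL (t := d)).1 h'.1; omega),
    if_neg (fun h' => by have := (claim_y0 (L := L) (t := d)).1 h'.1; omega)] at hh
  have e : t.fin.vb = d.fin.vb := hh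
  rw [e]

/-- At the crossing the bit of the row is that of the column. -/
lemma crossing (hL : L₀ ≤ L) (hl : Λ.Linked) (h : V) {k : ℕ} (hk : k ≤ lastK L) (j : Fin 4) :
    S.Link (Λ.T o (loc h (bitX L k) (wireY L k))
        (At (bitX L k) (wireY L k) fun t => t.fin.h j = true))
      (Λ.T o (loc h (bitX L k) (wireY L k))
        (At (bitX L k) (wireY L k) fun t => t.fin.vb j = true)) := by
  have hlive := live_wireY hL hk
  have hb := lastK_bound hL
  obtain ⟨e1, e2, e3⟩ := coord_of (L := L) (a := 0) (c := 1) (e := 2 * k) (by omega) (by omega)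
  rw [show M L ^ 2 * 0 + M L * 1 + 2 * k = bitX L k by unfold bitX; ring] at e1 e2 e3
  have h0 : loc h (bitX L k) (wireY L k) - dir 0 = loc h (bitX L k) (wireY L k) := by simp [dir]
  have := link_step hl (invariant hL hl o) (loc h (bitX L k) (wireY L k)) 0 0
    (At (bitX L k) (wireY L k) fun t => t.fin.h j = true)
    (At (bitX L k) (wireY L k) fun t => t.fin.vb j = true) fun q hq _ => by
      have hp := (tileRules hq 0).p
      unfold At
      refine and_congr_right fun hk' => and_congr_right fun hx => and_congr_right fun hy => ?_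
      have hw : (claims L (q 0)).isWire = true := claim_wire.2 (hy ▸ hlive.1)
      have hbu : (claims L (q 0)).bundle = true :=
        claim_bundle.2 ⟨hk', hx ▸ ⟨⟨e1, e2⟩, by rw [e3]; omega⟩⟩
      have hd : (claims L (q 0)).cm.diag = true :=
        claim_diag.2 (by rw [hx, hy, e3, (wireY_facts hL k).1])
      have e : (q 0).fin.h = (q 0).fin.vb := hp.diag hw hbu hd
      show (q 0).fin.h j = true ↔ (q 0).fin.vb j = true; rw [e]
  rwa [h0] at this

/-- The row `2M` up to the cut. -/
lemma line_qx (hL : L₀ ≤ L) (hl : Λ.Linked) (h : V) {X X' : ℕ} (h2 : X ≤ cutX L)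
    (h2' : X' ≤ cutX L) :
    S.Link (Λ.T o (loc h X (rowQY L)) (At X (rowQY L) fun t => t.fin.qx = some true))
      (Λ.T o (loc h X' (rowQY L)) (At X' (rowQY L) fun t => t.fin.qx = some true)) := by
  obtain ⟨-, -, s3, s4, -, s5, s6, -, -⟩ := sizes hL
  have hM := M_pos L
  refine link_range (fun X => Λ.T o (loc h X (rowQY L))
    (At X (rowQY L) fun t => t.fin.qx = some true)) (fun _ => Λ.T_ctx _ _ _) (a := 0)
    (b := cutX L) (fun n _ hn => ?_) (Nat.zero_le _) h2 (Nat.zero_le _) h2'
  refine link_right hL hl h (by omega) (by omega) (knownX_band hL (by omega) _)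
    (knownX_band hL (by omega) _) _ _ fun t l hr _ _ htk htx hty _ _ _ => ?_
  have e := hr.f.qx ((claim_rowQ hL).2 hty)
  rw [if_neg (fun h' => by have := ((claim_x0 hL).1 h').2; omega)] at e
  have e' : t.fin.qx = l.fin.qx := e
  rw [e']

/-- The column `0` up to the middle row. -/
lemma line_x0 (hL : L₀ ≤ L) (hl : Λ.Linked) (h : V) {Y Y' : ℕ} (h2 : Y ≤ halfY L)
    (h2' : Y' ≤ halfY L) :
    S.Link (Λ.T o (loc h 0 Y) (At 0 Y fun t => t.fin.qx = some true))
      (Λ.T o (loc h 0 Y') (At 0 Y' fun t => t.fin.qx = some true)) := by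
  obtain ⟨-, -, -, -, -, -, s6, -, -⟩ := sizes hL
  have hM := M_pos L
  refine link_range (fun Y => Λ.T o (loc h 0 Y) (At 0 Y fun t => t.fin.qx = some true))
    (fun _ => Λ.T_ctx _ _ _) (a := 0) (b := halfY L) (fun n _ hn => ?_) (Nat.zero_le _) h2
    (Nat.zero_le _) h2'
  refine link_up hL hl h (H_pos L) (by omega) (knownX_band hL (by omega) _)
    (knownX_band hL (by omega) _) _ _ fun t d hr _ _ htk htx _ _ _ _ => ?_
  have hx0 : (claims L t).x0 = true := (claim_x0 hL).2 ⟨htk, htx⟩
  have e : t.fin.qx = d.fin.qx := hr.f.qx (by simp [hx0])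
  rw [e]

/-- The column `2M` up to the middle row. -/
lemma line_qy (hL : L₀ ≤ L) (hl : Λ.Linked) (h : V) {Y Y' : ℕ} (h2 : Y ≤ halfY L)
    (h2' : Y' ≤ halfY L) :
    S.Link (Λ.T o (loc h (2 * M L) Y) (At (2 * M L) Y fun t => t.fin.qy = some true))
      (Λ.T o (loc h (2 * M L) Y') (At (2 * M L) Y' fun t => t.fin.qy = some true)) := by
  obtain ⟨-, -, s3, -, -, -, s6, -, -⟩ := sizes hL
  have hM := M_pos L
  refine link_range (fun Y => Λ.T o (loc h (2 * M L) Y)
    (At (2 * M L) Y fun t => t.fin.qy = some true)) (fun _ => Λ.T_ctx _ _ _) (a := 0)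
    (b := halfY L) (fun n _ hn => ?_) (Nat.zero_le _) h2 (Nat.zero_le _) h2'
  refine link_up hL hl h (by omega) (by omega) (knownX_band hL (by omega) _)
    (knownX_band hL (by omega) _) _ _ fun t d hr _ _ htk htx hty _ _ _ => ?_
  have hq : (claims L t).colQ = true := (claim_colQ hL).2 ⟨htk, htx⟩
  have e := hr.f.qy hq
  rw [if_neg (fun h' => by have := (claim_y0 (L := L) (t := t)).1 h'; omega)] at e
  have e' : t.fin.qy = d.fin.qy := e
  rw [e']

end Virtual

end Vale.Agent.P196.Tile.Rigid
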