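import Vale.Agent.P196.Tile.Rigid.Calc

/-!
P196, module D (rigidity): linked observables.

Linked observables are one event seen at several places; an observable linked to the empty event is
null and may be ignored in every derivation.
-/

namespace Vale.Agent.P196.SFT

open Finset

variable {S : SFT}

/-- The empty event. -/
def botObs (S : SFT) : S.Obs where
  supp := ∅
  val _ := false
  dep _ _ _ := rfl

/-- The intersection of two observables. -/
def Obs.and (o o' : S.Obs) : S.Obs where
  supp := o.supp ∪ o'.supp
  val x := o.val x && o'.val x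
  dep x y h := by
    rw [o.dep x y fun u hu => h u (mem_union_left _ hu),
      o'.dep x y fun u hu => h u (mem_union_right _ hu)]

/-- The part of an observable outside another one. -/
def Obs.diff (o o' : S.Obs) : S.Obs where
  supp := o.supp ∪ o'.supp
  val x := o.val x && !o'.val x
  dep x y h := by
    rw [o.dep x y fun u hu => h u (mem_union_left _ hu),
      o'.dep x y fun u hu => h u (mem_union_right _ hu)]

@[simp] lemma botObs_supp : (S.botObs).supp = ∅ := rfl

@[simp] lemma botObs_val (x : V → S.A) : (S.botObs).val x = false := rfl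

@[simp] lemma Obs.and_supp (o o' : S.Obs) : (o.and o').supp = o.supp ∪ o'.supp := rfl

@[simp] lemma Obs.and_val (o o' : S.Obs) (x : V → S.A) :
    (o.and o').val x = (o.val x && o'.val x) := rfl

@[simp] lemma Obs.diff_supp (o o' : S.Obs) : (o.diff o').supp = o.supp ∪ o'.supp := rfl

@[simp] lemma Obs.diff_val (o o' : S.Obs) (x : V → S.A) :
    (o.diff o').val x = (o.val x && !o'.val x) := rfl

/-! ### Links -/

lemma Link.symm {o o' : S.Obs} (h : S.Link o o') : S.Link o' o := Rel.symm true o o' h

lemma Link.trans {o o₁ o' : S.Obs} (h : S.Link o o₁) (h' : S.Link o₁ o') : S.Link o o' :=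
  Rel.trans o o₁ o' h h'

lemma Link.com {o o₁ o' : S.Obs} (h : S.Link o o₁) (h' : S.Com o₁ o') : S.Com o o' :=
  Rel.transport o o₁ o' h h'

lemma Link.com_iff {o o₁ o' : S.Obs} (h : S.Link o o₁) : S.Com o o' ↔ S.Com o₁ o' :=
  ⟨fun h' => h.symm.com h', fun h' => h.com h'⟩

lemma Link.com_both {o o₁ p p₁ : S.Obs} (h : S.Link o o₁) (h' : S.Link p p₁)
    (hc : S.Com o₁ p₁) : S.Com o p :=
  h.com (Rel.symm false _ _ (h'.com (Rel.symm false _ _ hc)))

/-- Observables equal on the admissible patterns of a context are linked. -/
lemma link_same {o o' : S.Obs} {U : Finset V} (hU : S.Context U) (ho : o.supp ⊆ U)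
    (ho' : o'.supp ⊆ U) (h : ∀ a : V → S.A, S.Admissible U a → o.val a = o'.val a) :
    S.Link o o' :=
  Rel.same o o' U ho ho' hU h

lemma Link.refl {o : S.Obs} (ho : S.Context o.supp) : S.Link o o :=
  link_same ho subset_rfl subset_rfl fun _ _ => rfl

/-- The same function of linked families gives linked observables. -/
lemma link_of_fun {ι : Type} [Fintype ι] {o o' : S.Obs} (ms ms' : ι → S.Obs)
    (F : (ι → Bool) → Bool) {U W : Finset V} (hU : S.Context U) (hW : S.Context W)
    (ho : o.supp ⊆ U) (ho' : o'.supp ⊆ W) (h1 : ∀ i, (ms i).supp ⊆ U)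
    (h2 : ∀ i, (ms' i).supp ⊆ W)
    (hoU : ∀ a : V → S.A, S.Admissible U a → o.val a = F fun i => (ms i).val a)
    (hoW : ∀ a : V → S.A, S.Admissible W a → o'.val a = F fun i => (ms' i).val a)
    (hl : ∀ i, S.Link (ms i) (ms' i)) : S.Link o o' := by
  classical
  have key : ∀ g : ι → Bool,
      (fun i => ((univ : Finset ι).toList.map g).getD ((univ : Finset ι).toList.idxOf i) false)
        = g := by
    intro g
    funext i
    have hi : (univ : Finset ι).toList.idxOf i < (univ : Finset ι).toList.length :=
      List.idxOf_lt_length_iff.2 (mem_toList.2 (mem_univ i))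
    rw [List.getD_eq_getElem _ _ (by simpa using hi), List.getElem_map, List.getElem_idxOf hi]
  refine Rel.combine o o' ((univ : Finset ι).toList.map fun i => (ms i, ms' i))
    (fun l => F fun i => l.getD ((univ : Finset ι).toList.idxOf i) false) U W ho ho' ?_ ?_ hU hW
    ?_ ?_ ?_
  · intro m hm
    obtain ⟨i, -, rfl⟩ := List.mem_map.1 hm
    exact h1 i
  · intro m hm
    obtain ⟨i, -, rfl⟩ := List.mem_map.1 hm
    exact h2 i
  · intro a ha
    rw [List.map_map, hoU a ha]
    exact congrArg F (key fun i => (ms i).val a).symm
  · intro a ha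
    rw [List.map_map, hoW a ha]
    exact congrArg F (key fun i => (ms' i).val a).symm
  · intro m hm
    obtain ⟨i, -, rfl⟩ := List.mem_map.1 hm
    exact hl i

/-! ### Null observables -/

/-- An observable linked to the empty event. -/
def Null (o : S.Obs) : Prop := S.Link o S.botObs

lemma null_bot : Null S.botObs := Link.refl (by simpa using context_empty)

/-- An observable which is false on admissible patterns is null. -/
lemma null_of_false {o : S.Obs} {U : Finset V} (hU : S.Context U) (ho : o.supp ⊆ U)
    (h : ∀ a : V → S.A, S.Admissible U a → o.val a = false) : Null o :=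
  link_same hU ho (by simp) fun a ha => by simp [h a ha]

lemma Null.of_link {o o' : S.Obs} (h : S.Link o o') (h' : Null o') : Null o := h.trans h'

/-- An observable below finitely many null ones is null. -/
lemma null_of_le {ι : Type} [Fintype ι] {o : S.Obs} (ms : ι → S.Obs) {U : Finset V}
    (hU : S.Context U) (ho : o.supp ⊆ U) (hms : ∀ i, (ms i).supp ⊆ U) (hn : ∀ i, Null (ms i))
    (h : ∀ a : V → S.A, S.Admissible U a → o.val a = true → ∃ i, (ms i).val a = true) :
    Null o := by
  classical
  refine (link_of_fun (ι := Option ι) (fun i => i.elim o ms) (fun i => i.elim o fun _ => S.botObs)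
    (fun g => g none && decide (∃ i, g (some i) = true)) hU hU ho (o' := S.botObs) (by simp)
    (fun i => by cases i; exacts [ho, hms _]) (fun i => by cases i; exacts [ho, by simp])
    (fun a ha => ?_) (fun a ha => ?_)
    (fun i => by cases i; exacts [Link.refl (hU.mono ho), hn _]))
  · simp only [Option.elim_none, Option.elim_some]
    cases hv : o.val a
    · simp
    · simp [h a ha hv]
  · simp

/-- An observable below a null one is null. -/
lemma Null.mono {o m : S.Obs} (hm : Null m) {U : Finset V} (hU : S.Context U) (ho : o.supp ⊆ U)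
    (hs : m.supp ⊆ U) (h : ∀ a : V → S.A, S.Admissible U a → o.val a = true → m.val a = true) :
    Null o :=
  null_of_le (ι := Unit) (fun _ => m) hU ho (fun _ => hs) (fun _ => hm)
    (fun a ha hv => ⟨(), h a ha hv⟩)

/-- A null event may be removed. -/
lemma Null.link_diff {o N : S.Obs} (hN : Null N) {U : Finset V} (hU : S.Context U)
    (ho : o.supp ⊆ U) (hNs : N.supp ⊆ U) : S.Link (o.diff N) o :=
  link_of_fun (ι := Bool) (fun i => if i then o else N) (fun i => if i then o else S.botObs)
    (fun g => g true && !g false) hU hU (by simpa [union_subset_iff] using ⟨ho, hNs⟩) ho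
    (fun i => by cases i <;> simpa) (fun i => by cases i <;> simp [ho])
    (fun a _ => by simp) (fun a _ => by simp)
    (fun i => by cases i; exacts [hN, Link.refl (hU.mono ho)])

/-- Observables equal outside a null event are linked. -/
lemma Null.link_of_eq {o o' N : S.Obs} (hN : Null N) {U : Finset V} (hU : S.Context U)
    (ho : o.supp ⊆ U) (ho' : o'.supp ⊆ U) (hNs : N.supp ⊆ U)
    (h : ∀ a : V → S.A, S.Admissible U a → N.val a = false → o.val a = o'.val a) :
    S.Link o o' := by
  refine (hN.link_diff hU ho hNs).symm.trans (Link.trans ?_ (hN.link_diff hU ho' hNs))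
  refine link_same hU (by simpa [union_subset_iff] using ⟨ho, hNs⟩)
    (by simpa [union_subset_iff] using ⟨ho', hNs⟩) fun a ha => ?_
  cases hv : N.val a
  · simp [hv, h a ha hv]
  · simp [hv]

/-- The empty event commutes with everything. -/
lemma com_bot {o : S.Obs} (ho : S.Context o.supp) : S.Com S.botObs o :=
  com_of_determined (ι := Empty) _ o Empty.elim ∅ (by simp) (fun i => i.elim) context_empty ho
    (fun _ _ _ _ _ => rfl) (fun i => i.elim)

lemma Null.com {N o : S.Obs} (hN : Null N) (ho : S.Context o.supp) : S.Com N o :=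
  Link.com hN (com_bot ho)

/-- Linked observables separate the observables below them and beside them. -/
lemma com_exclusive {o o' c c' : S.Obs} {U W : Finset V} (hU : S.Context U) (hW : S.Context W)
    (ho : o.supp ⊆ U) (hc : c.supp ⊆ U) (ho' : o'.supp ⊆ W) (hc' : c'.supp ⊆ W)
    (h1 : ∀ a : V → S.A, S.Admissible U a → o.val a = true → c.val a = true)
    (h2 : ∀ a : V → S.A, S.Admissible W a → o'.val a = true → c'.val a = false)
    (hl : S.Link c c') : S.Com o o' :=
  Rel.exclusive o o' c c' U W ho hc ho' hc' hU hW h1 h2 hl

/-- An observable that is a function, outside a null event, of observables commuting with another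
one commutes with it. -/
lemma Null.com_of_determined {ι : Type} [Fintype ι] {o o' N : S.Obs} (hN : Null N)
    (ms : ι → S.Obs) {U : Finset V} (hU : S.Context U) (ho : o.supp ⊆ U) (hNs : N.supp ⊆ U)
    (hms : ∀ i, (ms i).supp ⊆ U) (ho' : S.Context o'.supp)
    (hdet : ∀ a b : V → S.A, S.Admissible U a → S.Admissible U b → N.val a = false →
      N.val b = false → (∀ i, (ms i).val a = (ms i).val b) → o.val a = o.val b)
    (hcom : ∀ i, S.Com (ms i) o') : S.Com o o' := by
  refine (hN.link_diff hU ho hNs).symm.com ?_
  refine SFT.com_of_determined (ι := Option ι) _ o' (fun i => i.elim N ms) U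
    (by simpa [union_subset_iff] using ⟨ho, hNs⟩) (fun i => by cases i; exacts [hNs, hms _]) hU ho'
    (fun a b ha hb hab => ?_) (fun i => by cases i; exacts [hN.com ho', hcom _])
  have h0 : N.val a = N.val b := hab none
  cases hv : N.val a
  · simp [hv, ← h0, hdet a b ha hb hv (h0 ▸ hv) fun i => hab (some i)]
  · simp [hv, ← h0]

end Vale.Agent.P196.SFT
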