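import Vale.Agent.P196.Tile.Rigid.Level
import Vale.Agent.P196.Tile.Rigid.Base

/-!
P196, module D (rigidity): all ground cells commute.
-/

noncomputable section

namespace Vale.Agent.P196.Tile.Rigid

open SFT

/-- There are linked virtual levels of all levels above the ground. -/
theorem exists_level : ∀ n, ∃ Λ : Virtual hier.sft (L₀ + n), Λ.Linked
  | 0 => ⟨base, Virtual.linked_of_transfers base_transfers⟩
  | n + 1 => by
    obtain ⟨Λ, hl⟩ := exists_level n
    exact ⟨Virtual.parentLevel (Nat.le_add_right _ _) hl,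
      Virtual.parentLevel_linked (Nat.le_add_right _ _) hl⟩

/-- The tile system is rigid. -/
theorem hier_rigid : hier.sft.Rigid := by
  refine rigid_of_within fun n => ?_
  obtain ⟨Λ, hl⟩ := exists_level n
  have hL : L₀ ≤ L₀ + n := Nat.le_add_right _ _
  refine ⟨(meetD (L₀ + n) - 8) * Λ.Q, ?_, Virtual.within hL hl (Virtual.meets hL hl)⟩
  obtain ⟨b1, -⟩ := box_sizes hL
  have h1 : L₀ + n < M (L₀ + n) := Nat.lt_two_pow_self
  exact le_trans (by omega) (Nat.le_mul_of_pos_right _ Λ.Q_pos)

end Vale.Agent.P196.Tile.Rigid
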