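import Vale.Agent.P196.Tile.Facts.Shape

/-!
P196, module D (rigidity): further rules of children, used backwards along rows and columns.
-/

namespace Vale.Agent.P196.Tile.Rigid

open ChildRules

/-- The band continues downwards, and bits of neighbours end at the boundaries. -/
structure RV (t d : Cell) : Prop where
  band_down : t.2.xk = true → t.2.band = true → d.2.xk = true ∧ d.2.band = true
  top : t.2.isY0 = true → t.1.qy = some false → d.1.vb 2 = false ∧ d.1.vb 3 = false
  bottom : d.2.isY0 = true → d.1.qy = some false → d.1.vb 0 = false ∧ d.1.vb 1 = false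

/-- Bits of neighbours end at the boundaries. -/
structure RH (t l : Cell) : Prop where
  right : t.2.x0 = true → t.1.qx = some false → l.1.h 1 = false ∧ l.1.h 3 = false
  left : l.2.x0 = true → l.1.qx = some false → l.1.h 0 = false ∧ l.1.h 2 = false

/-- The further rules of a window. -/
structure RFacts (s : Sig) : Prop where
  live_xk : ∀ j, (s j).1.live = true → (s j).2.xk = true
  v₀ : RV (s 0) (s 2)
  v₁ : RV (s 1) (s 3)
  h₀ : RH (s 0) (s 1)
  h₂ : RH (s 2) (s 3)

variable {L : ℕ} (τ : ℕ → Bool) (b b' : ℕ → Quad) {X Y : ℕ}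

lemma child_RV (hL : L₀ ≤ L) (hY : Y < side L) :
    RV (cell L (child L τ b X Y)) (cell L (child L τ b' X (pred' L Y))) where
  band_down hk hb := by
    have hk' : (claims L (child L τ b X Y)).xk = true := hk
    have hcol := (claims_band L τ b X Y hk').1 hb
    have hk2 : (claims L (child L τ b' X (pred' L Y))).xk = true :=
      (claims_xk L τ b' X (pred' L Y)).2 (Or.inr (Or.inl hcol))
    exact ⟨hk2, (claims_band L τ b' X (pred' L Y) hk2).2 hcol⟩
  top h0 hq := by
    simp only [claims_y0] at h0
    simp only [child_qy, if_pos (Or.inl h0), Option.some.injEq, decide_eq_false_iff_not] at hq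
    have hY0 : Y = 0 := by
      rcases pred_cases hY with ⟨h, -⟩ | ⟨h, -⟩ | ⟨h, -⟩ <;> omega
    subst hY0
    rcases pred_cases hY with ⟨-, -, h2, h3⟩ | ⟨h, -⟩ | ⟨h, -⟩
    · have hh := halfY_lt_pred hL
      refine ⟨?_, ?_⟩ <;>
      · rw [child_vb, if_neg]
        intro hc
        rcases hc.2.2.2 (by simpa using h3) (by rw [h2]; exact hh) with h | h <;> simp at h
    · have := H_pos L; omega
    · simp at h
  bottom h0 hq := by
    simp only [claims_y0] at h0
    simp only [child_qy, if_pos (Or.inl h0), Option.some.injEq, decide_eq_false_iff_not] at hq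
    refine ⟨?_, ?_⟩ <;>
    · rw [child_vb, if_neg]
      intro hc
      rcases hc.2.2.1 h0 (by simpa using hq) with h | h <;> simp at h
where
  halfY_lt_pred {L : ℕ} (hL : L₀ ≤ L) : halfY L < H L - 1 := by
    have hM := eight_lt_M hL
    have h1 : M L / 2 * M L ^ 2 + 8 * M L ≤ H L := by
      have h2 : (M L / 2 + 1) * M L ^ 2 ≤ M L * M L ^ 2 := Nat.mul_le_mul_right _ (by omega)
      have h3 : 8 * M L ≤ M L ^ 2 := by rw [sq]; exact Nat.mul_le_mul_right _ (by omega)
      rw [Nat.add_mul, one_mul] at h2
      rw [show H L = M L * M L ^ 2 by rw [H, ← pow_succ']]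
      omega
    have := M_pos L
    unfold halfY
    omega

lemma child_RH (hL : L₀ ≤ L) (hX : X < side L) :
    RH (cell L (child L τ b X Y)) (cell L (child L τ b' (pred' L X) Y)) where
  right h0 hq := by
    simp only [claims_x0] at h0
    simp only [child_qx, if_pos (Or.inl h0), Option.some.injEq, decide_eq_false_iff_not] at hq
    have hX0 : X = 0 := by
      rcases pred_cases hX with ⟨h, -⟩ | ⟨h, -⟩ | ⟨h, -⟩ <;> omega
    subst hX0
    have hc := cut_lt_pred hL
    rcases pred_cases hX with ⟨-, -, h2, h3⟩ | ⟨h, -⟩ | ⟨h, -⟩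
    · refine ⟨?_, ?_⟩ <;>
      · rw [child_h, if_neg]
        intro hh
        rcases hh.2.2.2 (by simpa using h3) (by rw [h2]; exact hc) with h | h <;> simp at h
    · have := H_pos L; omega
    · simp at h
  left h0 hq := by
    simp only [claims_x0] at h0
    simp only [child_qx, if_pos (Or.inl h0), Option.some.injEq, decide_eq_false_iff_not] at hq
    refine ⟨?_, ?_⟩ <;>
    · rw [child_h, if_neg]
      intro hh
      rcases hh.2.2.1 h0 (by simpa using hq) with h | h <;> simp at h
where
  cut_lt_pred {L : ℕ} (hL : L₀ ≤ L) : cutX L < H L - 1 := by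
    have hM := eight_lt_M hL
    have h2 : 8 * M L ≤ M L ^ 2 := by rw [sq]; exact Nat.mul_le_mul_right _ (by omega)
    have h3 : M L ^ 2 * 1 ≤ M L ^ 2 * M L := Nat.mul_le_mul_left _ (by omega)
    unfold cutX
    rw [show H L = M L ^ 2 * M L by rw [H, pow_succ]]
    omega

/-- Every signature made of children obeys the further rules. -/
theorem shape_rfacts {s : Sig} (h : Shape s) : RFacts s := by
  obtain ⟨L, τ, b, X, Y, hL, hX, hY, rfl⟩ := h
  refine ⟨fun j hl => ?_, child_RV τ _ _ hL hY, child_RV τ _ _ hL hY, child_RH τ _ _ hL hX,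
    child_RH τ _ _ hL hX⟩
  exact (claims_xk L τ _ _ _).2 (Or.inr (Or.inr (of_decide_eq_true hl)))

end Vale.Agent.P196.Tile.Rigid
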