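import Vale.Agent.P196.Tile.Rigid.Known

/-!
P196, module D (rigidity): the values of fields at the positions of one frame, moved between
neighbouring cells inside a closed family of events.
-/

noncomputable section

namespace Vale.Agent.P196.Tile.Rigid

open SFT Finset ChildRules
open scoped Classical

variable {S : SFT} {L : ℕ} {Λ : Virtual S L} {o h : V} {C : V → (St → Prop) → Prop}
  {α β γ : Type}

/-- Each value of a field at an offset belongs to the family. -/
def CV (L : ℕ) (C : V → (St → Prop) → Prop) (h : V) (X Y : ℤ) (f : St → β) : Prop :=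
  ∀ v, C (pt h X Y) fun t => E L X Y t ∧ f t = v

/-- The standing assumptions: a closed family containing the data of a frame. -/
structure Ctx (Λ : Virtual S L) (o : V) (C : V → (St → Prop) → Prop) (h : V) : Prop where
  hL : L₀ ≤ L
  hl : Λ.Linked
  hI : Λ.Invariant o (Inv L)
  hC : Closed Λ o C
  hF : FrameOK L C h

lemma pt_dir (h : V) (X Y : ℤ) (j : Fin 4) :
    pt h X Y - dir j = pt h (X - (dir j).1) (Y - (dir j).2) := by
  ext <;> simp [pt] <;> ring

lemma dir0 : dir 0 = 0 := by simp [dir]

/-- Events of one cell determining a property. -/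
lemma Closed.here (hC : Closed Λ o C) {ι : Type} [Fintype ι] (i : V) (P : St → Prop)
    (Ps : ι → St → Prop) (hm : ∀ m, C i (Ps m))
    (hdet : ∀ t t', TileRules L t → TileRules L t' → Inv L t → Inv L t' →
      (∀ m, Ps m t ↔ Ps m t') → (P t ↔ P t')) : C i P := by
  have h := hC.step i 0 P (fun _ => 0) Ps
    (fun q q' hq hq' hi hi' e => hdet _ _ (tileRules hq 0) (tileRules hq' 0) (hi 0) (hi' 0) e)
    (fun m => by rw [dir0, sub_zero]; exact hm m)
  rwa [dir0, sub_zero] at h

/-- Null events belong to every closed family. -/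
lemma Closed.of_null (hC : Closed Λ o C) {i : V} {P : St → Prop} (hn : Null (Λ.T o i P)) :
    C i P := by
  refine hC.link i i P (fun _ => False) (hn.trans (Link.symm ?_)) ?_
  · exact null_of_false (Λ.area_ctx _) subset_rfl fun a _ => by simp [Virtual.T, Virtual.win]
  · exact hC.here (ι := Empty) i _ Empty.elim (fun m => m.elim) fun _ _ _ _ _ _ _ => Iff.rfl

namespace Ctx

variable {X Y : ℤ}

/-- Being at a position of the frame belongs to the family. -/
lemma grid (K : Ctx Λ o C h) (X Y : ℤ) : C (pt h X Y) (E L X Y) := by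
  by_cases hk : Known L X Y
  · have e : Known L 0 0 := Or.inl (by simp [BandAt, res, band_zero K.hL])
    refine K.hC.link _ (pt h 0 0) _ (E L 0 0)
      ((Virtual.link_known K.hL K.hl K.hI h X Y hk).trans
        (Virtual.link_known K.hL K.hl K.hI h 0 0 e).symm) ?_
    rw [← exp_pt h 0 0, show pt h 0 0 = h by ext <;> simp [pt]]
    exact K.hF.grid
  · exact K.hC.here (ι := Empty) _ _ Empty.elim (fun m => m.elim) fun t t' _ _ hi hi' _ =>
      ⟨fun he => absurd (he.known hi) hk, fun he => absurd (he.known hi') hk⟩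

/-- A property is in the family at a position if field values determine it there. -/
lemma determined [Fintype β] (K : Ctx Λ o C h) {g : St → β} (hg : CV L C h X Y g) (P : St → Prop)
    (hdet : ∀ t t', TileRules L t → TileRules L t' → Inv L t → Inv L t' → E L X Y t →
      E L X Y t' → g t = g t' → (P t ↔ P t')) :
    C (pt h X Y) fun t => E L X Y t ∧ P t := by
  refine K.hC.here (ι := Option β) _ _
    (fun m t => m.elim (E L X Y t) fun v => E L X Y t ∧ g t = v)
    (fun m => by cases m; exacts [K.grid X Y, hg _]) fun t t' r r' hi hi' e => ?_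
  have e0 : E L X Y t ↔ E L X Y t' := e none
  constructor
  · rintro ⟨he, hP⟩
    have he' := e0.1 he
    exact ⟨he', (hdet t t' r r' hi hi' he he' ((e (some (g t))).1 ⟨he, rfl⟩).2.symm).1 hP⟩
  · rintro ⟨he', hP⟩
    have he := e0.2 he'
    exact ⟨he, (hdet t t' r r' hi hi' he he' ((e (some (g t))).1 ⟨he, rfl⟩).2.symm).2 hP⟩

/-- A field determined by another one. -/
lemma of1 [Fintype β] (K : Ctx Λ o C h) {g : St → β} (hg : CV L C h X Y g) (f : St → γ)
    (hdet : ∀ t t', TileRules L t → TileRules L t' → Inv L t → Inv L t' → E L X Y t →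
      E L X Y t' → g t = g t' → f t = f t') : CV L C h X Y f := fun v =>
  K.determined hg _ fun t t' r r' hi hi' he he' e => by rw [hdet t t' r r' hi hi' he he' e]

/-- A field fixed by the position. -/
lemma const (K : Ctx Λ o C h) (f : St → γ)
    (hdet : ∀ t t', TileRules L t → TileRules L t' → Inv L t → Inv L t' → E L X Y t →
      E L X Y t' → f t = f t') : CV L C h X Y f := by
  refine K.of1 (β := Unit) (g := fun _ => ()) (fun _ => ?_) f
    fun t t' r r' hi hi' he he' _ => hdet t t' r r' hi hi' he he'
  exact K.hC.here (ι := Unit) _ _ (fun _ => E L X Y) (fun _ => K.grid X Y)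
    fun t t' _ _ _ _ e => by simpa using e ()

/-- Two fields form a field. -/
lemma pair [Fintype β] [Fintype γ] (K : Ctx Λ o C h) {f : St → β} {g : St → γ}
    (hf : CV L C h X Y f) (hg : CV L C h X Y g) : CV L C h X Y fun t => (f t, g t) := by
  intro v
  refine K.hC.here (ι := Bool) _ _
    (fun m t => if m then E L X Y t ∧ f t = v.1 else E L X Y t ∧ g t = v.2)
    (fun m => by cases m; exacts [hg _, hf _]) fun t t' _ _ _ _ e => ?_
  have e1 := e true
  have e2 := e false
  simp only [Bool.false_eq_true, if_true, if_false] at e1 e2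
  simp only [Prod.ext_iff]
  tauto

/-- A two-valued field from one of its values. -/
lemma ofBool (K : Ctx Λ o C h) {f : St → Bool}
    (hf : C (pt h X Y) fun t => E L X Y t ∧ f t = true) : CV L C h X Y f := by
  intro v
  refine K.hC.here (ι := Bool) _ _
    (fun m t => if m then E L X Y t ∧ f t = true else E L X Y t)
    (fun m => by cases m; exacts [K.grid X Y, hf]) fun t t' _ _ _ _ e => ?_
  have e1 := e true
  have e2 := e false
  simp only [Bool.false_eq_true, if_true, if_false] at e1 e2
  cases v <;> cases h1 : f t <;> cases h2 : f t' <;> simp_all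

/-- A field copied from a neighbour whose position is known with it. -/
lemma move [Fintype β] (K : Ctx Λ o C h) {I : St → Prop} (hI : Λ.Invariant o I) (X₀ Y₀ : ℤ)
    (j j' : Fin 4) (hk : Known L (X₀ - (dir j).1) (Y₀ - (dir j).2))
    (hk' : Known L (X₀ - (dir j').1) (Y₀ - (dir j').2)) {f : St → γ} {g : St → β} (F : β → γ)
    (hg : CV L C h (X₀ - (dir j').1) (Y₀ - (dir j').2) g)
    (heq : ∀ q, Valid L q → (∀ k, I (q k)) → E L (X₀ - (dir j).1) (Y₀ - (dir j).2) (q j) →
      E L (X₀ - (dir j').1) (Y₀ - (dir j').2) (q j') → f (q j) = F (g (q j'))) :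
    CV L C h (X₀ - (dir j).1) (Y₀ - (dir j).2) f := by
  intro v
  refine K.hC.link _ _ _ _ ?_ (K.determined hg (fun t => F (g t) = v)
    fun t t' _ _ _ _ _ _ e => by rw [e])
  have h0 := (Virtual.link_known K.hL K.hl K.hI h _ _ hk).trans
    (Virtual.link_known K.hL K.hl K.hI h _ _ hk').symm
  rw [← pt_dir, ← pt_dir] at h0 ⊢
  exact Virtual.link_pair K.hl hI (pt h X₀ Y₀) j j' _ _ _ _ h0
    fun q hq hi hA hB => by rw [heq q hq hi hA hB]

/-- A field determined by fields of the cell and of a neighbour. -/
lemma step [Fintype α] [Fintype β] (K : Ctx Λ o C h) (X₀ Y₀ : ℤ) (j j' : Fin 4)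
    {f : St → γ} {g : St → β} {g' : St → α}
    (hg : CV L C h (X₀ - (dir j').1) (Y₀ - (dir j').2) g)
    (hg' : CV L C h (X₀ - (dir j).1) (Y₀ - (dir j).2) g')
    (hE : ∀ q, Valid L q → (∀ k, Inv L (q k)) → E L (X₀ - (dir j).1) (Y₀ - (dir j).2) (q j) →
      E L (X₀ - (dir j').1) (Y₀ - (dir j').2) (q j'))
    (hdet : ∀ q q', Valid L q → Valid L q' → (∀ k, Inv L (q k)) → (∀ k, Inv L (q' k)) →
      E L (X₀ - (dir j).1) (Y₀ - (dir j).2) (q j) → E L (X₀ - (dir j).1) (Y₀ - (dir j).2) (q' j) →
      E L (X₀ - (dir j').1) (Y₀ - (dir j').2) (q j') →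
      E L (X₀ - (dir j').1) (Y₀ - (dir j').2) (q' j') →
      g (q j') = g (q' j') → g' (q j) = g' (q' j) → f (q j) = f (q' j)) :
    CV L C h (X₀ - (dir j).1) (Y₀ - (dir j).2) f := by
  intro v
  rw [← pt_dir]
  refine K.hC.step (ι := Option (α ⊕ β)) (pt h X₀ Y₀) j _
    (fun m => m.elim j (Sum.elim (fun _ => j) fun _ => j'))
    (fun m t => m.elim (E L (X₀ - (dir j).1) (Y₀ - (dir j).2) t) (Sum.elim
      (fun a => E L (X₀ - (dir j).1) (Y₀ - (dir j).2) t ∧ g' t = a)
      fun b => E L (X₀ - (dir j').1) (Y₀ - (dir j').2) t ∧ g t = b))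
    (fun q q' hq hq' hi hi' e => ?_) fun m => ?_
  · have e0 : E L (X₀ - (dir j).1) (Y₀ - (dir j).2) (q j) ↔
        E L (X₀ - (dir j).1) (Y₀ - (dir j).2) (q' j) := e none
    have key : E L (X₀ - (dir j).1) (Y₀ - (dir j).2) (q j) → f (q j) = f (q' j) := fun he => by
      have a := ((e (some (Sum.inl (g' (q j))))).1 ⟨he, rfl⟩)
      have b := ((e (some (Sum.inr (g (q j'))))).1 ⟨hE q hq hi he, rfl⟩)
      exact hdet q q' hq hq' hi hi' he a.1 (hE q hq hi he) b.1 b.2.symm a.2.symm
    constructor
    · rintro ⟨he, rfl⟩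
      exact ⟨e0.1 he, (key he).symm⟩
    · rintro ⟨he, rfl⟩
      exact ⟨e0.2 he, key (e0.2 he)⟩
  · rw [pt_dir]
    rcases m with _ | a | b
    · exact K.grid _ _
    · exact hg' a
    · exact hg b

/-! ### The four directions -/

/-- From the left neighbour. -/
lemma moveR [Fintype β] (K : Ctx Λ o C h) (hk : Known L X Y) (hk' : Known L (X - 1) Y)
    {f : St → γ} {g : St → β} (F : β → γ) (hg : CV L C h (X - 1) Y g)
    (heq : ∀ t l, HRules L t l → Inv L t → Inv L l → E L X Y t → E L (X - 1) Y l →
      f t = F (g l)) : CV L C h X Y f := by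
  have e := K.move K.hI X Y 0 1 (f := f) (g := g) (by simpa [dir] using hk)
    (by simpa [dir] using hk') F (by simpa [dir] using hg) fun q hq hi a b =>
      heq _ _ (hRules hq).1 (hi 0) (hi 1) (by simpa [dir] using a) (by simpa [dir] using b)
  simpa [dir] using e

/-- From the right neighbour. -/
lemma moveL [Fintype β] (K : Ctx Λ o C h) {I : St → Prop} (hI : Λ.Invariant o I)
    (hk : Known L (X - 1) Y) (hk' : Known L X Y)
    {f : St → γ} {g : St → β} (F : β → γ) (hg : CV L C h X Y g)
    (heq : ∀ t l, HRules L t l → I t → I l → E L X Y t → E L (X - 1) Y l →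
      f l = F (g t)) : CV L C h (X - 1) Y f := by
  have e := K.move hI X Y 1 0 (f := f) (g := g) (by simpa [dir] using hk)
    (by simpa [dir] using hk') F (by simpa [dir] using hg) fun q hq hi a b =>
      heq _ _ (hRules hq).1 (hi 0) (hi 1) (by simpa [dir] using b) (by simpa [dir] using a)
  simpa [dir] using e

/-- From the neighbour below. -/
lemma moveU [Fintype β] (K : Ctx Λ o C h) (hk : Known L X Y) (hk' : Known L X (Y - 1))
    {f : St → γ} {g : St → β} (F : β → γ) (hg : CV L C h X (Y - 1) g)
    (heq : ∀ t d, VRules L t d → Inv L t → Inv L d → E L X Y t → E L X (Y - 1) d →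
      f t = F (g d)) : CV L C h X Y f := by
  have e := K.move K.hI X Y 0 2 (f := f) (g := g) (by simpa [dir] using hk)
    (by simpa [dir] using hk') F (by simpa [dir] using hg) fun q hq hi a b =>
      heq _ _ (vRules hq).1 (hi 0) (hi 2) (by simpa [dir] using a) (by simpa [dir] using b)
  simpa [dir] using e

/-- From the neighbour above. -/
lemma moveD [Fintype β] (K : Ctx Λ o C h) (hk : Known L X (Y - 1)) (hk' : Known L X Y)
    {f : St → γ} {g : St → β} (F : β → γ) (hg : CV L C h X Y g)
    (heq : ∀ t d, VRules L t d → Inv L t → Inv L d → E L X Y t → E L X (Y - 1) d →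
      f d = F (g t)) : CV L C h X (Y - 1) f := by
  have e := K.move K.hI X Y 2 0 (f := f) (g := g) (by simpa [dir] using hk)
    (by simpa [dir] using hk') F (by simpa [dir] using hg) fun q hq hi a b =>
      heq _ _ (vRules hq).1 (hi 0) (hi 2) (by simpa [dir] using b) (by simpa [dir] using a)
  simpa [dir] using e

/-- On a row in use, from the right neighbour and the cell itself. -/
lemma stepL [Fintype α] [Fintype β] (K : Ctx Λ o C h) (hY : IsLive L (res L Y).toNat)
    {f : St → γ} {g : St → β} {g' : St → α} (hg : CV L C h X Y g) (hg' : CV L C h (X - 1) Y g')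
    (hdet : ∀ t l t' l', HRules L t l → HRules L t' l' → Inv L l → Inv L l' → E L X Y t →
      E L X Y t' → E L (X - 1) Y l → E L (X - 1) Y l' → g t = g t' → g' l = g' l' → f l = f l') :
    CV L C h (X - 1) Y f := by
  have e := K.step X Y 1 0 (f := f) (g := g) (g' := g') (by simpa [dir] using hg)
    (by simpa [dir] using hg') (fun q hq hi a => by
      simp [dir] at a ⊢
      exact (E_live hY (hRules hq).1 (hi 0) (hi 1)).2 a)
    fun q q' hq hq' hi hi' a a' b b' => hdet _ _ _ _ (hRules hq).1 (hRules hq').1 (hi 1) (hi' 1)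
      (by simpa [dir] using b) (by simpa [dir] using b') (by simpa [dir] using a)
      (by simpa [dir] using a')
  simpa [dir] using e

/-- In a band column, from the neighbour above and the cell itself. -/
lemma stepD [Fintype α] [Fintype β] (K : Ctx Λ o C h) (hb : BandAt L X)
    {f : St → γ} {g : St → β} {g' : St → α} (hg : CV L C h X Y g) (hg' : CV L C h X (Y - 1) g')
    (hdet : ∀ t d t' d', VRules L t d → VRules L t' d' → Inv L d → Inv L d' → E L X Y t →
      E L X Y t' → E L X (Y - 1) d → E L X (Y - 1) d' → g t = g t' → g' d = g' d' → f d = f d') :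
    CV L C h X (Y - 1) f := by
  have e := K.step X Y 2 0 (f := f) (g := g) (g' := g') (by simpa [dir] using hg)
    (by simpa [dir] using hg') (fun q hq hi a => by
      simp [dir] at a ⊢
      exact (E_band hb (vRules hq).1).2 a)
    fun q q' hq hq' hi hi' a a' b b' => hdet _ _ _ _ (vRules hq).1 (vRules hq').1 (hi 2) (hi' 2)
      (by simpa [dir] using b) (by simpa [dir] using b') (by simpa [dir] using a)
      (by simpa [dir] using a')
  simpa [dir] using e

/-- In a band column, from the neighbour below and the cell itself. -/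
lemma stepU [Fintype α] [Fintype β] (K : Ctx Λ o C h) (hb : BandAt L X)
    {f : St → γ} {g : St → β} {g' : St → α} (hg : CV L C h X (Y - 1) g) (hg' : CV L C h X Y g')
    (hdet : ∀ t d t' d', VRules L t d → VRules L t' d' → Inv L t → Inv L t' → Inv L d →
      Inv L d' → E L X Y t → E L X Y t' → E L X (Y - 1) d → E L X (Y - 1) d' →
      g d = g d' → g' t = g' t' → f t = f t') :
    CV L C h X Y f := by
  have e := K.step X Y 0 2 (f := f) (g := g) (g' := g') (by simpa [dir] using hg)
    (by simpa [dir] using hg') (fun q hq hi a => by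
      simp [dir] at a ⊢
      exact (E_band hb (vRules hq).1).1 a)
    fun q q' hq hq' hi hi' a a' b b' => hdet _ _ _ _ (vRules hq).1 (vRules hq').1 (hi 0) (hi' 0)
      (hi 2) (hi' 2) (by simpa [dir] using a) (by simpa [dir] using a')
      (by simpa [dir] using b) (by simpa [dir] using b')
  simpa [dir] using e

end Ctx

/-- Induction along a segment to the right. -/
lemma seg_up {P : ℤ → Prop} {a b : ℤ} (h0 : P a) (h : ∀ k, a < k → k ≤ b → P (k - 1) → P k)
    {k : ℤ} (h1 : a ≤ k) (h2 : k ≤ b) : P k := by
  induction k, h1 using Int.le_induction with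
  | base => exact h0
  | succ n hn ih =>
    refine h (n + 1) (by omega) h2 ?_
    rw [add_sub_cancel_right]
    exact ih (by omega)

/-- Induction along a segment to the left. -/
lemma seg_down {P : ℤ → Prop} {a b : ℤ} (h0 : P b) (h : ∀ k, a < k → k ≤ b → P k → P (k - 1))
    {k : ℤ} (h1 : a ≤ k) (h2 : k ≤ b) : P k := by
  induction k, h2 using Int.le_induction_down with
  | base => exact h0
  | pred n hn ih => exact h n (by omega) hn (ih (by omega))

/-- Induction along a line. -/
lemma seg_all {P : ℤ → Prop} {a : ℤ} (h0 : P a) (hu : ∀ k, P (k - 1) → P k)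
    (hd : ∀ k, P k → P (k - 1)) (k : ℤ) : P k := by
  rcases le_total a k with h | h
  · exact seg_up h0 (fun k _ _ => hu k) h le_rfl
  · exact seg_down h0 (fun k _ _ => hd k) le_rfl h

end Vale.Agent.P196.Tile.Rigid
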