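import Vale.Agent.P196.Tile.Rigid.Halves
import Vale.Agent.P196.Tile.Rigid.Lines
import Vale.Agent.P196.Tile.Rigid.CornerFlags
import Vale.Agent.P196.Tile.Desub.Equal

/-!
P196, module D (rigidity): the interface of the step to the parent level.

The parent at a cell is read in the corner standing there: its window has the bits of the
crossings. The head of a quarter together with one bit is one event in neighbouring quarters.
-/

noncomputable section

namespace Vale.Agent.P196.Tile.Rigid

open SFT Finset
open scoped Classical

variable {S : SFT} {L : ℕ}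

/-- The cells of the corner at `h`. -/
def box (L : ℕ) (h : V) : Finset V :=
  Finset.Icc h (h + (((7 * M L : ℕ) : ℤ), ((cornerH L : ℕ) : ℤ)))

/-- The state `t` of the parent level is shown by the bits `β`. -/
def Encodes (L : ℕ) (t : St) (β : ℕ → Bool) : Prop := ∀ k, k ≤ lastK L → enc (L + 1) t k = β k

lemma enc_high {t : St} {k : ℕ} (hk : ¬ k ≤ lastK L) : enc (L + 1) t k = false := by
  unfold lastK at hk
  rw [enc, if_neg (by omega), decide_eq_false (by omega), Bool.false_and]

lemma encodes_unique {t t' : St} {β : ℕ → Bool} (ht : Scanning.Bounded (L + 1) t)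
    (ht' : Scanning.Bounded (L + 1) t') (h : Encodes L t β) (h' : Encodes L t' β) : t = t' :=
  Desub.enc_inj ht ht' fun k => by
    by_cases hk : k ≤ lastK L
    · rw [h k hk, h' k hk]
    · rw [enc_high hk, enc_high hk]

/-- The bits show one state with correct table value. -/
def Single (L : ℕ) (β : ℕ → Bool) : Prop :=
  ∃ t : St, Scanning.Bounded (L + 1) t ∧ (t.xk = false → t.x = 0) ∧
    ((claims (L + 1) t).zone = true → t.fin.v = table (lo (L + 1) t.x)) ∧ Encodes L t β

/-- States shown by the two families of bits are related as a tile and the tile below it. -/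
def VPair (L : ℕ) (β β' : ℕ → Bool) : Prop :=
  ∀ t d : St, Scanning.Bounded (L + 1) t → Scanning.Bounded (L + 1) d → Encodes L t β →
    Encodes L d β' → VertNum (L + 1) t d ∧ CounterNum (L + 1) t d

/-- States shown by the two families of bits are related as a tile and the tile on its left. -/
def HPair (L : ℕ) (β β' : ℕ → Bool) : Prop :=
  ∀ t l : St, Scanning.Bounded (L + 1) t → Scanning.Bounded (L + 1) l → Encodes L t β →
    Encodes L l β' → HorNum (L + 1) t l

/-- The component `j` of the bits of a corner. -/
def comp (L : ℕ) (c : V → St) (h : V) (j : Fin 4) : ℕ → Bool := fun k => Corner.bits L c h k j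

/-- The window shown by a corner. -/
def Shows (L : ℕ) (c : V → St) (h : V) (q : Quad4 St) : Prop :=
  Valid (L + 1) q ∧ ∀ j, Encodes L (q j) (comp L c h j)

/-- What a corner alone gives, and what is enough for a valid window. -/
def ParentStatement : Prop :=
  ∀ (L : ℕ) (c : V → St) (h : V), L₀ ≤ L → Corner L c h →
    Single L (comp L c h 0) ∧ VPair L (comp L c h 0) (comp L c h 2) ∧
      HPair L (comp L c h 0) (comp L c h 1) ∧
      ((∀ j, Single L (comp L c h j)) → VPair L (comp L c h 1) (comp L c h 3) →
        HPair L (comp L c h 2) (comp L c h 3) → ∃ q, Shows L c h q)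

namespace Virtual

variable (Λ : Virtual S L)

/-- The event that a quarter with the given halves starts at `h`. -/
def headObs (o h : V) (bx by' : Bool) : S.Obs := Λ.T o h (Head bx by')

/-- The event of the bit `k`, component `j`, at its crossing in the frame `h`. -/
def bitObs (o h : V) (k : ℕ) (j : Fin 4) : S.Obs :=
  Λ.T o (loc h (bitX L k) (wireY L k))
    (At (bitX L k) (wireY L k) fun t => t.fin.h j = true)

/-- A head together with one bit. -/
def headBit (o h : V) (bx by' : Bool) (k : ℕ) (j : Fin 4) : S.Obs :=
  (Λ.headObs o h bx by').and (Λ.bitObs o h k j)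

end Virtual

/-- The component of the quarter on the right showing the component `j`. -/
def RightMap (bx : Bool) (j σ : Fin 4) : Prop :=
  if bx = true then (j = 0 ∧ σ = 1) ∨ (j = 2 ∧ σ = 3) else σ = j

/-- The component of the quarter above showing the component `j`. -/
def UpMap (by' : Bool) (j σ : Fin 4) : Prop :=
  if by' = true then (j = 0 ∧ σ = 2) ∨ (j = 1 ∧ σ = 3) else σ = j

/-- A head together with one bit is one event in neighbouring quarters. -/
def BitStatement : Prop :=
  ∀ (S : SFT) (L : ℕ) (Λ : Virtual S L), L₀ ≤ L → Λ.Linked → Meets Λ →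
    ∀ (o h : V) (bx by' : Bool) (k : ℕ), k ≤ lastK L → ∀ j σ : Fin 4,
      (RightMap bx j σ → S.Link (Λ.headBit o h bx by' k j)
        (Λ.headBit o (h + ((H L : ℤ), 0)) (!bx) by' k σ)) ∧
      (UpMap by' j σ → S.Link (Λ.headBit o h bx by' k j)
        (Λ.headBit o (h + (0, (H L : ℤ))) bx (!by') k σ))

end Vale.Agent.P196.Tile.Rigid
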