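import Vale.Agent.P196.Tile.Rigid.Parent

/-!
P196, module D (rigidity): reading parents.

At a cell a parent is read if a quarter of halves `false`, `false` starts there and the crossings of
its corner show the bits of a valid window of the next level. A head without such a window is null,
since each component of the bits is the own component of a neighbour.
-/

noncomputable section

namespace Vale.Agent.P196.SFT

open Finset

variable {S : SFT}

/-- Linked pairs have linked intersections. -/
lemma link_inter {A A' B B' : S.Obs} (hA : S.Link A A') (hB : S.Link B B')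
    (hU : S.Context (A.supp ∪ B.supp)) (hW : S.Context (A'.supp ∪ B'.supp)) :
    S.Link (A.and B) (A'.and B') :=
  link_of_fun (ι := Bool) (fun b => if b then A else B) (fun b => if b then A' else B')
    (fun g => g true && g false) hU hW subset_rfl subset_rfl
    (fun b => by cases b; exacts [subset_union_right, subset_union_left])
    (fun b => by cases b; exacts [subset_union_right, subset_union_left])
    (fun _ _ => by simp) (fun _ _ => by simp) (fun b => by cases b; exacts [hB, hA])

/-- Linked pairs have linked differences. -/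
lemma link_minus {A A' B B' : S.Obs} (hA : S.Link A A') (hB : S.Link B B')
    (hU : S.Context (A.supp ∪ B.supp)) (hW : S.Context (A'.supp ∪ B'.supp)) :
    S.Link (A.diff B) (A'.diff B') :=
  link_of_fun (ι := Bool) (fun b => if b then A else B) (fun b => if b then A' else B')
    (fun g => g true && !g false) hU hW subset_rfl subset_rfl
    (fun b => by cases b; exacts [subset_union_right, subset_union_left])
    (fun b => by cases b; exacts [subset_union_right, subset_union_left])
    (fun _ _ => by simp) (fun _ _ => by simp) (fun b => by cases b; exacts [hB, hA])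

end Vale.Agent.P196.SFT

namespace Vale.Agent.P196.Tile.Rigid

open SFT Finset
open scoped Classical

variable {S : SFT} {L : ℕ}

lemma box_sizes (hL : L₀ ≤ L) :
    7 * M L + 12 ≤ meetD L ∧ cornerH L + 12 ≤ meetD L ∧ 7 * M L < H L ∧ cornerH L < H L := by
  have hM := eight_lt_M hL
  have hb := lastK_bound hL
  obtain ⟨c1, -⟩ := Corner.cornerH_lt hL
  obtain ⟨s1, -, s3, -, -, -, -, s7, -⟩ := sizes hL
  have h1 : (lastK L + 3) * M L ^ 2 ≤ M L / 2 * M L ^ 2 := Nat.mul_le_mul_right _ (by omega)
  rw [Nat.add_mul] at h1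
  have e : cornerH L = M L + (lastK L * M L ^ 2 + M L ^ 2) := by
    unfold cornerH; rw [Nat.add_mul, one_mul]
  have e' : halfY L = M L / 2 * M L ^ 2 + 2 * M L := rfl
  have e'' : meetD L = H L / 2 - M L ^ 2 := rfl
  omega

lemma origin_mem_box (h : V) : h ∈ box L h := by
  simp [box, Prod.le_def]

lemma crossing_mem_box (hL : L₀ ≤ L) (h : V) {k : ℕ} (hk : k ≤ lastK L) :
    loc h (bitX L k) (wireY L k) ∈ box L h := by
  have h1 : Rigid.wireY L k ≤ cornerH L := Corner.wireY_le (by omega)
  obtain ⟨-, -, h2⟩ := Corner.bundle_bitX hL hk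
  simp only [box, loc, Finset.mem_Icc, Prod.le_def, Prod.fst_add, Prod.snd_add]
  omega

/-- A patch on a box with a head at its origin is a corner. -/
lemma corner_of_box {I : St → Prop} {c : V → St} {h : V} (hc : Patch L I (box L h) c)
    (hx : (c h).x = 0) (hy : (c h).y = 0) : Corner L c h where
  valid i j h1 h2 h3 h4 := by
    refine hc.quad _ fun m => ?_
    simp only [box, Finset.mem_Icc, Prod.le_def, dir, Prod.fst_add, Prod.snd_add, Prod.fst_sub,
      Prod.snd_sub]
    split_ifs <;> omega
  y_zero := hy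
  x_zero := hx

/-- Valid windows are bounded. -/
lemma bounded_of_valid {q : Quad4 St} (h : Valid L q) (j : Fin 4) : Scanning.Bounded L (q j) :=
  ⟨(h.1.1 j).1, (h.1.1 j).2.1, (h.1.1 j).2.2.1⟩

namespace Virtual

variable {Λ : Virtual S L}

lemma ctx_box (hL : L₀ ≤ L) (hl : Λ.Linked) (hM : Meets Λ) (o h : V) :
    S.Context (Λ.areaU o (box L h)) := by
  obtain ⟨b1, b2, -⟩ := box_sizes hL
  refine context_areaU hL hl hM o fun i hi i' hi' => ?_
  simp only [box, Finset.mem_Icc, Prod.le_def, Prod.fst_add, Prod.snd_add] at hi hi'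
  omega

lemma headObs_shift (o d h : V) (bx by' : Bool) :
    Λ.headObs (Λ.cell o d) h bx by' = Λ.headObs o (d + h) bx by' := T_shift o d h _

lemma bitObs_shift (o d h : V) (k : ℕ) (j : Fin 4) :
    Λ.bitObs (Λ.cell o d) h k j = Λ.bitObs o (d + h) k j := by
  rw [bitObs, bitObs, T_shift, show d + loc h (bitX L k) (wireY L k) =
    loc (d + h) (bitX L k) (wireY L k) by simp only [loc, add_assoc]]

lemma headBit_shift (o d h : V) (bx by' : Bool) (k : ℕ) (j : Fin 4) :
    Λ.headBit (Λ.cell o d) h bx by' k j = Λ.headBit o (d + h) bx by' k j := by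
  rw [headBit, headBit, headObs_shift, bitObs_shift]

lemma head_sub (o h : V) (bx by' : Bool) :
    (Λ.headObs o h bx by').supp ⊆ Λ.areaU o (box L h) := Λ.area_sub (origin_mem_box h)

lemma bit_sub (hL : L₀ ≤ L) (o h : V) {k : ℕ} (hk : k ≤ lastK L) (j : Fin 4) :
    (Λ.bitObs o h k j).supp ⊆ Λ.areaU o (box L h) := Λ.area_sub (crossing_mem_box hL h hk)

lemma headBit_sub (hL : L₀ ≤ L) (o h : V) (bx by' : Bool) {k : ℕ} (hk : k ≤ lastK L)
    (j : Fin 4) : (Λ.headBit o h bx by' k j).supp ⊆ Λ.areaU o (box L h) :=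
  union_subset (head_sub o h bx by') (bit_sub hL o h hk j)

variable (Λ)

/-- The bits at the crossings of the corner at `v`. -/
def bitsOf (v : V) (a : V → S.A) : ℕ → Quad := fun k j =>
  if k ≤ lastK L then (Λ.bitObs v 0 k j).val a else false

lemma bitsOf_dep (hL : L₀ ≤ L) (v : V) {a b : V → S.A}
    (h : ∀ u ∈ Λ.areaU v (box L 0), a u = b u) : Λ.bitsOf v a = Λ.bitsOf v b := by
  funext k j
  unfold bitsOf
  split_ifs with hk
  · exact (Λ.bitObs v 0 k j).dep a b fun u hu => h u (bit_sub hL v 0 hk j hu)
  · rfl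

/-- A parent starts at `v` and the bits have the property `Φ`. -/
def readEv (hL : L₀ ≤ L) (v : V) (Φ : (ℕ → Quad) → Prop) : S.Obs where
  supp := Λ.areaU v (box L 0)
  val a := decide ((Λ.headObs v 0 false false).val a = true ∧ Φ (Λ.bitsOf v a))
  dep a b h := by
    rw [Λ.bitsOf_dep hL v h, (Λ.headObs v 0 false false).dep a b fun u hu =>
      h u (head_sub v 0 false false hu)]

@[simp] lemma readEv_supp (hL : L₀ ≤ L) (v : V) (Φ : (ℕ → Quad) → Prop) :
    (Λ.readEv hL v Φ).supp = Λ.areaU v (box L 0) := rfl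

lemma readEv_val_iff (hL : L₀ ≤ L) (v : V) (Φ : (ℕ → Quad) → Prop) (a : V → S.A) :
    (Λ.readEv hL v Φ).val a = true ↔
      (Λ.headObs v 0 false false).val a = true ∧ Φ (Λ.bitsOf v a) := decide_eq_true_iff

variable {Λ}

/-- Outside the bad event one origin makes all cells origins. -/
lemma allSome_of_good {o i : V} {I : St → Prop} {C : Finset V} {a : V → S.A}
    (hb : (Λ.bad o I C).val a = false) (hi : i ∈ C) {q : Quad4 St}
    (hq : Λ.rd (Λ.cell o i) a = some q) : Λ.AllSome o C a := fun j hj => by
  by_contra hnone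
  exact (of_decide_eq_false hb : ¬ _) ⟨i, hi, q, hq, Or.inl ⟨j, hj, by simpa using hnone⟩⟩

variable (hL : L₀ ≤ L) (hl : Λ.Linked)

include hL hl

omit hl in
/-- Outside the bad event a parent shows a corner. -/
lemma corner_read {v : V} {a : V → S.A} (ha : S.Admissible (Λ.areaU v (box L 0)) a)
    (hb : (Λ.bad v (fun _ => True) (box L 0)).val a = false)
    (hh : (Λ.headObs v 0 false false).val a = true) :
    ∃ c, Corner L c 0 ∧ Λ.bitsOf v a = Corner.bits L c 0 := by
  obtain ⟨q, hq, hhead⟩ := (Λ.win_val_iff _ _ a).1 hh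
  have hs : Λ.AllSome v (box L 0) a := allSome_of_good hb (origin_mem_box 0) hq
  have hp := patch_of_good ha hb hs
  have h0 : Λ.pat v a 0 = q 0 := by rw [pat, hq]; rfl
  obtain ⟨c, hp, hcv⟩ : ∃ c, Patch L (fun _ => True) (box L 0) c ∧
      ∀ i ∈ box L 0, c i = Λ.pat v a i := ⟨_, hp, fun i hi => if_pos hi⟩
  have hc0 : c 0 = q 0 := (hcv 0 (origin_mem_box 0)).trans h0
  have hc : Corner L c 0 := corner_of_box hp (by rw [hc0]; exact hhead.1.2.1)
    (by rw [hc0]; exact hhead.1.2.2.1)
  refine ⟨c, hc, funext fun k => funext fun j => ?_⟩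
  by_cases hk : k ≤ lastK L
  swap
  · simp [bitsOf, Corner.bits, hk]
  have hm := crossing_mem_box hL (0 : V) hk
  obtain ⟨q', hq'⟩ := Option.isSome_iff_exists.1 (hs _ hm)
  have hb1 : bitX L k ≤ 7 * M L := by obtain ⟨-, -, h⟩ := Corner.bundle_bitX hL hk; omega
  have hpos := hc.pos hL hb1 (Corner.wireY_le (show k ≤ lastK L + 1 by omega))
  have ec : c (loc 0 (bitX L k) (wireY L k)) = q' 0 := by rw [hcv _ hm, pat, hq']; rfl
  have ec' : Corner.at' c 0 (bitX L k) (Corner.wireY L k) = q' 0 := ec
  rw [ec'] at hpos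
  have eb : Corner.bits L c 0 k j = (q' 0).fin.h j := by
    rw [Corner.bits, if_pos hk]
    exact congrArg (fun t : St => t.fin.h j) ec'
  rw [bitsOf, if_pos hk, eb, Bool.eq_iff_iff, bitObs, T, win_val_some Λ hq']
  exact ⟨fun h => h.2.2.2, fun h => ⟨hpos.1, hpos.2.1, hpos.2.2, h⟩⟩

variable (hM : Meets Λ)

include hM

/-- What fails in all corners is null. -/
lemma null_read (v : V) {Φ : (ℕ → Quad) → Prop}
    (h : ∀ c, Corner L c 0 → ¬ Φ (Corner.bits L c 0)) : Null (Λ.readEv hL v Φ) := by
  refine Null.mono (bad_null hl (invariant_true v) (ctx_box hL hl hM v 0)) (ctx_box hL hl hM v 0)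
    subset_rfl subset_rfl fun a ha hv => ?_
  by_contra hb
  rw [Bool.not_eq_true] at hb
  obtain ⟨hh, hΦ⟩ := (Λ.readEv_val_iff hL v Φ a).1 hv
  obtain ⟨c, hc, e⟩ := corner_read hL ha hb hh
  exact h c hc (e ▸ hΦ)

/-- The same property of linked components is linked. -/
lemma link_read {ι : Type} [Fintype ι] (v v' : V) (σ τ : ι → Fin 4)
    (hh : S.Link (Λ.headObs v 0 false false) (Λ.headObs v' 0 false false))
    (hb : ∀ i k, k ≤ lastK L → S.Link (Λ.headBit v 0 false false k (σ i))
      (Λ.headBit v' 0 false false k (τ i))) (F : (ι → ℕ → Bool) → Prop) :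
    S.Link (Λ.readEv hL v fun b => F fun i k => b k (σ i))
      (Λ.readEv hL v' fun b => F fun i k => b k (τ i)) := by
  let ms : V → (ι → Fin 4) → Option (ι × Fin (lastK L + 1)) → S.Obs := fun w ρ m =>
    m.elim (Λ.headObs w 0 false false) fun p => Λ.headBit w 0 false false p.2 (ρ p.1)
  let G : (Option (ι × Fin (lastK L + 1)) → Bool) → Bool := fun g =>
    decide (g none = true ∧ F fun i k => if hk : k ≤ lastK L then g (some (i, ⟨k, by omega⟩))
      else false)
  have hsub : ∀ w ρ m, (ms w ρ m).supp ⊆ Λ.areaU w (box L 0) := fun w ρ m => by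
    cases m with
    | none => exact head_sub w 0 false false
    | some p => exact headBit_sub hL w 0 false false (Nat.le_of_lt_succ p.2.2) _
  have hval : ∀ w ρ a, (Λ.readEv hL w fun b => F fun i k => b k (ρ i)).val a =
      G fun m => (ms w ρ m).val a := fun w ρ a => by
    simp only [readEv, G, ms, Option.elim]
    refine decide_eq_decide.2 (and_congr_right fun h1 => iff_of_eq (congrArg F ?_))
    funext i k
    unfold bitsOf
    by_cases hk : k ≤ lastK L
    · simp only [if_pos hk, dif_pos hk, headBit, Obs.and_val, h1, Bool.true_and]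
    · simp only [if_neg hk, dif_neg hk]
  exact link_of_fun (ms v σ) (ms v' τ) G (ctx_box hL hl hM v 0) (ctx_box hL hl hM v' 0) subset_rfl
    subset_rfl (hsub v σ) (hsub v' τ) (fun a _ => hval v σ a) (fun a _ => hval v' τ a) fun m => by
      cases m with
      | none => exact hh
      | some p => exact hb p.1 p.2 (Nat.le_of_lt_succ p.2.2)

/-- Two quarters further the head is the same event. -/
lemma link_head_side (v : V) (m n : ℤ) :
    S.Link (Λ.headObs (Λ.cell v ((side L : ℤ) * m, (side L : ℤ) * n)) 0 false false)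
      (Λ.headObs v 0 false false) := by
  rw [headObs_shift, add_zero]
  have h := head_lattice (o := v) hL hl hM 0 false false (2 * m) (2 * n)
  have e : ∀ z : ℤ, flipBy false (2 * z) = false := fun z => by
    simp [flipBy]
  rw [e, e, zero_add, ← mul_assoc, ← mul_assoc, show ((H L : ℤ) * 2) = (side L : ℤ) by
    unfold side; push_cast; ring] at h
  exact h

variable (hB : BitStatement)

include hB

/-- Own bits are the guest bits of the parents on the right and above. -/
lemma link_right_parent (v : V) {k : ℕ} (hk : k ≤ lastK L) {j σ : Fin 4}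
    (hj : (j = 0 ∧ σ = 1) ∨ (j = 2 ∧ σ = 3)) :
    S.Link (Λ.headBit v 0 false false k j)
      (Λ.headBit (Λ.cell v ((side L : ℤ), 0)) 0 false false k σ) := by
  have h1 := (hB S L Λ hL hl hM v 0 false false k hk j j).1 (by simp [RightMap])
  have h2 := (hB S L Λ hL hl hM v (0 + ((H L : ℤ), 0)) true false k hk j σ).1
    (by simpa [RightMap] using hj)
  rw [headBit_shift, add_zero]
  have := h1.trans h2
  rwa [show ((0 : V) + ((H L : ℤ), 0) + ((H L : ℤ), 0)) = (((side L : ℕ) : ℤ), 0) by
    ext <;> simp [side]; ring] at this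

/-- Own bits are the guest bits of the parents above. -/
lemma link_up_parent (v : V) {k : ℕ} (hk : k ≤ lastK L) {j σ : Fin 4}
    (hj : (j = 0 ∧ σ = 2) ∨ (j = 1 ∧ σ = 3)) :
    S.Link (Λ.headBit v 0 false false k j)
      (Λ.headBit (Λ.cell v (0, (side L : ℤ))) 0 false false k σ) := by
  have h1 := (hB S L Λ hL hl hM v 0 false false k hk j j).2 (by simp [UpMap])
  have h2 := (hB S L Λ hL hl hM v (0 + (0, (H L : ℤ))) false true k hk j σ).2
    (by simpa [UpMap] using hj)
  rw [headBit_shift, add_zero]
  have := h1.trans h2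
  rwa [show ((0 : V) + (0, (H L : ℤ)) + (0, (H L : ℤ))) = (0, ((side L : ℕ) : ℤ)) by
    ext <;> simp [side]; ring] at this

/-- The component `j` is the own component of the neighbour in direction `j`. -/
lemma link_guest (v : V) (j : Fin 4) {k : ℕ} (hk : k ≤ lastK L) :
    S.Link (Λ.headBit v 0 false false k 0)
      (Λ.headBit (Λ.cell v ((side L : ℤ) • dir j)) 0 false false k j) := by
  fin_cases j
  · simpa [dir, Prod.mk_zero_zero] using
      Link.refl ((ctx_box hL hl hM v 0).mono (headBit_sub hL v 0 false false hk 0))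
  · simpa [dir] using link_right_parent hL hl hM hB v hk (j := 0) (σ := 1) (Or.inl ⟨rfl, rfl⟩)
  · simpa [dir] using link_up_parent hL hl hM hB v hk (j := 0) (σ := 2) (Or.inl ⟨rfl, rfl⟩)
  · have h1 := link_right_parent hL hl hM hB v hk (j := 0) (σ := 1) (Or.inl ⟨rfl, rfl⟩)
    have h2 := link_up_parent hL hl hM hB (Λ.cell v ((side L : ℤ), 0)) hk (j := 1) (σ := 3)
      (Or.inr ⟨rfl, rfl⟩)
    rw [cell_cell] at h2
    simpa [dir] using h1.trans h2

/-- A single component has the properties of an own component. -/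
lemma link_single_comp (w : V) (j : Fin 4) (F : (ℕ → Bool) → Prop) :
    S.Link (Λ.readEv hL w fun b => F fun k => b k 0)
      (Λ.readEv hL (Λ.cell w ((side L : ℤ) • dir j)) fun b => F fun k => b k j) := by
  refine link_read hL hl hM w _ (ι := Unit) (fun _ => 0) (fun _ => j) ?_
    (fun _ k hk => link_guest hL hl hM hB w j hk) fun f => F (f ())
  have := link_head_side hL hl hM w (dir j).1 (dir j).2
  exact this.symm

end Virtual

end Vale.Agent.P196.Tile.Rigid
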