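import Vale.Agent.P196.Tile.Rigid.Moves

/-!
P196, module D (rigidity): the claims at the positions of a frame, and the halves along the lines
carrying them.
-/

noncomputable section

namespace Vale.Agent.P196.Tile.Rigid

open SFT Finset ChildRules
open scoped Classical

variable {S : SFT} {L : ℕ} {Λ : Virtual S L} {o h : V} {C : V → (St → Prop) → Prop}

/-! ### Claims at a position -/

section Claims

variable {X Y : ℤ} {t : St}

lemma E.eq_x (he : E L X Y t) (n : ℕ) : t.x = n ↔ res L X = n := by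
  have := he.2.1; omega

lemma E.eq_y (he : E L X Y t) (n : ℕ) : t.y = n ↔ res L Y = n := by
  have := he.2.2; omega

lemma E.x0 (he : E L X Y t) (hL : L₀ ≤ L) : (claims L t).x0 = true ↔ res L X = 0 := by
  rw [claim_x0 hL]
  simp [he.1, he.eq_x]

lemma E.cut (he : E L X Y t) (hL : L₀ ≤ L) : (claims L t).cut = true ↔ res L X = cutX L := by
  rw [claim_cut hL]
  simp [he.1, he.eq_x]

lemma E.colQ (he : E L X Y t) (hL : L₀ ≤ L) :
    (claims L t).colQ = true ↔ res L X = ((2 * M L : ℕ) : ℤ) := by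
  rw [claim_colQ hL, he.eq_x]
  simp [he.1]

lemma E.y0 (he : E L X Y t) : (claims L t).isY0 = true ↔ res L Y = 0 := by
  rw [claim_y0, he.eq_y]
  rfl

lemma E.halfY (he : E L X Y t) (hL : L₀ ≤ L) :
    (claims L t).halfRow = true ↔ res L Y = halfY L := by
  rw [claim_halfY hL, he.eq_y]

lemma E.rowQ (he : E L X Y t) (hL : L₀ ≤ L) :
    (claims L t).rowQ = true ↔ res L Y = rowQY L := by
  rw [claim_rowQ hL, he.eq_y]

lemma E.wire (he : E L X Y t) : (claims L t).isWire = true ↔ IsWire L (res L Y).toNat := by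
  rw [claim_wire, he.y_nat]

lemma E.bundle (he : E L X Y t) :
    (claims L t).bundle = true ↔ IsBundle L (res L X).toNat := by
  rw [claim_bundle, he.x_nat]
  simp [he.1]

lemma E.qx_isSome (he : E L X Y t) (hL : L₀ ≤ L) (r : TileRules L t) :
    t.fin.qx.isSome = true ↔
      res L X = 0 ∨ res L X = cutX L ∨ res L Y = rowQY L := by
  have e : t.fin.qx.isSome = ((claims L t).x0 || (claims L t).cut || (claims L t).rowQ) :=
    r.p.qx_some
  rw [e, Bool.or_eq_true, Bool.or_eq_true, he.x0 hL, he.cut hL, he.rowQ hL, or_assoc]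

lemma E.qy_isSome (he : E L X Y t) (hL : L₀ ≤ L) (r : TileRules L t) :
    t.fin.qy.isSome = true ↔
      res L Y = 0 ∨ res L X = ((2 * M L : ℕ) : ℤ) ∨ res L Y = Tile.halfY L := by
  have e : t.fin.qy.isSome = ((claims L t).isY0 || (claims L t).colQ || (claims L t).halfRow) :=
    r.p.qy_some
  rw [e, Bool.or_eq_true, Bool.or_eq_true, he.y0, he.colQ hL, he.halfY hL, or_assoc]

end Claims

/-! ### Special positions -/

lemma bitX_facts (hL : L₀ ≤ L) {k : ℕ} (hk : 2 * k < M L) :
    IsBundle L (bitX L k) ∧ lo L (bitX L k) = 2 * k ∧ M L ≤ bitX L k ∧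
      bitX L k < 2 * M L := by
  obtain ⟨e1, e2, e3⟩ := coord_of (L := L) (a := 0) (c := 1) (e := 2 * k)
    (by have := eight_lt_M hL; omega) hk
  rw [show M L ^ 2 * 0 + M L * 1 + 2 * k = bitX L k by unfold bitX; ring] at e1 e2 e3
  refine ⟨⟨⟨e1, e2⟩, by rw [e3]; omega⟩, e3, ?_, ?_⟩ <;> unfold bitX <;> omega

lemma wire_row (hL : L₀ ≤ L) {k : ℕ} (hk : 2 * k < M L) :
    1 ≤ wireY L k ∧ wireY L k < halfY L := by
  obtain ⟨-, hh, -, -, -, -, hM⟩ := frame_sizes hL
  have h : k * M L ^ 2 ≤ M L / 2 * M L ^ 2 := Nat.mul_le_mul_right _ (by omega)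
  unfold wireY halfY
  omega

lemma res_nat {n : ℕ} (hn : n < H L) : res L (n : ℤ) = n := res_pos (by omega) (by omega)

lemma live_wireRow (hL : L₀ ≤ L) {k : ℕ} (hk : k ≤ lastK L) :
    IsLive L (res L ((wireY L k : ℕ) : ℤ)).toNat ∧ res L ((wireY L k : ℕ) : ℤ) = wireY L k := by
  obtain ⟨-, hh, -, hM, -⟩ := frame_sizes hL
  obtain ⟨-, h2⟩ := wire_row hL (k := k) (by omega)
  obtain ⟨e1, e2⟩ := wireY_facts hL k
  rw [res_nat (show wireY L k < H L by omega), Int.toNat_natCast]
  exact ⟨⟨e2, by omega⟩, rfl⟩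

lemma A_le_lastK (L : ℕ) : A - 1 ≤ lastK L := by unfold lastK; omega

namespace Ctx

variable {X Y : ℤ}

lemma halfPos_eq (h : V) : halfPos L h = pt h ((2 * M L : ℕ) : ℤ) ((rowQY L : ℕ) : ℤ) := rfl

/-- The horizontal half of the frame. -/
lemma qx_half (K : Ctx Λ o C h) :
    CV L C h ((2 * M L : ℕ) : ℤ) ((rowQY L : ℕ) : ℤ) fun t => t.fin.qx := by
  have e : C (pt h ((2 * M L : ℕ) : ℤ) ((rowQY L : ℕ) : ℤ)) fun t =>
      E L ((2 * M L : ℕ) : ℤ) ((rowQY L : ℕ) : ℤ) t ∧ decide (t.fin.qx = some true) = true := by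
    have := K.hF.qx
    rw [halfPos_eq] at this
    unfold Here at this
    rw [exp_pt] at this
    simpa using this
  refine K.of1 (K.ofBool e) _ fun t t' r r' _ _ he he' hv => ?_
  have hs : ((rowQY L : ℕ) : ℤ) = res L ((rowQY L : ℕ) : ℤ) := by
    obtain ⟨h1, h2, -⟩ := frame_sizes K.hL
    rw [res_nat (show rowQY L < H L by unfold rowQY; omega)]
  have h1 := (he.qx_isSome K.hL r).2 (Or.inr (Or.inr hs.symm))
  have h2 := (he'.qx_isSome K.hL r').2 (Or.inr (Or.inr hs.symm))
  revert h1 h2 hv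
  rcases t.fin.qx with _ | a <;> rcases t'.fin.qx with _ | b <;> simp

/-- The vertical half of the frame. -/
lemma qy_half (K : Ctx Λ o C h) :
    CV L C h ((2 * M L : ℕ) : ℤ) ((rowQY L : ℕ) : ℤ) fun t => t.fin.qy := by
  have e : C (pt h ((2 * M L : ℕ) : ℤ) ((rowQY L : ℕ) : ℤ)) fun t =>
      E L ((2 * M L : ℕ) : ℤ) ((rowQY L : ℕ) : ℤ) t ∧ decide (t.fin.qy = some true) = true := by
    have := K.hF.qy
    rw [halfPos_eq] at this
    unfold Here at this
    rw [exp_pt] at this
    simpa using this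
  refine K.of1 (K.ofBool e) _ fun t t' r r' _ _ he he' hv => ?_
  have hs : res L ((2 * M L : ℕ) : ℤ) = ((2 * M L : ℕ) : ℤ) := by
    obtain ⟨h1, h2, -⟩ := frame_sizes K.hL
    exact res_nat (by omega)
  have h1 := (he.qy_isSome K.hL r).2 (Or.inr (Or.inl hs))
  have h2 := (he'.qy_isSome K.hL r').2 (Or.inr (Or.inl hs))
  revert h1 h2 hv
  rcases t.fin.qy with _ | a <;> rcases t'.fin.qy with _ | b <;> simp

/-- The horizontal half is constant along the columns carrying it. -/
lemma qx_vert (K : Ctx Λ o C h) (hX : res L X = 0 ∨ res L X = cutX L) {Y₀ : ℤ}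
    (h0 : CV L C h X Y₀ fun t => t.fin.qx) (Y : ℤ) : CV L C h X Y fun t => t.fin.qx := by
  have hb : BandAt L X := by
    obtain ⟨-, -, -, -, hc, -, hM⟩ := frame_sizes K.hL
    rw [bandAt_iff K.hL]
    omega
  have hc : ∀ {Y : ℤ} {t : St}, E L X Y t →
      ((claims L t).x0 || (claims L t).cut) = true := fun he => by
    rw [Bool.or_eq_true, he.x0 K.hL, he.cut K.hL]
    exact hX
  refine seg_all (P := fun Y => CV L C h X Y fun t => t.fin.qx) h0 (fun k hk => ?_)
    (fun k hk => ?_) Y
  · exact K.moveU (Or.inl hb) (Or.inl hb) id hk fun t d hr _ _ he _ => hr.f.qx (hc he)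
  · exact K.moveD (Or.inl hb) (Or.inl hb) id hk fun t d hr _ _ he _ => (hr.f.qx (hc he)).symm

/-- The horizontal half is constant along the row carrying it, between the columns `x = 0`. -/
lemma qx_row (K : Ctx Λ o C h) {a b X₁ : ℤ} (hband : ∀ k, a ≤ k → k ≤ b → BandAt L k)
    (hne : ∀ k, a < k → k ≤ b → res L k ≠ 0) (h1 : a ≤ X₁) (h1' : X₁ ≤ b) (h2 : a ≤ X) (h2' : X ≤ b)
    (hc : CV L C h X₁ ((rowQY L : ℕ) : ℤ) fun t => t.fin.qx) :
    CV L C h X ((rowQY L : ℕ) : ℤ) fun t => t.fin.qx := by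
  have hs : res L ((rowQY L : ℕ) : ℤ) = rowQY L := by
    obtain ⟨h1, h2, -⟩ := frame_sizes K.hL
    exact res_nat (show rowQY L < H L by unfold rowQY; omega)
  have key : ∀ k, a < k → k ≤ b → ∀ {t l : St}, HRules L t l →
      E L k ((rowQY L : ℕ) : ℤ) t → t.fin.qx = l.fin.qx := fun k k1 k2 t l hr he => by
    have e : t.fin.qx = if (claims L t).x0 then l.fin.qx.map (fun b => !b) else l.fin.qx :=
      hr.f.qx ((he.rowQ K.hL).2 hs)
    rw [e, if_neg]
    rw [he.x0 K.hL]
    exact hne k k1 k2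
  rcases le_total X₁ X with hle | hle
  · refine seg_up (P := fun X => CV L C h X ((rowQY L : ℕ) : ℤ) fun t => t.fin.qx) hc
      (fun k k1 k2 hk => ?_) hle le_rfl
    exact K.moveR (Or.inl (hband _ (by omega) (by omega))) (Or.inl (hband _ (by omega) (by omega)))
      id hk fun t l hr _ _ he _ => key k (by omega) (by omega) hr he
  · refine seg_down (P := fun X => CV L C h X ((rowQY L : ℕ) : ℤ) fun t => t.fin.qx) hc
      (fun k k1 k2 hk => ?_) le_rfl hle
    exact K.moveL K.hI (Or.inl (hband _ (by omega) (by omega)))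
      (Or.inl (hband _ (by omega) (by omega)))
      id hk fun t l hr _ _ he _ => (key k (by omega) (by omega) hr he).symm

/-- The horizontal half on the lines `x = 0` and `x = cutX` of the frame. -/
lemma qx_col (K : Ctx Λ o C h) (hX : X = 0 ∨ X = cutX L) (Y : ℤ) :
    CV L C h X Y fun t => t.fin.qx := by
  obtain ⟨-, -, hH, -, hc, -, hM⟩ := frame_sizes K.hL
  have hr : res L X = X := res_pos (by omega) (by omega)
  refine K.qx_vert (by omega) (Y₀ := ((rowQY L : ℕ) : ℤ)) ?_ Y
  refine K.qx_row (a := 0) (b := ((8 * M L : ℕ) : ℤ) - 1) (fun k k1 k2 => ?_) (fun k k1 k2 => ?_)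
    (by omega) (by omega) (by omega) (by omega) K.qx_half
  · rw [bandAt_iff K.hL, res_pos k1 (by omega)]
    omega
  · rw [res_pos (by omega) (by omega)]
    omega

/-- The vertical half along a column carrying it. -/
lemma qy_vert (K : Ctx Λ o C h) (hX : res L X = ((2 * M L : ℕ) : ℤ)) {Y₀ : ℤ}
    (h0 : CV L C h X Y₀ fun t => t.fin.qy) (Y : ℤ) : CV L C h X Y fun t => t.fin.qy := by
  have hb : BandAt L X := by
    obtain ⟨-, -, -, -, -, -, hM⟩ := frame_sizes K.hL
    rw [bandAt_iff K.hL]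
    omega
  have key : ∀ {k : ℤ} {t d : St}, VRules L t d → E L X k t → t.fin.qy =
      if res L k = 0 then d.fin.qy.map (fun b => !b) else d.fin.qy := fun {k t d} hr he => by
    have e : t.fin.qy = if (claims L t).isY0 then d.fin.qy.map (fun b => !b) else d.fin.qy :=
      hr.f.qy ((he.colQ K.hL).2 hX)
    rw [e]
    exact if_congr he.y0 rfl rfl
  refine seg_all (P := fun Y => CV L C h X Y fun t => t.fin.qy) h0 (fun k hk => ?_)
    (fun k hk => ?_) Y
  · exact K.moveU (Or.inl hb) (Or.inl hb)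
      (fun v : Option Bool => if res L k = 0 then v.map (fun b => !b) else v) hk
      fun t d hr _ _ he _ => key hr he
  · refine K.moveD (Or.inl hb) (Or.inl hb)
      (fun v : Option Bool => if res L k = 0 then v.map (fun b => !b) else v) hk
      fun t d hr _ _ he _ => ?_
    rw [key hr he]
    split_ifs
    · cases d.fin.qy <;> simp
    · rfl

/-- The vertical half along a row carrying it, where the positions are known. -/
lemma qy_row (K : Ctx Λ o C h) (hY : res L Y = 0 ∨ res L Y = halfY L) {a b X₁ : ℤ}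
    (hk : ∀ k, a ≤ k → k ≤ b → Known L k Y) (h1 : a ≤ X₁) (h1' : X₁ ≤ b) (h2 : a ≤ X) (h2' : X ≤ b)
    (hc : CV L C h X₁ Y fun t => t.fin.qy) : CV L C h X Y fun t => t.fin.qy := by
  have key : ∀ {k : ℤ} {t l : St}, HRules L t l → E L k Y t → t.fin.qy = l.fin.qy :=
    fun {k t l} hr he => hr.f.qy (by
      show ((claims L t).isY0 || (claims L t).halfRow) = true
      rw [Bool.or_eq_true, he.y0, he.halfY K.hL]
      exact hY)
  rcases le_total X₁ X with hle | hle
  · refine seg_up (P := fun X => CV L C h X Y fun t => t.fin.qy) hc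
      (fun k k1 k2 hv => ?_) hle le_rfl
    exact K.moveR (hk _ (by omega) (by omega)) (hk _ (by omega) (by omega))
      id hv fun t l hr _ _ he _ => key hr he
  · refine seg_down (P := fun X => CV L C h X Y fun t => t.fin.qy) hc
      (fun k k1 k2 hv => ?_) le_rfl hle
    exact K.moveL K.hI (hk _ (by omega) (by omega)) (hk _ (by omega) (by omega))
      id hv fun t l hr _ _ he _ => (key hr he).symm

/-- The vertical half of a tile in range. -/
lemma qy_all (K : Ctx Λ o C h) (hX : (cutX L : ℤ) - H L < X) (hX' : X < H L) :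
    CV L C h X Y fun t => t.fin.qy := by
  obtain ⟨hy8, hhY, hH, -, hc, -, hM⟩ := frame_sizes K.hL
  have main : ∀ Y, CV L C h ((2 * M L : ℕ) : ℤ) Y fun t => t.fin.qy := fun Y =>
    K.qy_vert (res_nat (by omega)) K.qy_half Y
  have row0 : ∀ X, CV L C h X 0 fun t => t.fin.qy := fun X =>
    K.qy_row (Or.inl (by simp [res])) (a := min X ((2 * M L : ℕ) : ℤ))
      (b := max X ((2 * M L : ℕ) : ℤ)) (fun k _ _ => Or.inr (Or.inl (by simp [res])))
      (min_le_right _ _) (le_max_right _ _) (min_le_left _ _) (le_max_left _ _) (main 0)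
  have left : ∀ Y, CV L C h (((2 * M L : ℕ) : ℤ) - H L) Y fun t => t.fin.qy := fun Y =>
    K.qy_vert (by rw [res_neg (by omega) (by omega)]; omega) (row0 _) Y
  by_cases h0 : res L Y = 0
  · exact K.qy_row (Or.inl h0) (a := min X ((2 * M L : ℕ) : ℤ))
      (b := max X ((2 * M L : ℕ) : ℤ)) (fun k _ _ => Or.inr (Or.inl h0))
      (min_le_right _ _) (le_max_right _ _) (min_le_left _ _) (le_max_left _ _) (main Y)
  by_cases hq : res L X = ((2 * M L : ℕ) : ℤ)
  · rcases lt_or_ge X 0 with hneg | hneg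
    · rw [res_neg hneg (by omega)] at hq
      omega
    · rw [res_pos hneg hX'] at hq
      rw [hq]
      exact main Y
  by_cases hh : res L Y = halfY L
  · by_cases hk : Known L X Y
    swap
    · exact K.const _ fun t t' _ _ hi _ he _ => absurd (he.known hi) hk
    have hband : BandAt L X := by
      rcases hk with hk | hk | hk
      · exact hk
      · omega
      · have := live_lt_halfY K.hL hk
        omega
    rw [bandAt_iff K.hL] at hband
    rcases lt_or_ge X 0 with hneg | hneg
    · rw [res_neg hneg (by omega)] at hband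
      refine K.qy_row (Or.inr hh) (a := ((2 * M L : ℕ) : ℤ) - H L)
        (b := ((8 * M L : ℕ) : ℤ) - H L - 1) (fun k k1 k2 => Or.inl ?_) le_rfl (by omega) (by omega)
        (by omega) (left Y)
      rw [bandAt_iff K.hL, res_neg (by omega) (by omega)]
      omega
    · rw [res_pos hneg hX'] at hband
      refine K.qy_row (Or.inr hh) (a := 0) (b := ((8 * M L : ℕ) : ℤ) - 1)
        (fun k k1 k2 => Or.inl ?_) (by omega) (by omega) hneg (by omega) (main Y)
      rw [bandAt_iff K.hL, res_pos k1 (by omega)]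
      omega
  refine K.const _ fun t t' r r' _ _ he he' => ?_
  have e : ∀ {t : St}, E L X Y t → TileRules L t → t.fin.qy = none := fun he r =>
    Option.not_isSome_iff_eq_none.1 fun hs =>
      ((he.qy_isSome K.hL r).1 hs).elim h0 fun hs => hs.elim hq hh
  rw [e he r, e he' r']

end Ctx

end Vale.Agent.P196.Tile.Rigid
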