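import Vale.Agent.P196.Tile.Rigid.ReduceLines

/-!
P196, module D (rigidity): the bits along the wire rows of a frame, and the horizontal half.

The last constant row shows one from its crossing up to the cut, so the half of the quarter on the
left can be read off that row right of the cut.
-/

noncomputable section

namespace Vale.Agent.P196.Tile.Rigid

open SFT Finset ChildRules
open scoped Classical

variable {S : SFT} {L : ℕ} {Λ : Virtual S L} {o h : V} {C : V → (St → Prop) → Prop}

/-- The constant row shows one at the cut. -/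
def Ones (L : ℕ) (t : St) : Prop :=
  t.xk = true → t.y = wireY L (A - 1) → t.x = cutX L → t.fin.h 1 = true

lemma ones_invariant (hL : L₀ ≤ L) (hl : Λ.Linked) (hI : Λ.Invariant o (Inv L)) :
    Λ.Invariant o (Ones L) := by
  obtain ⟨-, -, hH, hlK, hc, -, hM⟩ := frame_sizes hL
  have hk : 2 * (A - 1) < M L := by have := A_le_lastK L; omega
  obtain ⟨hbun, hlo, hx1, hx2⟩ := bitX_facts hL hk
  obtain ⟨hhi, hw⟩ := wireY_facts hL (A - 1)
  have key : ∀ n, bitX L (A - 1) + n ≤ cutX L → ∀ i, Null (Λ.T o i fun t =>
      t.xk = true ∧ t.y = wireY L (A - 1) ∧ t.x = bitX L (A - 1) + n ∧ t.fin.h 1 = false) := by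
    intro n
    induction n with
    | zero =>
      intro _ i
      have e := Virtual.null_step (ι := Empty) hl hI i 0 (fun t => t.xk = true ∧
        t.y = wireY L (A - 1) ∧ t.x = bitX L (A - 1) + 0 ∧ t.fin.h 1 = false) Empty.elim Empty.elim
        (fun q hq _ hP => ?_) fun m => m.elim
      · rwa [dir0, sub_zero] at e
      · obtain ⟨hk', hy, hx, h1⟩ := hP
        rw [add_zero] at hx
        have hs : SpareOK (cell L (q 0)) := hq.1.2.2.2.2.2.2.2.2.2.2 0
        have := hs.2 (claim_wire.2 (by rw [hy]; exact hw))
          (by rw [claim_yhC, hy, hhi]; exact min_eq_left (by unfold YB; omega))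
          (claim_bundle.2 ⟨hk', by rw [hx]; exact hbun⟩)
          (claim_diag.2 (by rw [hx, hy, hlo, hhi])) 1
        exact absurd this (by rw [h1]; simp)
    | succ n ih =>
      intro hn i
      have e := Virtual.null_step (ι := Unit) hl hI i 0 (fun t => t.xk = true ∧
        t.y = wireY L (A - 1) ∧ t.x = bitX L (A - 1) + (n + 1) ∧ t.fin.h 1 = false) (fun _ => 1)
        (fun _ t => t.xk = true ∧ t.y = wireY L (A - 1) ∧ t.x = bitX L (A - 1) + n ∧
          t.fin.h 1 = false)
        (fun q hq hi hP => ⟨(), ?_⟩) fun _ => ih (by omega) _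
      · rwa [dir0, sub_zero] at e
      · obtain ⟨htk, hy, hx, h1⟩ := hP
        have hr := (hRules hq).1
        have hlive : (q 0).fin.live = true := by
          rcases hi 0 with ⟨h, -⟩ | ⟨-, -, -, h, -⟩
          · exact absurd htk (by simp [h])
          · rw [h]
            show decide (IsLive L ((q 0).y % H L)) = true
            rw [Nat.mod_eq_of_lt hr.right.bd.y_lt, hy, decide_eq_true_iff]
            exact ⟨hw, by have := A_le_lastK L; omega⟩
        have hlk : (q 1).xk = true := hr.left.live_xk (by
          have e : (q 0).fin.live = (q 1).fin.live := hr.f.live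
          rwa [← e])
        have hxl : (q 1).x = bitX L (A - 1) + n := by
          have e := hr.num.2 htk hlk
          have hlt := hr.left.bd.x_lt
          rcases Nat.lt_or_ge ((q 1).x + 1) (H L) with hh | hh
          · rw [Nat.mod_eq_of_lt hh] at e
            omega
          · rw [show (q 1).x + 1 = H L by omega, Nat.mod_self] at e
            omega
        have hh := hr.f.h (claim_wire.2 (by rw [hy]; exact hw))
        have n1 : ¬ (claims L (q 0)).x0 = true := by rw [claim_x0 hL]; omega
        have n2 : ¬ (claims L (q 1)).cut = true := by rw [claim_cut hL]; omega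
        have n3 : ¬ (claims L (q 1)).x0 = true := by rw [claim_x0 hL]; omega
        simp only [HRule, cell, n1, n2, n3, Bool.false_eq_true, false_and, if_false] at hh
        exact ⟨hlk, by rw [← hr.num.1]; exact hy, hxl, by rw [← hh]; exact h1⟩
  intro i
  refine Null.mono (key (cutX L - bitX L (A - 1)) (by omega) i) (Λ.area_ctx _) subset_rfl
    subset_rfl fun a _ ha => ?_
  obtain ⟨q, hq, hn⟩ := (Λ.win_val_iff _ _ a).1 ha
  simp only [Ones, not_forall, Bool.not_eq_true] at hn
  obtain ⟨h1, h2, h3, h4⟩ := hn
  exact (Λ.win_val_iff _ _ a).2 ⟨q, hq, h1, h2, by omega, h4⟩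

namespace Ctx

variable {X Y : ℤ}

/-- The bits copied between neighbours away from the lines where bits end. -/
lemma h_eq (hL : L₀ ≤ L) {t l : St} (hr : HRules L t l) (he : E L X Y t)
    (he' : E L (X - 1) Y l) (hw : IsWire L (res L Y).toNat) (n1 : res L X ≠ 0)
    (n2 : res L (X - 1) ≠ 0) (n3 : res L (X - 1) ≠ cutX L) : t.fin.h = l.fin.h := by
  have hh := hr.f.h (he.wire.2 hw)
  have e1 : ¬ (claims L t).x0 = true := by rw [he.x0 hL]; exact n1
  have e2 : ¬ (claims L l).x0 = true := by rw [he'.x0 hL]; exact n2
  have e3 : ¬ (claims L l).cut = true := by rw [he'.cut hL]; exact n3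
  simpa only [HRule, cell, e1, e2, e3, Bool.false_eq_true, false_and, if_false] using hh

/-- The bits shown at the crossing of a row in use. -/
lemma h_cross (K : Ctx Λ o C h) {k : ℕ} (hk : k ≤ lastK L) :
    CV L C h ((bitX L k : ℕ) : ℤ) ((wireY L k : ℕ) : ℤ) fun t => t.fin.h := by
  have b : ∀ j, CV L C h ((bitX L k : ℕ) : ℤ) ((wireY L k : ℕ) : ℤ) fun t => t.fin.h j := fun j =>
    K.ofBool (by
      have := K.hF.bit k hk j
      rw [show bitPos L h k = pt h ((bitX L k : ℕ) : ℤ) ((wireY L k : ℕ) : ℤ) from rfl] at this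
      unfold Here at this
      rwa [exp_pt] at this)
  refine K.of1 ((K.pair (K.pair (b 0) (b 1)) (K.pair (b 2) (b 3)))) _
    fun t t' _ _ _ _ _ _ e => ?_
  simp only [Prod.ext_iff] at e
  funext j
  fin_cases j
  exacts [e.1.1, e.1.2, e.2.1, e.2.2]

/-- The bits of a tile in range. -/
lemma h_all (K : Ctx Λ o C h) (hX : (cutX L : ℤ) - H L < X) (hX' : X < H L)
    (hY : (halfY L : ℤ) - H L < Y) (hY' : Y < H L) : CV L C h X Y fun t => t.fin.h := by
  by_cases hl : IsLive L (res L Y).toNat
  swap
  · refine K.const _ fun t t' r r' hi hi' he he' => ?_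
    have e : ∀ {t : St}, TileRules L t → Inv L t → E L X Y t → t.fin.h = fun _ => false :=
      fun r hi he => funext fun j => r.p.h_zero (by
        show (_ : Bool) = false
        rw [he.live hi r.bd]
        exact decide_eq_false hl) j
    rw [e r hi he, e r' hi' he']
  obtain ⟨hy8, hhY, hH, hlK, hc, -, hM⟩ := frame_sizes K.hL
  have hlt := live_lt_halfY K.hL hl
  obtain ⟨k, hk, rfl⟩ : ∃ k, k ≤ lastK L ∧ Y = ((wireY L k : ℕ) : ℤ) := by
    refine ⟨hi L (res L Y).toNat, hl.2, ?_⟩
    rw [← (wire_iff K.hL).1 hl.1]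
    rcases lt_or_ge Y 0 with hn | hn
    · rw [res_neg hn (by omega)] at hlt
      omega
    · rw [res_pos hn hY']
      omega
  obtain ⟨-, -, hb1, hb2⟩ := bitX_facts K.hL (k := k) (by omega)
  set Y : ℤ := ((wireY L k : ℕ) : ℤ)
  have kn : ∀ x, Known L x Y := fun _ => Or.inr (Or.inr hl)
  have mid : ∀ x : ℤ, 1 ≤ x → x ≤ cutX L → CV L C h x Y fun t => t.fin.h := by
    intro x x1 x2
    rcases le_total ((bitX L k : ℕ) : ℤ) x with hle | hle
    · refine seg_up (P := fun x => CV L C h x Y fun t => t.fin.h) (K.h_cross hk)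
        (fun z z1 z2 hv => ?_) hle le_rfl
      refine K.moveR (kn _) (kn _) id hv fun t l hr _ _ he he' => h_eq K.hL hr he he' hl.1
        ?_ ?_ ?_ <;> rw [res_pos (by omega) (by omega)] <;> omega
    · refine seg_down (P := fun x => CV L C h x Y fun t => t.fin.h) (K.h_cross hk)
        (fun z z1 z2 hv => ?_) le_rfl hle
      refine K.moveL K.hI (kn _) (kn _) id hv fun t l hr _ _ he he' => (h_eq K.hL hr he he' hl.1
        ?_ ?_ ?_).symm <;> rw [res_pos (by omega) (by omega)] <;> omega
  have zero : CV L C h 0 Y fun t => t.fin.h := by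
    rw [show (0 : ℤ) = 1 - 1 by norm_num]
    refine K.stepL hl (mid 1 le_rfl (by omega)) (K.qx_col (Or.inl (by norm_num)) Y)
      fun t l t' l' hr hr' _ _ he he1 he' he1' eg eg' => ?_
    have r0 : res L (1 - 1) = 0 := by simp [res]
    have n1 : res L 1 ≠ 0 := by rw [res_pos (by omega) (by omega)]; omega
    have F : ∀ {t l : St}, HRules L t l → E L 1 Y t → E L (1 - 1) Y l → l.fin.h =
        if l.fin.qx = some false then ![false, t.fin.h 1, false, t.fin.h 3] else t.fin.h := by
      intro t l hr he he'
      have hh := hr.f.h (he.wire.2 hl.1)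
      have e1 : ¬ (claims L t).x0 = true := by rw [he.x0 K.hL]; exact n1
      have e3 : ¬ (claims L l).cut = true := by rw [he'.cut K.hL, r0]; omega
      have e2 : (claims L l).x0 = true := (he'.x0 K.hL).2 r0
      simp only [HRule, cell, e1, e2, e3, Bool.false_eq_true, false_and, true_and, if_false] at hh
      by_cases hq : l.fin.qx = some false
      · rw [if_pos hq] at hh ⊢
        have hz := hr.r.left e2 hq
        funext j
        fin_cases j
        exacts [hz.1, hh.1.symm, hz.2, hh.2.symm]
      · rw [if_neg hq] at hh ⊢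
        exact hh.symm
    rw [F hr he he', F hr' he1 he1', eg, eg']
  rcases lt_trichotomy X 0 with hneg | rfl | hpos
  · have first : CV L C h (-1) Y fun t => t.fin.h := by
      rw [show (-1 : ℤ) = 0 - 1 by norm_num]
      refine K.moveL K.hI (kn _) (kn _)
        (fun v : Quad × Option Bool =>
          if v.2 = some false then ![v.1 1, false, v.1 3, false] else v.1)
        (K.pair zero (K.qx_col (Or.inl rfl) Y)) fun t l hr _ _ he he' => ?_
      have r1 : res L (0 - 1) = -1 + H L := by rw [res_neg (by omega) (by omega)]; omega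
      have hh := hr.f.h (he.wire.2 hl.1)
      have e1 : (claims L t).x0 = true := (he.x0 K.hL).2 (by simp [res])
      have e2 : ¬ (claims L l).x0 = true := by rw [he'.x0 K.hL, r1]; omega
      have e3 : ¬ (claims L l).cut = true := by rw [he'.cut K.hL, r1]; omega
      simp only [HRule, cell, e1, e2, e3, Bool.false_eq_true, false_and, true_and, if_false] at hh
      by_cases hq : t.fin.qx = some false
      · rw [if_pos hq] at hh
        simp only [if_pos hq]
        have hz := hr.r.right e1 hq
        funext j
        fin_cases j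
        exacts [(congrFun hh 1).symm, hz.1, (congrFun hh 3).symm, hz.2]
      · rw [if_neg hq] at hh
        simp only [if_neg hq]
        exact hh.symm
    refine seg_down (P := fun x => CV L C h x Y fun t => t.fin.h) first (fun z z1 z2 hv => ?_)
      le_rfl (show X ≤ -1 by omega)
    refine K.moveL K.hI (kn _) (kn _) id hv fun t l hr _ _ he he' => (h_eq K.hL hr he he' hl.1
      ?_ ?_ ?_).symm <;> rw [res_neg (by omega) (by omega)] <;> omega
  · exact zero
  · rcases le_or_gt X (cutX L : ℤ) with hle | hgt
    · exact mid X (by omega) hle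
    have next' : CV L C h ((cutX L : ℤ) + 1) Y fun t => t.fin.h := by
      refine K.moveR (kn _) (kn _)
        (fun v : Quad × Option Bool =>
          if v.2 = some true then ![v.1 0, false, v.1 2, false] else v.1)
        (K.pair (f := fun t => t.fin.h) (g := fun t => t.fin.qx)
          (by rw [add_sub_cancel_right]; exact mid _ (by omega) le_rfl)
          (by rw [add_sub_cancel_right]; exact K.qx_col (Or.inr rfl) Y))
        fun t l hr _ _ he he' => ?_
      have r1 : res L ((cutX L : ℤ) + 1) = (cutX L : ℤ) + 1 := res_pos (by omega) (by omega)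
      have r2 : res L ((cutX L : ℤ) + 1 - 1) = cutX L := by
        rw [add_sub_cancel_right]; exact res_pos (by omega) (by omega)
      have hh := hr.f.h (he.wire.2 hl.1)
      have e1 : ¬ (claims L t).x0 = true := by rw [he.x0 K.hL, r1]; omega
      have e2 : ¬ (claims L l).x0 = true := by rw [he'.x0 K.hL, r2]; omega
      have e3 : (claims L l).cut = true := (he'.cut K.hL).2 r2
      simp only [HRule, cell, e1, e2, e3, Bool.false_eq_true, false_and, true_and, if_false] at hh
      by_cases hq : l.fin.qx = some true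
      · rw [if_pos hq] at hh
        simp only [if_pos hq]
        exact hh
      · rw [if_neg hq] at hh
        simp only [if_neg hq]
        exact hh
    refine seg_up (P := fun x => CV L C h x Y fun t => t.fin.h) next' (fun z z1 z2 hv => ?_)
      (show (cutX L : ℤ) + 1 ≤ X by omega) le_rfl
    refine K.moveR (kn _) (kn _) id hv fun t l hr _ _ he he' => h_eq K.hL hr he he' hl.1
      ?_ ?_ ?_ <;> rw [res_pos (by omega) (by omega)] <;> omega

/-- The half of the quarter on the left, at its cut. -/
lemma qx_left (K : Ctx Λ o C h) (Y : ℤ) :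
    CV L C h ((cutX L : ℤ) - H L) Y fun t => t.fin.qx := by
  obtain ⟨hy8, hhY, hH, hlK, hc, -, hM⟩ := frame_sizes K.hL
  obtain ⟨hl, hrw⟩ := live_wireRow K.hL (A_le_lastK L)
  obtain ⟨hw1, hw2⟩ := wire_row K.hL (k := A - 1) (by have := A_le_lastK L; omega)
  have r0 : res L ((cutX L : ℤ) - H L) = cutX L := by rw [res_neg (by omega) (by omega)]; omega
  refine K.qx_vert (Or.inr r0) (Y₀ := ((wireY L (A - 1) : ℕ) : ℤ)) ?_ Y
  have key : CV L C h ((cutX L : ℤ) - H L + 1 - 1) ((wireY L (A - 1) : ℕ) : ℤ)
      fun t => t.fin.qx := by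
    refine K.moveL (K.hI.inter (ones_invariant K.hL K.hl K.hI)) (Or.inr (Or.inr hl))
      (Or.inr (Or.inr hl)) (fun b : Bool => some (!b)) (g := fun t => t.fin.h 1) ?_
      fun t l hr hi hi' he he' => ?_
    · exact K.of1 (K.h_all (by omega) (by omega) (by omega) (by omega)) _
        fun _ _ _ _ _ _ _ _ e => congrFun e 1
    have r1 : res L ((cutX L : ℤ) - H L + 1) = (cutX L : ℤ) + 1 := by
      rw [res_neg (by omega) (by omega)]; omega
    rw [add_sub_cancel_right] at he'
    have one : l.fin.h 1 = true := hi'.2 he'.1 ((he'.eq_y _).2 hrw) ((he'.eq_x _).2 r0)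
    have hh := hr.f.h (he.wire.2 hl.1)
    have e1 : ¬ (claims L t).x0 = true := by rw [he.x0 K.hL, r1]; omega
    have e2 : ¬ (claims L l).x0 = true := by rw [he'.x0 K.hL, r0]; omega
    have e3 : (claims L l).cut = true := (he'.cut K.hL).2 r0
    simp only [HRule, cell, e1, e2, e3, Bool.false_eq_true, false_and, true_and, if_false] at hh
    have hs : l.fin.qx.isSome = true :=
      (he'.qx_isSome K.hL hr.left).2 (Or.inr (Or.inl r0))
    obtain ⟨b, hb⟩ := Option.isSome_iff_exists.1 hs
    rw [hb] at hh ⊢
    cases b <;> simp at hh <;> simp [hh, one]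
  rwa [add_sub_cancel_right] at key

/-- The horizontal half of a tile in range. -/
lemma qx_all (K : Ctx Λ o C h) (hX : (cutX L : ℤ) - H L < X) (hX' : X < H L)
    (hY : (halfY L : ℤ) - H L < Y) (hY' : Y < H L) : CV L C h X Y fun t => t.fin.qx := by
  obtain ⟨hy8, hhY, hH, hlK, hc, hq2, hM⟩ := frame_sizes K.hL
  by_cases h0 : res L X = 0 ∨ res L X = cutX L
  · refine K.qx_col ?_ Y
    rcases lt_or_ge X 0 with hn | hn
    · rw [res_neg hn (by omega)] at h0
      omega
    · rw [res_pos hn hX'] at h0
      exact h0
  by_cases hq : res L Y = rowQY L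
  swap
  · refine K.const _ fun t t' r r' _ _ he he' => ?_
    have e : ∀ {t : St}, E L X Y t → TileRules L t → t.fin.qx = none := fun he r =>
      Option.not_isSome_iff_eq_none.1 fun hs =>
        ((he.qx_isSome K.hL r).1 hs).elim (fun h => h0 (Or.inl h))
          fun hs => hs.elim (fun h => h0 (Or.inr h)) hq
    rw [e he r, e he' r']
  by_cases hk : Known L X Y
  swap
  · exact K.const _ fun t t' _ _ hi _ he _ => absurd (he.known hi) hk
  obtain rfl : Y = ((rowQY L : ℕ) : ℤ) := by
    rcases lt_or_ge Y 0 with hn | hn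
    · rw [res_neg hn (by omega)] at hq
      omega
    · rw [res_pos hn hY'] at hq
      exact hq
  have hband : BandAt L X := by
    rcases hk with hk | hk | hk
    · exact hk
    · omega
    · exfalso
      rw [hq, Int.toNat_natCast] at hk
      have e2 : mid L (rowQY L) = 2 :=
        ((rowQ_iff (y := rowQY L) K.hL).2 rfl).2.1
      have := hk.1.2
      omega
  rw [bandAt_iff K.hL] at hband
  rcases lt_or_ge X 0 with hn | hn
  · rw [res_neg hn (by omega)] at hband
    refine K.qx_row (a := (cutX L : ℤ) - H L) (b := ((8 * M L : ℕ) : ℤ) - H L - 1)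
      (fun k k1 k2 => ?_) (fun k k1 k2 => ?_) le_rfl (by omega) (by omega) (by omega)
      (K.qx_left _)
    · rw [bandAt_iff K.hL, res_neg (by omega) (by omega)]
      omega
    · rw [res_neg (by omega) (by omega)]
      omega
  · rw [res_pos hn hX'] at hband
    refine K.qx_row (a := 0) (b := ((8 * M L : ℕ) : ℤ) - 1) (fun k k1 k2 => ?_)
      (fun k k1 k2 => ?_) (by omega) (by omega) hn (by omega) K.qx_half
    · rw [bandAt_iff K.hL, res_pos k1 (by omega)]
      omega
    · rw [res_pos (by omega) (by omega)]
      omega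

end Ctx

end Vale.Agent.P196.Tile.Rigid
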