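import Vale.Agent.P196.Tile.Rigid.Virtual
import Vale.Agent.P196.Tile.Rigid.Link
import Vale.Agent.P196.Tile.Levels

/-!
P196, module D (rigidity): the tiles of one lattice of a virtual level.

`T i P` is the event that the cell `i` of the lattice through `o` is an origin whose tile has the
property `P`. Rules holding in valid windows turn into derivation steps between neighbouring cells.
-/

noncomputable section

namespace Vale.Agent.P196.Tile.Rigid

open SFT Finset
open scoped Classical

variable {S : SFT} {L : ℕ}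

namespace Virtual

variable (Λ : Virtual S L)

/-- The event that the window read at `v` has the property `P`. -/
def win (v : V) (P : Quad4 St → Prop) : S.Obs where
  supp := Λ.area v
  val x := decide (∃ q, Λ.rd v x = some q ∧ P q)
  dep x y h := by rw [Λ.rd_dep v x y h]

@[simp] lemma win_supp (v : V) (P : Quad4 St → Prop) : (Λ.win v P).supp = Λ.area v := rfl

lemma win_val_iff (v : V) (P : Quad4 St → Prop) (x : V → S.A) :
    (Λ.win v P).val x = true ↔ ∃ q, Λ.rd v x = some q ∧ P q := by
  simp only [win, decide_eq_true_eq]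

lemma win_val_some {v : V} {P : Quad4 St → Prop} {x : V → S.A} {q : Quad4 St}
    (h : Λ.rd v x = some q) : (Λ.win v P).val x = true ↔ P q := by
  rw [win_val_iff, h]
  simp

lemma win_val_none {v : V} {P : Quad4 St → Prop} {x : V → S.A} (h : Λ.rd v x = none) :
    (Λ.win v P).val x = false := by
  simp [win, h]

/-- The tiles of a window are the tiles of its neighbours. -/
def Linked : Prop :=
  ∀ (v : V) (j : Fin 4) (P : St → Prop),
    S.Link (Λ.win v fun q => P (q j)) (Λ.win (v - (Λ.Q : ℤ) • dir j) fun q => P (q 0))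

/-- The cell `i` of the lattice through `o`. -/
def cell (o i : V) : V := o + (Λ.Q : ℤ) • i

/-- The event that the tile at the cell `i` of the lattice through `o` has the property `P`. -/
def T (o i : V) (P : St → Prop) : S.Obs := Λ.win (Λ.cell o i) fun q => P (q 0)

@[simp] lemma T_supp (o i : V) (P : St → Prop) : (Λ.T o i P).supp = Λ.area (Λ.cell o i) := rfl

lemma T_ctx (o i : V) (P : St → Prop) : S.Context (Λ.T o i P).supp := Λ.area_ctx _

variable {Λ}

lemma Linked.tile (hl : Λ.Linked) (o i : V) (j : Fin 4) (P : St → Prop) :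
    S.Link (Λ.win (Λ.cell o i) fun q => P (q j)) (Λ.T o (i - dir j) P) := by
  have h := hl (Λ.cell o i) j P
  rwa [show Λ.cell o i - (Λ.Q : ℤ) • dir j = Λ.cell o (i - dir j) by
    simp only [cell, smul_sub]; abel] at h

/-- Linked transfers in both directions link all tiles of a window. -/
lemma linked_of_transfers (ht : Λ.Transfers) : Λ.Linked := by
  intro v j P
  have e : ∀ (w : V) (i : Fin 4), S.Link (Λ.win w fun q => P (q i))
      (Λ.ev w i fun t => decide (P t)) := fun w i =>
    link_same (Λ.area_ctx w) subset_rfl subset_rfl fun a _ => by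
      rw [ev_val, Bool.eq_iff_iff, win_val_iff]
      cases Λ.rd w a <;> simp
  refine (e v j).trans (Link.trans ?_ (e _ 0).symm)
  have r0 := ht.right₀ (v - ((Λ.Q : ℤ), 0)) fun t => decide (P t)
  have u0 := ht.up₀ (v - (0, (Λ.Q : ℤ))) fun t => decide (P t)
  rw [sub_add_cancel] at r0 u0
  fin_cases j
  · have h0 : S.Context (Λ.ev v 0 fun t => decide (P t)).supp := Λ.area_ctx v
    simpa [dir, show ((0 : ℤ), (0 : ℤ)) = (0 : V) from rfl] using Link.refl h0
  · simpa [dir] using r0
  · simpa [dir] using u0
  · have r2 := ht.right₂ (v - ((Λ.Q : ℤ), 0)) fun t => decide (P t)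
    have u0' := ht.up₀ (v - ((Λ.Q : ℤ), 0) - (0, (Λ.Q : ℤ))) fun t => decide (P t)
    rw [sub_add_cancel] at r2 u0'
    have := r2.trans u0'
    simpa [dir, sub_sub] using this

/-- Neighbouring tiles commute. -/
lemma Linked.com_window (hl : Λ.Linked) (o i : V) (j j' : Fin 4) (P P' : St → Prop) :
    S.Com (Λ.T o (i - dir j) P) (Λ.T o (i - dir j') P') :=
  Link.com_both (hl.tile o i j P).symm (hl.tile o i j' P').symm
    ((Λ.area_ctx (Λ.cell o i)).com subset_rfl subset_rfl)

/-- Tiles of one cell commute. -/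
lemma com_tile (o i : V) (P P' : St → Prop) : S.Com (Λ.T o i P) (Λ.T o i P') :=
  (Λ.area_ctx (Λ.cell o i)).com subset_rfl subset_rfl

/-- A property holding on all tiles read, outside null events. -/
def Invariant (Λ : Virtual S L) (o : V) (Inv : St → Prop) : Prop :=
  ∀ i, Null (Λ.T o i fun t => ¬ Inv t)

lemma invariant_true (o : V) : Λ.Invariant o fun _ => True := fun i =>
  null_of_false (Λ.area_ctx _) subset_rfl fun a _ => by simp [T, win]

/-- The event that some tile of the window lacks the invariant. -/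
lemma Invariant.window {o : V} {Inv : St → Prop} (hI : Λ.Invariant o Inv) (hl : Λ.Linked)
    (i : V) : Null (Λ.win (Λ.cell o i) fun q => ∃ j, ¬ Inv (q j)) := by
  refine null_of_le (fun j : Fin 4 => Λ.win (Λ.cell o i) fun q => ¬ Inv (q j))
    (Λ.area_ctx _) subset_rfl (fun _ => subset_rfl)
    (fun j => Null.of_link (hl.tile o i j fun t => ¬ Inv t) (hI _)) fun a _ ha => ?_
  obtain ⟨q, hq, j, hj⟩ := (Λ.win_val_iff _ _ a).1 ha
  exact ⟨j, (Λ.win_val_iff _ _ a).2 ⟨q, hq, hj⟩⟩

lemma Invariant.inter {o : V} {I I' : St → Prop} (hI : Λ.Invariant o I)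
    (hI' : Λ.Invariant o I') : Λ.Invariant o fun t => I t ∧ I' t := fun i => by
  refine null_of_le (fun b : Bool => Λ.T o i fun t => if b then ¬ I t else ¬ I' t)
    (Λ.area_ctx _) subset_rfl (fun _ => subset_rfl)
    (fun b => by cases b <;> simpa using (by assumption : Λ.Invariant o _) i) fun a _ ha => ?_
  obtain ⟨q, hq, hn⟩ := (Λ.win_val_iff _ _ a).1 ha
  by_cases h : I (q 0)
  · exact ⟨false, (Λ.win_val_iff _ _ a).2 ⟨q, hq, fun h' => hn ⟨h, h'⟩⟩⟩
  · exact ⟨true, (Λ.win_val_iff _ _ a).2 ⟨q, hq, by simpa using h⟩⟩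

/-- The origins of one lattice are one event. -/
lemma Linked.origin_step (hl : Λ.Linked) (o i : V) (j : Fin 4) :
    S.Link (Λ.T o i fun _ => True) (Λ.T o (i - dir j) fun _ => True) := by
  have h0 := hl.tile o i 0 fun _ => True
  rw [show i - dir 0 = i by simp [dir]] at h0
  exact h0.symm.trans (hl.tile o i j fun _ => True)

/-- An equality of properties on valid windows links two tiles. -/
lemma link_step {o : V} {Inv : St → Prop} (hl : Λ.Linked) (hI : Λ.Invariant o Inv) (i : V)
    (j j' : Fin 4) (P P' : St → Prop)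
    (h : ∀ q, Valid L q → (∀ k, Inv (q k)) → (P (q j) ↔ P' (q j'))) :
    S.Link (Λ.T o (i - dir j) P) (Λ.T o (i - dir j') P') := by
  refine (hl.tile o i j P).symm.trans (Link.trans ?_ (hl.tile o i j' P'))
  refine (hI.window hl i).link_of_eq (Λ.area_ctx _) subset_rfl subset_rfl subset_rfl
    fun a ha hN => ?_
  cases hr : Λ.rd (Λ.cell o i) a with
  | none => rw [win_val_none Λ hr, win_val_none Λ hr]
  | some q =>
    have hv := Λ.valid _ a q ha hr
    have hI' : ∀ k, Inv (q k) := fun k => by
      by_contra hk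
      exact Bool.false_ne_true (hN.symm.trans ((win_val_some Λ hr).2 ⟨k, hk⟩))
    rw [Bool.eq_iff_iff, win_val_some Λ hr, win_val_some Λ hr]
    exact h q hv hI'

/-- A property implying, on valid windows, one of finitely many null ones is null. -/
lemma null_step {o : V} {Inv : St → Prop} (hl : Λ.Linked) (hI : Λ.Invariant o Inv) {ι : Type}
    [Fintype ι] (i : V) (j : Fin 4) (P : St → Prop) (js : ι → Fin 4) (Ps : ι → St → Prop)
    (h : ∀ q, Valid L q → (∀ k, Inv (q k)) → P (q j) → ∃ m, Ps m (q (js m)))
    (hn : ∀ m, Null (Λ.T o (i - dir (js m)) (Ps m))) :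
    Null (Λ.T o (i - dir j) P) := by
  refine Null.of_link (hl.tile o i j P).symm ?_
  refine null_of_le (fun m : Option ι => Λ.win (Λ.cell o i)
      fun q => m.elim (∃ k, ¬ Inv (q k)) fun m => Ps m (q (js m)))
    (Λ.area_ctx _) subset_rfl (fun _ => subset_rfl) (fun m => ?_) fun a ha hv => ?_
  · cases m with
    | none => exact hI.window hl i
    | some m => exact Null.of_link (hl.tile o i (js m) (Ps m)) (hn m)
  · obtain ⟨q, hq, hP⟩ := (Λ.win_val_iff _ _ a).1 hv
    by_cases hk : ∀ k, Inv (q k)
    · obtain ⟨m, hm⟩ := h q (Λ.valid _ a q ha hq) hk hP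
      exact ⟨some m, (Λ.win_val_iff _ _ a).2 ⟨q, hq, hm⟩⟩
    · exact ⟨none, (Λ.win_val_iff _ _ a).2 ⟨q, hq, not_forall.1 hk⟩⟩

variable (Λ)

/-- The tile at the cell `i` with the property `P` commutes with `o'`. -/
def Ok (o : V) (o' : S.Obs) (i : V) (P : St → Prop) : Prop := S.Com (Λ.T o i P) o'

variable {Λ}

lemma Ok.of_link {o : V} {o' : S.Obs} {i i' : V} {P P' : St → Prop}
    (h : S.Link (Λ.T o i P) (Λ.T o i' P')) (h' : Λ.Ok o o' i' P') : Λ.Ok o o' i P :=
  h.com h'

/-- A null property commutes with everything. -/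
lemma Ok.of_null {o : V} {o' : S.Obs} (ho' : S.Context o'.supp) {i : V} {P : St → Prop}
    (h : Null (Λ.T o i P)) : Λ.Ok o o' i P :=
  h.com ho'

/-- A property determined, on valid windows, by commuting ones of neighbouring tiles commutes. -/
lemma Ok.step {o : V} {Inv : St → Prop} {o' : S.Obs} (hl : Λ.Linked) (hI : Λ.Invariant o Inv)
    (ho' : S.Context o'.supp) {ι : Type} [Fintype ι] (i : V) (j : Fin 4) (P : St → Prop)
    (js : ι → Fin 4) (Ps : ι → St → Prop)
    (h : ∀ q q', Valid L q → Valid L q' → (∀ k, Inv (q k)) → (∀ k, Inv (q' k)) →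
      (∀ m, Ps m (q (js m)) ↔ Ps m (q' (js m))) → (P (q j) ↔ P (q' j)))
    (hg : Λ.Ok o o' i fun _ => True) (hm : ∀ m, Λ.Ok o o' (i - dir (js m)) (Ps m)) :
    Λ.Ok o o' (i - dir j) P := by
  refine (hl.tile o i j P).symm.com ?_
  refine (hI.window hl i).com_of_determined
    (fun m : Option ι => Λ.win (Λ.cell o i) fun q => m.elim True fun m => Ps m (q (js m)))
    (Λ.area_ctx _) subset_rfl subset_rfl (fun _ => subset_rfl) ho' (fun a b ha hb hNa hNb hab => ?_)
    fun m => ?_
  · have h0 := hab none
    rw [Bool.eq_iff_iff]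
    cases hra : Λ.rd (Λ.cell o i) a with
    | none =>
      cases hrb : Λ.rd (Λ.cell o i) b with
      | none => rw [win_val_none Λ hra, win_val_none Λ hrb]
      | some q' =>
        rw [win_val_none Λ hra] at h0
        exact absurd (h0.trans ((win_val_some Λ hrb).2 trivial)) Bool.false_ne_true
    | some q =>
      cases hrb : Λ.rd (Λ.cell o i) b with
      | none =>
        rw [win_val_none Λ hrb] at h0
        exact absurd (h0.symm.trans ((win_val_some Λ hra).2 trivial)) Bool.false_ne_true
      | some q' =>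
        rw [win_val_some Λ hra, win_val_some Λ hrb]
        refine h q q' (Λ.valid _ a q ha hra) (Λ.valid _ b q' hb hrb)
          (fun k => ?_) (fun k => ?_) fun m => ?_
        · by_contra hk
          exact Bool.false_ne_true (hNa.symm.trans ((win_val_some Λ hra).2 ⟨k, hk⟩))
        · by_contra hk
          exact Bool.false_ne_true (hNb.symm.trans ((win_val_some Λ hrb).2 ⟨k, hk⟩))
        · have := hab (some m)
          rwa [Bool.eq_iff_iff, win_val_some Λ hra, win_val_some Λ hrb] at this
  · cases m with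
    | none =>
      have e : i - dir 0 = i := by simp [dir]
      exact (hl.tile o i 0 fun _ => True).com (e.symm ▸ hg)
    | some m => exact (hl.tile o i (js m) (Ps m)).com (hm m)

end Virtual

end Vale.Agent.P196.Tile.Rigid
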