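import Vale.Agent.P196.Tile.Rigid.Link
import Vale.Agent.P196.Tile.Spec

/-!
P196, module D (rigidity): virtual levels.

A virtual level reads, in a fixed finite area next to every cell `v`, the window of tiles of some
level that has its origin at `v`, if there is one. Events at neighbouring virtual cells that speak
of the same tile are linked, cells off one lattice exclude each other, and what is read determines
the letters of the ground cells.
-/

namespace Vale.Agent.P196.SFT

open Finset

variable {S : SFT}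

/-- Observables with supports in one context commute. -/
lemma Context.com {U : Finset V} (hU : S.Context U) {o o' : S.Obs} (ho : o.supp ⊆ U)
    (ho' : o'.supp ⊆ U) : S.Com o o' := by
  refine com_of_forall_cells (hU.mono ho) (hU.mono ho') fun v hv d => ?_
  refine Com.symm _ _ (com_of_forall_cells (by simpa using context_singleton v) (hU.mono ho)
    fun u hu c => ?_)
  exact hU v (ho' hv) u (ho hu) d c

end Vale.Agent.P196.SFT

namespace Vale.Agent.P196.Tile.Rigid

open SFT Finset

/-- The square of radius `r` around `u`. -/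
noncomputable def boxAt (u : V) (r : ℕ) : Finset V :=
  Finset.Icc (u.1 - r, u.2 - r) (u.1 + r, u.2 + r)

lemma mem_boxAt {u v : V} {r : ℕ} :
    v ∈ boxAt u r ↔ (v.1 - u.1).natAbs ≤ r ∧ (v.2 - u.2).natAbs ≤ r := by
  simp only [boxAt, Finset.mem_Icc, Prod.le_def]
  omega

/-- The event that what is read at `v` has the property `P`. -/
def readObs {S : SFT} (area : V → Finset V) (rd : V → (V → S.A) → Option (Quad4 St))
    (hd : ∀ v a b, (∀ u ∈ area v, a u = b u) → rd v a = rd v b) (v : V)
    (P : Option (Quad4 St) → Bool) : S.Obs where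
  supp := area v
  val x := P (rd v x)
  dep x y h := congrArg P (hd v x y h)

/-- A virtual level of tiles of level `L`. -/
structure Virtual (S : SFT) (L : ℕ) where
  /-- The distance of neighbouring virtual cells. -/
  Q : ℕ
  Q_pos : 0 < Q
  area : V → Finset V
  area_ctx : ∀ v, S.Context (area v)
  area_le : ∀ v, ∀ u ∈ area v, u ∈ boxAt v (2 * Q)
  rd : V → (V → S.A) → Option (Quad4 St)
  rd_dep : ∀ v a b, (∀ u ∈ area v, a u = b u) → rd v a = rd v b
  valid : ∀ v a q, S.Admissible (area v) a → rd v a = some q → Valid L q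
  /-- The virtual cells that can determine the letter at a ground cell. -/
  near : V → Finset V
  near_le : ∀ u, ∀ v ∈ near u, v ∈ boxAt u (2 * Q)
  cover : ∀ (u : V) (o' : S.Obs), S.Context o'.supp →
    (∀ v ∈ near u, ∀ P, S.Com (readObs area rd rd_dep v P) o') → S.CellCom u o'
  /-- Virtual cells off one lattice exclude each other. -/
  excl : ∀ v v' : V, ¬ ((Q : ℤ) ∣ v'.1 - v.1 ∧ (Q : ℤ) ∣ v'.2 - v.2) →
    ∃ c c' : S.Obs, c.supp ⊆ area v ∧ c'.supp ⊆ area v' ∧ S.Link c c' ∧
      (∀ a, S.Admissible (area v) a → (rd v a).isSome = true → c.val a = true) ∧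
      (∀ a, S.Admissible (area v') a → (rd v' a).isSome = true → c'.val a = false)

namespace Virtual

variable {S : SFT} {L : ℕ} (Λ : Virtual S L)

/-- The event that what is read at `v` has the property `P`. -/
def qev (v : V) (P : Option (Quad4 St) → Bool) : S.Obs := readObs Λ.area Λ.rd Λ.rd_dep v P

/-- The event that the tile `j` of the window read at `v` exists and has the property `P`. -/
def ev (v : V) (j : Fin 4) (P : St → Bool) : S.Obs :=
  Λ.qev v fun r => r.elim false fun q => P (q j)

@[simp] lemma qev_supp (v : V) (P : Option (Quad4 St) → Bool) :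
    (Λ.qev v P).supp = Λ.area v := rfl

@[simp] lemma qev_val (v : V) (P : Option (Quad4 St) → Bool) (x : V → S.A) :
    (Λ.qev v P).val x = P (Λ.rd v x) := rfl

@[simp] lemma ev_supp (v : V) (j : Fin 4) (P : St → Bool) : (Λ.ev v j P).supp = Λ.area v := rfl

@[simp] lemma ev_val (v : V) (j : Fin 4) (P : St → Bool) (x : V → S.A) :
    (Λ.ev v j P).val x = (Λ.rd v x).elim false fun q => P (q j) := rfl

/-- The values read on admissible patterns. -/
def Allowed (r : Option (Quad4 St)) : Prop := ∀ q, r = some q → Valid L q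

lemma rd_allowed {v : V} {a : V → S.A} (ha : S.Admissible (Λ.area v) a) :
    Allowed (L := L) (Λ.rd v a) :=
  fun q hq => Λ.valid v a q ha hq

/-- What is read at `v` has finitely many values. -/
lemma finite_range (v : V) : (Set.range (Λ.rd v)).Finite := by
  classical
  rcases isEmpty_or_nonempty (V → S.A) with he | ⟨⟨a₀⟩⟩
  · exact Set.finite_range _
  refine (Set.finite_range fun p : Λ.area v → S.A =>
    Λ.rd v fun u => if h : u ∈ Λ.area v then p ⟨u, h⟩ else a₀ u).subset ?_
  rintro _ ⟨a, rfl⟩
  exact ⟨fun u => a u.1, Λ.rd_dep v _ _ fun u hu => by simp [hu]⟩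

lemma com_self (v : V) (P P' : Option (Quad4 St) → Bool) :
    S.Com (Λ.qev v P) (Λ.qev v P') :=
  (Λ.area_ctx v).com subset_rfl subset_rfl

lemma link_qev {v : V} {P P' : Option (Quad4 St) → Bool}
    (h : ∀ r, Allowed (L := L) r → P r = P' r) : S.Link (Λ.qev v P) (Λ.qev v P') :=
  link_same (Λ.area_ctx v) subset_rfl subset_rfl fun _ ha => h _ (Λ.rd_allowed ha)

lemma null_qev {v : V} {P : Option (Quad4 St) → Bool}
    (h : ∀ r, Allowed (L := L) r → P r = false) : Null (Λ.qev v P) :=
  null_of_false (Λ.area_ctx v) subset_rfl fun _ ha => h _ (Λ.rd_allowed ha)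

/-- An event that is, on valid windows, a function of commuting events at the same virtual
cell. -/
lemma com_of_qevs {ι : Type} [Finite ι] {v : V} (Ps : ι → Option (Quad4 St) → Bool)
    {P : Option (Quad4 St) → Bool} {o' : S.Obs} (ho' : S.Context o'.supp)
    (hdet : ∀ r r', Allowed (L := L) r → Allowed (L := L) r' →
      (∀ i, Ps i r = Ps i r') → P r = P r')
    (hcom : ∀ i, S.Com (Λ.qev v (Ps i)) o') : S.Com (Λ.qev v P) o' := by
  have := Fintype.ofFinite ι
  exact com_of_determined _ o' (fun i => Λ.qev v (Ps i)) (Λ.area v) subset_rfl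
    (fun _ => subset_rfl) (Λ.area_ctx v) ho'
    (fun a b ha hb hab => hdet _ _ (Λ.rd_allowed ha) (Λ.rd_allowed hb) hab) hcom

/-- An event at `v` separated from one at `v'` by linked events. -/
lemma com_of_link_sep {v v' : V} {P P' C C' : Option (Quad4 St) → Bool}
    (hl : S.Link (Λ.qev v C) (Λ.qev v' C'))
    (h1 : ∀ r, Allowed (L := L) r → P r = true → C r = true)
    (h2 : ∀ r, Allowed (L := L) r → P' r = true → C' r = false) :
    S.Com (Λ.qev v P) (Λ.qev v' P') :=
  com_exclusive (c := Λ.qev v C) (c' := Λ.qev v' C') (Λ.area_ctx v) (Λ.area_ctx v') subset_rfl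
    subset_rfl subset_rfl subset_rfl
    (fun _ ha => h1 _ (Λ.rd_allowed ha)) (fun _ ha => h2 _ (Λ.rd_allowed ha)) hl

/-- Virtual cells off one lattice commute. -/
lemma com_off {v v' : V} (h : ¬ ((Λ.Q : ℤ) ∣ v'.1 - v.1 ∧ (Λ.Q : ℤ) ∣ v'.2 - v.2))
    (P P' : Option (Quad4 St) → Bool) : S.Com (Λ.qev v P) (Λ.qev v' P') := by
  obtain ⟨c, c', hc, hc', hl, h1, h2⟩ := Λ.excl v v' h
  have key : ∀ F F' : Option (Quad4 St) → Bool, (∀ r, F r = true → r.isSome = true) →
      (∀ r, F' r = true → r.isSome = true) → S.Com (Λ.qev v F) (Λ.qev v' F') :=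
    fun F F' hF hF' => com_exclusive (Λ.area_ctx v) (Λ.area_ctx v') subset_rfl hc subset_rfl hc'
      (fun a ha hv => h1 a ha (hF _ hv)) (fun a ha hv => h2 a ha (hF' _ hv)) hl
  -- an arbitrary event is a function of two events inside the existence event
  have split : ∀ (w : V) (F : Option (Quad4 St) → Bool) (o' : S.Obs), S.Context o'.supp →
      (∀ G : Option (Quad4 St) → Bool, (∀ r, G r = true → r.isSome = true) →
        S.Com (Λ.qev w G) o') → S.Com (Λ.qev w F) o' := by
    intro w F o' ho' hG
    refine Λ.com_of_qevs (ι := Bool) (fun i r => if i then r.isSome else F r && r.isSome) ho'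
      (fun r r' _ _ hr => ?_) (fun i => hG _ fun r => by cases i <;> cases r <;> simp)
    have e1 := hr true
    have e2 := hr false
    cases r <;> cases r' <;> simp_all
  refine split v P _ (Λ.area_ctx v') fun F hF => ?_
  exact Com.symm _ _ (split v' P' _ (Λ.area_ctx v) fun F' hF' =>
    Com.symm _ _ (key F F' hF hF'))

/-- A ground cell commutes once the virtual cells near it do. -/
lemma cellCom {u : V} {o' : S.Obs} (ho' : S.Context o'.supp)
    (h : ∀ v ∈ Λ.near u, ∀ P, S.Com (Λ.qev v P) o') : S.CellCom u o' :=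
  Λ.cover u o' ho' h

/-- The links between neighbouring virtual cells: they speak of the same tiles. -/
structure Transfers : Prop where
  right₀ : ∀ (v : V) (P : St → Bool),
    S.Link (Λ.ev (v + ((Λ.Q : ℤ), 0)) 1 P) (Λ.ev v 0 P)
  right₂ : ∀ (v : V) (P : St → Bool),
    S.Link (Λ.ev (v + ((Λ.Q : ℤ), 0)) 3 P) (Λ.ev v 2 P)
  up₀ : ∀ (v : V) (P : St → Bool),
    S.Link (Λ.ev (v + (0, (Λ.Q : ℤ))) 2 P) (Λ.ev v 0 P)
  up₁ : ∀ (v : V) (P : St → Bool),
    S.Link (Λ.ev (v + (0, (Λ.Q : ℤ))) 3 P) (Λ.ev v 1 P)

end Virtual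

/-- Cells within distance `D` commute. -/
def Within (S : SFT) (D : ℕ) : Prop :=
  ∀ u v : V, v ∈ boxAt u D → ∀ c d : S.A, S.Com (S.cellObs u c) (S.cellObs v d)

lemma Within.context {S : SFT} {D : ℕ} (h : Within S D) {U : Finset V}
    (hU : ∀ a ∈ U, ∀ b ∈ U, b ∈ boxAt a D) : S.Context U :=
  fun a ha b hb c d => h a b (hU a ha b hb) c d

/-- If cells within every distance commute then all cells do. -/
lemma rigid_of_within {S : SFT} (h : ∀ n, ∃ D, n ≤ D ∧ Within S D) : S.Rigid := by
  intro u v c d
  obtain ⟨D, hD, hw⟩ := h (max (v.1 - u.1).natAbs (v.2 - u.2).natAbs)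
  exact hw u v (mem_boxAt.2 ⟨le_trans (le_max_left _ _) hD, le_trans (le_max_right _ _) hD⟩) c d

end Vale.Agent.P196.Tile.Rigid
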