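import Vale.Agent.P196.Tile.Rigid.Reading

/-!
P196, module D (rigidity): the windows of parents.

What is read at a cell is unique, a head without it is null, the tiles of a window are the own tiles
of the neighbouring parents, and parents off one lattice exclude each other.
-/

noncomputable section

namespace Vale.Agent.P196.Tile.Rigid

open SFT Finset
open scoped Classical

variable {S : SFT} {L : ℕ}

attribute [local irreducible] box

namespace Virtual

variable (Λ : Virtual S L)

/-- The bits show a valid window of parents. -/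
def ShownBy (L : ℕ) (b : ℕ → Quad) (q : Quad4 St) : Prop :=
  Valid (L + 1) q ∧ ∀ j, Encodes L (q j) fun k => b k j

/-- The window of parents read at `v`. -/
def readQuad (v : V) (a : V → S.A) : Option (Quad4 St) :=
  if h : (Λ.headObs v 0 false false).val a = true ∧ ∃ q, ShownBy L (Λ.bitsOf v a) q then
    some (Classical.choose h.2)
  else none

variable {Λ}

lemma shownBy_unique {b : ℕ → Quad} {q q' : Quad4 St} (h : ShownBy L b q) (h' : ShownBy L b q') :
    q = q' :=
  funext fun j => encodes_unique (bounded_of_valid h.1 j) (bounded_of_valid h'.1 j) (h.2 j) (h'.2 j)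

lemma readQuad_some {v : V} {a : V → S.A} {q : Quad4 St} :
    Λ.readQuad v a = some q ↔
      (Λ.headObs v 0 false false).val a = true ∧ ShownBy L (Λ.bitsOf v a) q := by
  unfold readQuad
  by_cases h : (Λ.headObs v 0 false false).val a = true ∧ ∃ q, ShownBy L (Λ.bitsOf v a) q
  · rw [dif_pos h, Option.some.injEq]
    exact ⟨fun e => ⟨h.1, e ▸ Classical.choose_spec h.2⟩,
      fun h' => shownBy_unique (Classical.choose_spec h.2) h'.2⟩
  · rw [dif_neg h]
    exact ⟨fun e => by simp at e, fun h' => absurd ⟨h'.1, q, h'.2⟩ h⟩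

lemma readQuad_isSome {v : V} {a : V → S.A} (h : (Λ.readQuad v a).isSome = true) :
    (Λ.headObs v 0 false false).val a = true := by
  obtain ⟨q, hq⟩ := Option.isSome_iff_exists.1 h
  exact (readQuad_some.1 hq).1

lemma readQuad_dep (hL : L₀ ≤ L) (v : V) (a b : V → S.A)
    (h : ∀ u ∈ Λ.areaU v (box L 0), a u = b u) : Λ.readQuad v a = Λ.readQuad v b := by
  have e1 := Λ.bitsOf_dep hL v h
  have e2 := (Λ.headObs v 0 false false).dep a b fun u hu => h u (head_sub v 0 false false hu)
  exact Option.ext fun q => by rw [readQuad_some, readQuad_some, e1, e2]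

/-- The event that the window of parents at `v` has the property `P`. -/
def quadEv (hL : L₀ ≤ L) (v : V) (P : Option (Quad4 St) → Prop) : S.Obs where
  supp := Λ.areaU v (box L 0)
  val a := decide (P (Λ.readQuad v a))
  dep a b h := by rw [readQuad_dep hL v a b h]

variable (hL : L₀ ≤ L) (hl : Λ.Linked) (hM : Meets Λ) (hB : BitStatement) (hP : ParentStatement)

include hL hl hM hB hP

/-- A head without a valid window of parents is null. -/
theorem null_invalid (v : V) : Null (Λ.readEv hL v fun b => ¬ ∃ q, ShownBy L b q) := by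
  have back : ∀ d : V, ∃ w, v = Λ.cell w d := fun d =>
    ⟨Λ.cell v (-d), by rw [cell_cell, neg_add_cancel, cell_zero]⟩
  have single : ∀ j : Fin 4, Null (Λ.readEv hL v fun b => ¬ Single L fun k => b k j) := by
    intro j
    obtain ⟨w, rfl⟩ := back ((side L : ℤ) • dir j)
    refine Null.of_link (link_single_comp hL hl hM hB w j fun β => ¬ Single L β).symm ?_
    exact null_read hL hl hM w fun c hc hn => hn (hP L c 0 hL hc).1
  have vpair : Null (Λ.readEv hL v fun b => ¬ VPair L (fun k => b k 1) fun k => b k 3) := by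
    obtain ⟨w, rfl⟩ := back ((side L : ℤ), 0)
    refine Null.of_link (link_read hL hl hM w _ (ι := Bool) (fun i => if i then 0 else 2)
      (fun i => if i then 1 else 3) ?_ (fun i k hk => ?_)
      fun f => ¬ VPair L (f true) (f false)).symm ?_
    · simpa using (link_head_side hL hl hM w 1 0).symm
    · refine link_right_parent hL hl hM hB w hk ?_
      cases i <;> simp
    · exact null_read hL hl hM w fun c hc hn => hn (hP L c 0 hL hc).2.1
  have hpair : Null (Λ.readEv hL v fun b => ¬ HPair L (fun k => b k 2) fun k => b k 3) := by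
    obtain ⟨w, rfl⟩ := back (0, (side L : ℤ))
    refine Null.of_link (link_read hL hl hM w _ (ι := Bool) (fun i => if i then 0 else 1)
      (fun i => if i then 2 else 3) ?_ (fun i k hk => ?_)
      fun f => ¬ HPair L (f true) (f false)).symm ?_
    · simpa using (link_head_side hL hl hM w 0 1).symm
    · refine link_up_parent hL hl hM hB w hk ?_
      cases i <;> simp
    · exact null_read hL hl hM w fun c hc hn => hn (hP L c 0 hL hc).2.2.1
  refine null_of_le (ι := Option (Fin 4 ⊕ Bool)) (fun m => m.elim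
      (Λ.bad v (fun _ => True) (box L 0)) (Sum.elim
        (fun j => Λ.readEv hL v fun b => ¬ Single L fun k => b k j)
        fun i => if i then Λ.readEv hL v fun b => ¬ VPair L (fun k => b k 1) fun k => b k 3
          else Λ.readEv hL v fun b => ¬ HPair L (fun k => b k 2) fun k => b k 3))
    (ctx_box hL hl hM v 0) subset_rfl
    (fun m => by rcases m with _ | j | (_ | _) <;> exact subset_rfl)
    (fun m => by
      rcases m with _ | j | (_ | _)
      exacts [bad_null hl (invariant_true v) (ctx_box hL hl hM v 0), single j, hpair, vpair])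
    fun a ha hv => ?_
  obtain ⟨hh, hn⟩ := (Λ.readEv_val_iff hL v _ a).1 hv
  cases hb : (Λ.bad v (fun _ => True) (box L 0)).val a
  swap
  · exact ⟨none, hb⟩
  obtain ⟨c, hc, e⟩ := corner_read hL ha hb hh
  by_cases h1 : ∀ j, Single L fun k => Λ.bitsOf v a k j
  swap
  · obtain ⟨j, hj⟩ := not_forall.1 h1
    exact ⟨some (Sum.inl j), (Λ.readEv_val_iff hL v (fun b => ¬ Single L fun k => b k j) a).2
      ⟨hh, hj⟩⟩
  by_cases h2 : VPair L (fun k => Λ.bitsOf v a k 1) fun k => Λ.bitsOf v a k 3
  swap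
  · exact ⟨some (Sum.inr true), (Λ.readEv_val_iff hL v
      (fun b => ¬ VPair L (fun k => b k 1) fun k => b k 3) a).2 ⟨hh, h2⟩⟩
  by_cases h3 : HPair L (fun k => Λ.bitsOf v a k 2) fun k => Λ.bitsOf v a k 3
  swap
  · exact ⟨some (Sum.inr false), (Λ.readEv_val_iff hL v
      (fun b => ¬ HPair L (fun k => b k 2) fun k => b k 3) a).2 ⟨hh, h3⟩⟩
  rw [e] at h1 h2 h3 hn
  exact absurd ((hP L c 0 hL hc).2.2.2 h1 h2 h3) hn

/-- Outside the invalid event, a window property is one of the bits. -/
theorem link_quadEv (v : V) {P : Option (Quad4 St) → Prop} {Φ : (ℕ → Quad) → Prop}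
    (hn : ¬ P none) (h : ∀ b q, ShownBy L b q → (P (some q) ↔ Φ b)) :
    S.Link (quadEv (Λ := Λ) hL v P) (Λ.readEv hL v Φ) := by
  refine (null_invalid hL hl hM hB hP v).link_of_eq (ctx_box hL hl hM v 0) subset_rfl subset_rfl
    subset_rfl fun a _ hN => ?_
  rw [Bool.eq_iff_iff, readEv_val_iff]
  show decide (P (Λ.readQuad v a)) = true ↔ _
  rw [decide_eq_true_iff]
  cases hr : Λ.readQuad v a with
  | none =>
    refine ⟨fun h' => absurd h' hn, fun ⟨h1, _⟩ => absurd ?_ (Bool.eq_false_iff.1 hN)⟩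
    refine (Λ.readEv_val_iff hL v _ a).2 ⟨h1, fun ⟨q, hq⟩ => ?_⟩
    rw [readQuad_some.2 ⟨h1, hq⟩] at hr
    exact Option.some_ne_none _ hr
  | some q =>
    obtain ⟨h1, h2⟩ := readQuad_some.1 hr
    exact ⟨fun h' => ⟨h1, (h _ q h2).1 h'⟩, fun h' => (h _ q h2).2 h'.2⟩

/-- The tiles of a window of parents are those of its neighbours. -/
theorem link_parents (w : V) (j : Fin 4) (P : St → Prop) :
    S.Link (quadEv (Λ := Λ) hL (Λ.cell w ((side L : ℤ) • dir j))
        fun r => ∃ q, r = some q ∧ P (q j))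
      (quadEv (Λ := Λ) hL w fun r => ∃ q, r = some q ∧ P (q 0)) := by
  have key : ∀ v (i : Fin 4), S.Link (quadEv (Λ := Λ) hL v fun r => ∃ q, r = some q ∧ P (q i))
      (Λ.readEv hL v fun b => ∃ t, Scanning.Bounded (L + 1) t ∧ Encodes L t (fun k => b k i) ∧
        P t) := fun v i => by
    refine link_quadEv hL hl hM hB hP v (by simp) fun b q hq => ?_
    constructor
    · rintro ⟨q', hq', hp⟩
      cases hq'
      exact ⟨_, bounded_of_valid hq.1 i, hq.2 i, hp⟩
    · rintro ⟨t, h1, h2, hp⟩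
      exact ⟨q, rfl, encodes_unique (bounded_of_valid hq.1 i) h1 (hq.2 i) h2 ▸ hp⟩
  exact (key _ j).trans ((link_single_comp hL hl hM hB w j
    fun β => ∃ t, Scanning.Bounded (L + 1) t ∧ Encodes L t β ∧ P t).symm.trans (key w 0).symm)

omit hB hP in
/-- Parents off one lattice exclude each other. -/
theorem parents_excl (v v' : V)
    (h : ¬ (((side L * Λ.Q : ℕ) : ℤ) ∣ v'.1 - v.1 ∧ ((side L * Λ.Q : ℕ) : ℤ) ∣ v'.2 - v.2)) :
    ∃ c c' : S.Obs, c.supp ⊆ Λ.areaU v (box L 0) ∧ c'.supp ⊆ Λ.areaU v' (box L 0) ∧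
      S.Link c c' ∧
      (∀ a, S.Admissible (Λ.areaU v (box L 0)) a → (Λ.readQuad v a).isSome = true →
        c.val a = true) ∧
      (∀ a, S.Admissible (Λ.areaU v' (box L 0)) a → (Λ.readQuad v' a).isSome = true →
        c'.val a = false) := by
  have self : ∀ w : V, Λ.area (Λ.cell w 0) ⊆ Λ.areaU w (box L 0) :=
    fun w => Λ.area_sub (origin_mem_box 0)
  have own : ∀ (w : V) a, (Λ.readQuad w a).isSome = true →
      ∃ q, Λ.rd (Λ.cell w 0) a = some q ∧ Head false false (q 0) := fun w a ha =>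
    (Λ.win_val_iff _ _ a).1 (readQuad_isSome ha)
  by_cases hQ : (Λ.Q : ℤ) ∣ v'.1 - v.1 ∧ (Λ.Q : ℤ) ∣ v'.2 - v.2
  swap
  · obtain ⟨c, c', hc, hc', hlk, h1, h2⟩ := Λ.excl v v' hQ
    have hv : ∀ w : V, Λ.area w ⊆ Λ.areaU w (box L 0) := fun w => by
      have := self w; rwa [cell_zero] at this
    refine ⟨c, c', hc.trans (hv v), hc'.trans (hv v'), hlk, fun a ha hs => ?_, fun a ha hs => ?_⟩
    · obtain ⟨q, hq, -⟩ := own v a hs
      rw [cell_zero] at hq
      exact h1 a (fun u hu => ha u fun p => hv v (hu p)) (by simp [hq])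
    · obtain ⟨q, hq, -⟩ := own v' a hs
      rw [cell_zero] at hq
      exact h2 a (fun u hu => ha u fun p => hv v' (hu p)) (by simp [hq])
  obtain ⟨⟨x, hx⟩, y, hy⟩ := hQ
  obtain rfl : v' = Λ.cell v (x, y) := by ext <;> simp [cell] <;> omega
  have hsub : Λ.area (Λ.cell v (x, y)) ⊆ Λ.areaU (Λ.cell v (x, y)) (box L 0) := by
    have := self (Λ.cell v (x, y)); rwa [cell_zero] at this
  have own' : ∀ a, (Λ.readQuad (Λ.cell v (x, y)) a).isSome = true →
      ∃ q, Λ.rd (Λ.cell v (x, y)) a = some q ∧ Head false false (q 0) := fun a ha => by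
    obtain ⟨q, hq, hh⟩ := own _ a ha
    rw [cell_zero] at hq
    exact ⟨q, hq, hh⟩
  -- an event at `v` and a linked one at `v'`
  have mk : ∀ (P P' : St → Prop), S.Link (Λ.T v 0 P) (Λ.T v (x, y) P') →
      (∀ t, Head false false t → P t) → (∀ t, Head false false t → ¬ P' t) →
      ∃ c c' : S.Obs, c.supp ⊆ Λ.areaU v (box L 0) ∧
        c'.supp ⊆ Λ.areaU (Λ.cell v (x, y)) (box L 0) ∧ S.Link c c' ∧
        (∀ a, S.Admissible (Λ.areaU v (box L 0)) a → (Λ.readQuad v a).isSome = true →
          c.val a = true) ∧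
        (∀ a, S.Admissible (Λ.areaU (Λ.cell v (x, y)) (box L 0)) a →
          (Λ.readQuad (Λ.cell v (x, y)) a).isSome = true → c'.val a = false) := by
    intro P P' hlk h1 h2
    refine ⟨_, _, self v, hsub, hlk, fun a _ hs => ?_, fun a _ hs => ?_⟩
    · obtain ⟨q, hq, hh⟩ := own v a hs
      exact (win_val_some Λ hq).2 (h1 _ hh)
    · obtain ⟨q, hq, hh⟩ := own' a hs
      rw [Bool.eq_false_iff]
      exact fun hc => h2 _ hh ((win_val_some Λ hq).1 hc)
  by_cases hy' : (H L : ℤ) ∣ y
  swap
  · refine mk _ _ (linkY hl 0 0 (x, y)) (fun t ht => ?_) fun t ht hY => hy' ?_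
    · simp [ExpY, ht.1.2.2.1, res]
    · simp only [ExpY, ht.1.2.2.1, zero_add, res, Nat.cast_zero] at hY
      exact Int.dvd_of_emod_eq_zero hY.symm
  by_cases hx' : (H L : ℤ) ∣ x
  swap
  · refine mk _ _ ((link_zero hL hl 0 0 (by simp [res])).trans
      (link_zero hL hl 0 (x, y) (by simpa [res] using Int.emod_eq_zero_of_dvd hy')).symm)
      (fun t ht => ?_) fun t ht hE => hx' ?_
    · obtain ⟨⟨h1, h2, h3, -⟩, -⟩ := ht
      exact ⟨h1, by simp [h2, res], by simp [h3, res]⟩
    · have := hE.2.1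
      simp only [ht.1.2.1, Prod.fst_zero, zero_add, res, Nat.cast_zero] at this
      exact Int.dvd_of_emod_eq_zero this.symm
  obtain ⟨m, rfl⟩ := hx'
  obtain ⟨n, rfl⟩ := hy'
  have hl' := head_lattice (o := v) hL hl hM 0 false false m n
  rw [zero_add] at hl'
  refine mk _ _ hl'.symm (fun t ht => ht) fun t ht hH => h ?_
  obtain ⟨⟨-, -, -, e1⟩, -, -, -, e2⟩ := ht
  obtain ⟨⟨-, -, -, f1⟩, -, -, -, f2⟩ := hH
  rw [e1, Option.some.injEq] at f1
  rw [e2, Option.some.injEq] at f2
  simp only [flipBy, Bool.false_xor, eq_comm (a := false), decide_eq_false_iff_not] at f1 f2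
  obtain ⟨m', rfl⟩ : (2 : ℤ) ∣ m := by omega
  obtain ⟨n', rfl⟩ : (2 : ℤ) ∣ n := by omega
  exact ⟨⟨m', by simp [cell, side]; ring⟩, n', by simp [cell, side]; ring⟩

end Virtual

end Vale.Agent.P196.Tile.Rigid
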